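import Vale.Agent.P210D.Tr
import Vale.Agent.P210G.Grad

/-!
# P223T: iterated graphs; definitions (helper19)
-/

open MeasureTheory Set
open Vale.Agent.P366M Vale.Agent.P366M.Gr Vale.Agent.P366M.Y.C Vale.Agent.P210R

noncomputable section

namespace Vale.Agent.P223T

variable {n : ℕ} {M : Type} [Mf0 n M]

/-- `g` is obtained from `g₀` by finitely many graph moves, and `Q` bounds the sum of the squares
of their second fundamental forms -/
inductive GI (g₀ : Fld n M) : Fld n M → (M → ℝ) → Prop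
  | base : GI g₀ g₀ fun _ => 0
  | step {g : Fld n M} {Q w : M → ℝ} : GI g₀ g Q → Smooth w →
      GI g₀ (gb g 1 w) fun x => Q x + a2 g w x
  | mono {g : Fld n M} {Q Q' : M → ℝ} : GI g₀ g Q → (∀ x, Q x ≤ Q' x) → GI g₀ g Q'

/-- the inequality of Sobolev for all iterated graphs over `g₀` -/
def Sob (g₀ : Fld n M) (y : ℝ) (O : Set M) : Prop :=
  ∀ (g : Fld n M) (Q u : M → ℝ), GI g₀ g Q → Continuous Q → Smooth u → HasCompactSupport u →
    tsupport u ⊆ O → y * (∫ x, |u x| ^ (2 * (n : ℝ) / (n - 2)) ∂vol g) ^ (((n : ℝ) - 2) / n) ≤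
      ∫ x, (ip g u u x + (1 + Q x) * u x ^ 2) ∂vol g

/-- the lower bound of the scalar curvature for all iterated graphs over `g₀` -/
def Cur (g₀ : Fld n M) (C : ℝ) (O : Set M) : Prop :=
  ∀ (g : Fld n M) (Q : M → ℝ), GI g₀ g Q → ∀ x ∈ O, -C - Q x ≤ scal g x

/-- immersions with bounded distortion and bounded second derivatives -/
def Imm (g₀ : Fld n M) (Λ : ℝ) (O : Set M) : Prop :=
  ∀ K : Set M, IsCompact K → K ⊆ O → ∃ (κ : Type) (_ : Fintype κ) (Φ : κ → M → ℝ),
    (∀ k, Smooth (Φ k)) ∧ ∀ x ∈ K,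
      (∀ ξ : Fin n → ℝ, ∑ i, ∑ j, g₀ x i j * ξ i * ξ j ≤ Λ * ∑ k, (∑ i, pd i (Φ k) x * ξ i) ^ 2) ∧
      ∑ k, ip g₀ (Φ k) (Φ k) x ≤ Λ ∧ ∑ k, normSq g₀ (hess g₀ (Φ k)) x ≤ Λ

variable {g₀ g : Fld n M} {Q Q' : M → ℝ}

theorem GI.met (h : GI g₀ g Q) (h₀ : Met g₀) : Met g := by
  induction h with
  | base => exact h₀
  | step _ hw ih => exact met_g ih hw
  | mono _ _ ih => exact ih

theorem GI.nonneg (h : GI g₀ g Q) (h₀ : Met g₀) (x : M) : 0 ≤ Q x := by
  induction h with
  | base => exact le_rfl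
  | step h hw ih => exact add_nonneg ih (a2_nonneg (h.met h₀) hw x)
  | mono _ h ih => exact ih.trans (h x)

/-- one move -/
theorem GI.move (h : GI g₀ g Q) {w : M → ℝ} (hw : Smooth w) (hQ : ∀ x, Q x + a2 g w x ≤ Q' x) :
    GI g₀ (gb g 1 w) Q' := (h.step hw).mono hQ

/-- a sweep -/
theorem GI.gs (h : GI g₀ g Q) {w : ℕ → M → ℝ} (hw : ∀ j, Smooth (w j)) (m : ℕ) :
    GI g₀ (gs g w m) fun x => Q x + ∑ j ∈ Finset.range m, a2 (gs g w j) (w j) x := by
  induction m with
  | zero => exact h.mono fun x => by simp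
  | succ m ih => exact ih.move (hw m) fun x => by rw [Finset.sum_range_succ, add_assoc]

theorem GI.trans {g' : Fld n M} (h : GI g₀ g Q) (h' : GI g g' Q') :
    GI g₀ g' fun x => Q x + Q' x := by
  induction h' with
  | base => exact h.mono fun x => by simp
  | step _ hw ih => exact ih.move hw fun x => by rw [add_assoc]
  | mono _ k ih => exact ih.mono fun x => by linarith [k x]

/-- the metric increases -/
theorem GI.ip_le (h : GI g₀ g Q) (h₀ : Met g₀) (u : M → ℝ) (x : M) : ip g u u x ≤ ip g₀ u u x := by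
  induction h with
  | base => exact le_rfl
  | step h _ ih => exact (ip_g_le (h.met h₀) _ u x).trans ih
  | mono _ _ ih => exact ih

end Vale.Agent.P223T
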