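import Vale.Agent.P210R.Sta

/-!
# P223T: the approximate step; definitions
-/

open Filter Topology Set
open scoped ContDiff
open Vale.Agent.P366M Vale.Agent.P366M.Gr Vale.Agent.P366M.Y.C Vale.Agent.P210G Vale.Agent.P210R

noncomputable section

namespace Vale.Agent.P223T

section

variable {n : ℕ} {X : Type} [Mf0 n X]

/-- the prescribed mean curvature without the spring -/
def H0 (g : Fld n X) (W K : X → ℝ) (q β s ε : ℝ) (w : X → ℝ) (x : X) : ℝ :=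
  -(q * yy g w x) + W x * w x + β * (w x - (s * K x + ε) / w x)

/-- the approximate step at the point `x` -/
def Ap (g₀ g : Fld n X) (v : Fin n → X → ℝ) (W K : X → ℝ) (q β s ε η : ℝ) (w : X → ℝ)
    (v' : Fin n → X → ℝ) (x : X) : Prop := ∃ Z ≥ (0 : ℝ),
  Rv g v x + 3 / 4 * hq q g w x + Z + H0 g W K q β s ε w x ^ 2 + 2 * q * (1 - q) * yy g w x ^ 2 +
    2 * (W x + β) * ((1 - uu g w x ^ 2) / uu g w x) - 2 * β * (s * fi g K x) +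
    2 * w x * dn g w W x - η ≤ Rv (gb g 1 w) v' x ∧
  hv g v w x ^ 2 ≤ 2 * H0 g W K q β s ε w x ^ 2 + 8 * Z + η ∧
  iv g₀ (fun i y => v' i y - vg g v w i y) (fun i y => v' i y - vg g v w i y) x ≤ η * (1 + Z)

end

/-- **LST**: the local approximate step, on any manifold -/
def LST : Prop := ∃ β₀ : ℝ, ∀ (n : ℕ) (X : Type) [Mf0 n X] (g₀ g : Fld n X) (v : Fin n → X → ℝ)
  (ϱ W K : X → ℝ) (K₀ D : Set X) (q β A s ε η : ℝ), 2 ≤ n → Met g₀ → Met g → CC ∞ v → Smooth ϱ →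
  Smooth W → Smooth K → IsCompact K₀ → K₀ ⊆ interior D → (∀ x ∈ D, x ∉ K₀ → 4 ≤ ϱ x) →
  (∀ x ∈ D, ip g ϱ ϱ x ≤ 1) → (∀ x, 0 ≤ W x ∧ W x ≤ A ∧ 0 ≤ K x) →
  (∀ x ∈ D, 0 < ϱ x → W x = A ∧ K x = 0) → 0 ≤ q → q ≤ 1 → β₀ ≤ β → 0 < β → 0 ≤ s → 0 < ε →
  β ^ 2 ≤ η * A → 16 * ε * (A + β + 1) ^ 2 ≤ η →
  ∃ (w : X → ℝ) (v' : Fin n → X → ℝ), Smooth w ∧ (∀ x, 0 < w x) ∧ CC ∞ v' ∧
    (∀ x ∉ K₀, w x = √ε ∧ ∀ i, v' i x = v i x) ∧ ∀ x ∈ D, Ap g₀ g v W K q β s ε η w v' x ∧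
      (ϱ x < 3 → ε ≤ w x ^ 2 → H0 g W K q β s ε w x ≤ hv g v w x) ∧ (2 ≤ ϱ x → w x ^ 2 ≤ 2 * ε)

end Vale.Agent.P223T
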