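import Vale.Agent.P223.H441.Bil1

/-!
# P223T: inequalities for matrices
-/

open Matrix

noncomputable section

namespace Vale.Agent.P223T

variable {n : ℕ} {U U' V V' A B : Matrix (Fin n) (Fin n) ℝ}

/-- the inner product of 2-tensors for two inverse metrics -/
def m2 (U V A B : Matrix (Fin n) (Fin n) ℝ) : ℝ :=
  ∑ i, ∑ j, ∑ k, ∑ l, U i k * V j l * A i j * B k l

/-- the contraction -/
def ct (U A : Matrix (Fin n) (Fin n) ℝ) : ℝ := ∑ i, ∑ j, U i j * A i j

theorem psd_sy (hU : U.PosSemidef) (i j : Fin n) : U i j = U j i := by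
  have := hU.isHermitian
  rw [IsHermitian, conjTranspose_eq_transpose_of_trivial] at this
  exact congrFun (congrFun this j) i

theorem m2_nn (hU : U.PosSemidef) (hV : V.PosSemidef) (A : Matrix (Fin n) (Fin n) ℝ) :
    0 ≤ m2 U V A A := by
  refine ((hU.kronecker hV).dotProduct_mulVec_nonneg fun p => A p.1 p.2).trans_eq ?_
  simp only [m2, dotProduct, mulVec, star_trivial, Finset.mul_sum, kroneckerMap,
    of_apply, Fintype.sum_prod_type]
  exact Finset.sum_congr rfl fun i _ => Finset.sum_congr rfl fun j _ =>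
    Finset.sum_congr rfl fun k _ => Finset.sum_congr rfl fun l _ => by ring

theorem m2_mono (hU : U.PosSemidef) (h : (V - U).PosSemidef) (A : Matrix (Fin n) (Fin n) ℝ) :
    m2 U U A A ≤ m2 V V A A := by
  have hV : V.PosSemidef := by simpa using h.add hU
  have h1 := m2_nn h hV A
  have h2 := m2_nn hU h A
  have e : m2 V V A A = m2 U U A A + m2 (V - U) V A A + m2 U (V - U) A A := by
    simp only [m2, ← Finset.sum_add_distrib, Matrix.sub_apply]
    exact Finset.sum_congr rfl fun i _ => Finset.sum_congr rfl fun j _ =>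
      Finset.sum_congr rfl fun k _ => Finset.sum_congr rfl fun l _ => by ring
  linarith

theorem m2_sy (hU : U.PosSemidef) (hV : V.PosSemidef) (A B : Matrix (Fin n) (Fin n) ℝ) :
    m2 U V A B = m2 U V B A := by
  unfold m2
  calc ∑ i, ∑ j, ∑ k, ∑ l, U i k * V j l * A i j * B k l
      = ∑ i, ∑ k, ∑ j, ∑ l, U i k * V j l * A i j * B k l :=
        Finset.sum_congr rfl fun i _ => Finset.sum_comm
    _ = ∑ k, ∑ i, ∑ l, ∑ j, U i k * V j l * A i j * B k l := by
        rw [Finset.sum_comm]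
        exact Finset.sum_congr rfl fun k _ => Finset.sum_congr rfl fun i _ => Finset.sum_comm
    _ = ∑ k, ∑ l, ∑ i, ∑ j, U i k * V j l * A i j * B k l :=
        Finset.sum_congr rfl fun i _ => Finset.sum_comm
    _ = _ := Finset.sum_congr rfl fun i _ => Finset.sum_congr rfl fun j _ =>
        Finset.sum_congr rfl fun k _ => Finset.sum_congr rfl fun l _ => by
          rw [psd_sy hU k i, psd_sy hV l j]; ring

theorem m2_cs (hU : U.PosSemidef) (hV : V.PosSemidef) (A B : Matrix (Fin n) (Fin n) ℝ) :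
    m2 U V A B ^ 2 ≤ m2 U V A A * m2 U V B B := by
  have key : ∀ t : ℝ, 0 ≤ m2 U V B B * (t * t) + (2 * m2 U V A B) * t + m2 U V A A := by
    intro t
    refine (m2_nn hU hV (t • B + A)).trans_eq ?_
    rw [two_mul]
    nth_rw 1 [m2_sy hU hV A B]
    simp only [m2, add_mul, Finset.sum_mul, ← Finset.sum_add_distrib, Matrix.add_apply,
      Matrix.smul_apply, smul_eq_mul]
    exact Finset.sum_congr rfl fun _ _ => Finset.sum_congr rfl fun _ _ =>
      Finset.sum_congr rfl fun _ _ => Finset.sum_congr rfl fun _ _ => by ring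
  have h := discrim_le_zero key
  unfold discrim at h
  nlinarith

theorem m2_inv (hU : U.PosDef) (A : Matrix (Fin n) (Fin n) ℝ) : m2 U U A U⁻¹ = ct U A := by
  refine Finset.sum_congr rfl fun i _ => Finset.sum_congr rfl fun j _ => ?_
  have h : (U * U⁻¹ * Uᵀ) i j = U i j := by
    rw [mul_nonsing_inv _ hU.det_pos.ne'.isUnit, Matrix.one_mul, transpose_apply,
      psd_sy hU.posSemidef j i]
  rw [← h]
  simp only [mul_apply, transpose_apply, Finset.sum_mul]
  rw [Finset.sum_comm]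
  exact Finset.sum_congr rfl fun _ _ => Finset.sum_congr rfl fun _ _ => by ring

theorem ct_inv (hU : U.PosDef) : ct U U⁻¹ = n := by
  have h : ∀ i, ∑ j, U i j * U⁻¹ i j = 1 := fun i => by
    have := congrFun (congrFun (mul_nonsing_inv _ hU.det_pos.ne'.isUnit) i) i
    rw [mul_apply, one_apply_eq] at this
    rw [← this]
    exact Finset.sum_congr rfl fun j _ => by rw [psd_sy hU.inv.posSemidef i j]
  simp [ct, h]

theorem ct_sq_le (hU : U.PosDef) (A : Matrix (Fin n) (Fin n) ℝ) : ct U A ^ 2 ≤ n * m2 U U A A := by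
  have h := m2_cs hU.posSemidef hU.posSemidef A U⁻¹
  rwa [m2_inv hU, m2_inv hU, ct_inv hU, mul_comm] at h

/-- `0 < U ≤ V` -/
def UL (V U : Matrix (Fin n) (Fin n) ℝ) : Prop := U.PosDef ∧ (V - U).PosSemidef

theorem UL.self (hU : U.PosDef) : UL U U := ⟨hU, by rw [sub_self]; exact PosSemidef.zero⟩

theorem UL.trans (h : UL V U) (h' : (V' - V).PosSemidef) : UL V' U :=
  ⟨h.1, by simpa using h'.add h.2⟩

theorem UL.ct_le (h : UL V U) (A : Matrix (Fin n) (Fin n) ℝ) : ct U A ^ 2 ≤ n * m2 V V A A :=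
  (ct_sq_le h.1 A).trans (mul_le_mul_of_nonneg_left (m2_mono h.1.posSemidef h.2 A) n.cast_nonneg)

theorem UL.entry_le (h : UL V U) (i j : Fin n) : |U i j| ≤ V i i + V j j := by
  have h1 := h.2.diag_nonneg (i := i)
  have h2 := h.2.diag_nonneg (i := j)
  have h3 := h.1.posSemidef.diag_nonneg (i := i)
  have h4 := h.1.posSemidef.diag_nonneg (i := j)
  have key : ∀ t : ℝ, 0 ≤ U i i + t * U i j + t * U j i + t * t * U j j := fun t => by
    have := h.1.posSemidef.dotProduct_mulVec_nonneg (Pi.single i 1 + t • Pi.single j 1)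
    simp only [star_trivial, mulVec_add, mulVec_smul, dotProduct_add, add_dotProduct,
      dotProduct_smul, smul_dotProduct, mulVec_single_one, single_one_dotProduct, smul_eq_mul,
      col_apply] at this
    linarith
  have k1 := key 1
  have k2 := key (-1)
  rw [Matrix.sub_apply] at h1 h2
  rw [psd_sy h.1.posSemidef j i] at k1 k2
  rw [abs_le]
  constructor <;> linarith

theorem quad_eq (A : Matrix (Fin n) (Fin n) ℝ) (ξ : Fin n → ℝ) :
    ξ ⬝ᵥ A *ᵥ ξ = ∑ i, ∑ j, A i j * ξ i * ξ j := by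
  simp only [dotProduct, mulVec, Finset.mul_sum]
  exact Finset.sum_congr rfl fun _ _ => Finset.sum_congr rfl fun _ _ => by ring

/-- `A ≤ Λ B` gives `B⁻¹ / Λ ≤ A⁻¹` -/
theorem ul_inv (hA : A.PosDef) (hB : B.PosDef) {Λ : ℝ} (hΛ : 0 < Λ)
    (h : ∀ ξ : Fin n → ℝ, ∑ i, ∑ j, A i j * ξ i * ξ j ≤ Λ * ∑ i, ∑ j, B i j * ξ i * ξ j) :
    UL A⁻¹ (Λ⁻¹ • B⁻¹) := by
  have hB' : (Λ • B).PosDef := hB.smul hΛ
  have e : (Λ • B)⁻¹ = Λ⁻¹ • B⁻¹ := by
    refine inv_eq_right_inv ?_
    rw [Matrix.smul_mul, Matrix.mul_smul, smul_smul, mul_inv_cancel₀ hΛ.ne', one_smul,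
      mul_nonsing_inv _ hB.det_pos.ne'.isUnit]
  rw [← e]
  refine ⟨hB'.inv, PosSemidef.of_dotProduct_mulVec_nonneg
    (hA.inv.isHermitian.sub hB'.inv.isHermitian) fun ξ => ?_⟩
  have := P223.H441.Bil.inv_anti hA hB' (fun v => by
    rw [smul_mulVec, dotProduct_smul, quad_eq, quad_eq]; exact h v) ξ
  rw [star_trivial, sub_mulVec, dotProduct_sub]
  linarith

theorem det_le (hA : A.PosDef) (hB : B.PosDef) {Λ : ℝ} (hΛ : 0 < Λ)
    (h : ∀ ξ : Fin n → ℝ, ∑ i, ∑ j, A i j * ξ i * ξ j ≤ Λ * ∑ i, ∑ j, B i j * ξ i * ξ j) :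
    A.det ≤ Λ ^ n * B.det := by
  have := P223.H441.Bil.det_mono hA (hB.smul hΛ) fun v => by
    rw [smul_mulVec, dotProduct_smul, quad_eq, quad_eq]; exact h v
  rwa [det_smul, Fintype.card_fin] at this

end Vale.Agent.P223T
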