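import Vale.Agent.P223T.Defs
import Vale.Agent.P223T.Mat

/-!
# P223T: the equation of Gauss for iterated graphs
-/

open Filter Topology Set
open scoped ContDiff

noncomputable section

namespace Vale.Agent.P223T

section euclid

open Vale.Agent.P366.Stmt Vale.Agent.P366Z Vale.Agent.P366Y.C Vale.Agent.P366P

variable {n : ℕ} {g : Field n} {f : E n → ℝ}

/-- the Christoffel symbols of the first kind -/
def low (g : Field n) (a i j : Fin n) (y : E n) : ℝ := ∑ e, g y a e * chr g e i j y

/-- the covariant curvature tensor -/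
def RL (g : Field n) (a b k j : Fin n) (y : E n) : ℝ :=
  pd k (low g a j b) y - pd j (low g a k b) y - ∑ e, low g e k a y * chr g e j b y +
    ∑ e, low g e j a y * chr g e k b y

theorem sm_low (hg : Met g) (a i j : Fin n) : Smooth (low g a i j) :=
  ContDiff.sum fun e _ => ContDiff.mul (hg.sm a e) (hg.sm_chr e i j)

theorem sm_RL (hg : Met g) (a b k j : Fin n) : Smooth (RL g a b k j) :=
  ContDiff.add (ContDiff.sub (ContDiff.sub ((sm_low hg a j b).pd k) ((sm_low hg a k b).pd j))
    (ContDiff.sum fun e _ => ContDiff.mul (sm_low hg e k a) (hg.sm_chr e j b)))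
    (ContDiff.sum fun e _ => ContDiff.mul (sm_low hg e j a) (hg.sm_chr e k b))

theorem RL_eq (hg : Met g) (a b k j : Fin n) (y : E n) :
    RL g a b k j y = ∑ e, g y a e * Fm g k j y e b := by
  have h : ∀ k j, pd k (low g a j b) y = ∑ e, (low g e k a y + low g a k e y) * chr g e j b y +
      ∑ e, g y a e * pd k (chr g e j b) y := fun k j => by
    rw [show low g a j b = fun y => ∑ e, g y a e * chr g e j b y from rfl,
      pd_sum _ fun e _ => ((hg.sm a e).diff y).fun_mul ((hg.sm_chr e j b).diff y),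
      ← Finset.sum_add_distrib]
    refine Finset.sum_congr rfl fun e _ => ?_
    rw [pd_mul ((hg.sm a e).diff y) ((hg.sm_chr e j b).diff y), hg.pd_g]
    rfl
  have h2 : ∀ k j, ∑ e, g y a e * ∑ m, chr g e k m y * chr g m j b y =
      ∑ e, low g a k e y * chr g e j b y := fun k j => by
    simp only [low, Finset.mul_sum, Finset.sum_mul]
    rw [Finset.sum_comm]
    exact Finset.sum_congr rfl fun _ _ => Finset.sum_congr rfl fun _ _ => by ring
  have h3 : ∀ e, Fm g k j y e b = pd k (chr g e j b) y - pd j (chr g e k b) y +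
      ∑ m, chr g e k m y * chr g m j b y - ∑ m, chr g e j m y * chr g m k b y := fun e => rfl
  simp only [RL, h, h3, mul_sub, mul_add, add_mul, Finset.sum_add_distrib, Finset.sum_sub_distrib,
    h2]
  ring

/-- the double trace -/
def Rq (g : Field n) (U : Matrix (Fin n) (Fin n) ℝ) (y : E n) : ℝ :=
  ∑ a, ∑ b, ∑ k, ∑ j, U a k * U b j * RL g a b k j y

theorem Rq_inv (hg : Met g) (y : E n) : Rq g (mat g y)⁻¹ y = scal g y := by
  have h : ∀ b k j, ∑ a, (mat g y)⁻¹ a k * RL g a b k j y = Fm g k j y k b := fun b k j => by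
    rw [← hg.up_g_mul y k fun e => Fm g k j y e b]
    exact Finset.sum_congr rfl fun a _ => by rw [RL_eq hg, hg.up_sy k a]; rfl
  rw [scal_eq_tr hg, tr, Rq, Finset.sum_comm, Finset.sum_comm (f := fun i j => up g i j y * _)]
  refine Finset.sum_congr rfl fun b _ => ?_
  simp only [rc_eq hg, ← h, Finset.mul_sum]
  rw [Finset.sum_comm]
  symm
  rw [Finset.sum_comm]
  refine Finset.sum_congr rfl fun k _ => ?_
  rw [Finset.sum_comm]
  exact Finset.sum_congr rfl fun a _ => Finset.sum_congr rfl fun j _ => by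
    rw [hg.up_sy j b, up]; ring

theorem low_g (hg : Met g) (hf : Smooth f) (a i j : Fin n) :
    low (gb g 1 f) a i j = fun y => low g a i j y + pd a f y * pd i (pd j f) y := by
  funext x
  have h0 := (w_pos hg f x).ne'
  have e2 : ∑ k, g x a k * nv g f k x = pd a f x / ww g 1 f x := by
    simp only [nv, ← mul_div_assoc, ← Finset.sum_div]
    rw [← hg.g_up_mul x a fun j => pd j f x]; rfl
  have e3 : ∑ k, pd k f x * nv g f k x = (ww g 1 f x ^ 2 - 1) / ww g 1 f x := by
    rw [← dn_eq hg, dn, w_sq hg]; ring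
  have e4 : ∑ k, gb g 1 f x a k * (chr g k i j x + nv g f k x * (hess g f x i j / ww g 1 f x)) =
      ∑ k, g x a k * chr g k i j x + pd a f x * ∑ k, chr g k i j x * pd k f x +
      (∑ k, g x a k * nv g f k x + pd a f x * ∑ k, pd k f x * nv g f k x) *
        (hess g f x i j / ww g 1 f x) := by
    simp only [gb, Finset.mul_sum, Finset.sum_mul, add_mul, ← Finset.sum_add_distrib, Pi.one_apply]
    exact Finset.sum_congr rfl fun _ _ => by ring
  simp only [low, P210D.chrE hg hf]
  rw [e4, e2, e3, hess]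
  field_simp
  ring

theorem low_chr (hg : Met g) (hf : Smooth f) (a b k j : Fin n) (x : E n) :
    ∑ e, low (gb g 1 f) e k a x * chr (gb g 1 f) e j b x = ∑ e, low g e k a x * chr g e j b x +
      pd k (pd a f) x * pd j (pd b f) x - sf g f x k a * sf g f x j b := by
  have h0 := (w_pos hg f x).ne'
  have e1 : ∑ e, low g e k a x * nv g f e x = (∑ m, chr g m k a x * pd m f x) / ww g 1 f x := by
    have : ∀ m, pd m f x = ∑ e, g x m e * gr g f e x := fun m =>
      (hg.g_up_mul x m fun j => pd j f x).symm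
    simp only [low, nv, this, Finset.mul_sum, Finset.sum_mul, Finset.sum_div]
    rw [Finset.sum_comm]
    exact Finset.sum_congr rfl fun _ _ => Finset.sum_congr rfl fun _ _ => by
      rw [hg.sy x]; ring
  have e3 : ∑ k, pd k f x * nv g f k x = (ww g 1 f x ^ 2 - 1) / ww g 1 f x := by
    rw [← dn_eq hg, dn, w_sq hg]; ring
  have e4 : ∑ e, (low g e k a x + pd e f x * pd k (pd a f) x) *
      (chr g e j b x + nv g f e x * (hess g f x j b / ww g 1 f x)) =
      ∑ e, low g e k a x * chr g e j b x + (∑ e, low g e k a x * nv g f e x) *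
        (hess g f x j b / ww g 1 f x) + pd k (pd a f) x * (∑ e, chr g e j b x * pd e f x +
        (∑ e, pd e f x * nv g f e x) * (hess g f x j b / ww g 1 f x)) := by
    simp only [Finset.mul_sum, Finset.sum_mul, mul_add, ← Finset.sum_add_distrib]
    exact Finset.sum_congr rfl fun _ _ => by ring
  simp only [low_g hg hf, P210D.chrE hg hf]
  rw [e4, e1, e3, sf, sf, hess, hess]
  field_simp
  ring

/-- **the equation of Gauss** for the curvature tensor of a graph -/
theorem RL_g (hg : Met g) (hf : Smooth f) (a b k j : Fin n) (x : E n) :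
    RL (gb g 1 f) a b k j x =
      RL g a b k j x + (sf g f x k a * sf g f x j b - sf g f x j a * sf g f x k b) := by
  have h : ∀ k j, pd k (low (gb g 1 f) a j b) x = pd k (low g a j b) x +
      (pd k (pd a f) x * pd j (pd b f) x + pd a f x * pd k (pd j (pd b f)) x) := fun k j => by
    rw [low_g hg hf, pd_add ((sm_low hg a j b).diff x)
      (((hf.pd a).diff x).fun_mul (((hf.pd b).pd j).diff x)),
      pd_mul ((hf.pd a).diff x) (((hf.pd b).pd j).diff x)]
  rw [RL, RL, h, h, low_chr hg hf, low_chr hg hf, pd_comm ((hf.pd b).c2 x) k j]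
  ring

theorem Rq_g (hg : Met g) (hf : Smooth f) (x : E n) {U : Matrix (Fin n) (Fin n) ℝ}
    (hU : UL (mat (gb g 1 f) x)⁻¹ U) : Rq g U x - a2 g f x ≤ Rq (gb g 1 f) U x := by
  have h1 : Rq (gb g 1 f) U x = Rq g U x + (ct U (sf g f x) ^ 2 - m2 U U (sf g f x) (sf g f x)) := by
    have e1 : ct U (sf g f x) ^ 2 =
        ∑ a, ∑ b, ∑ k, ∑ j, U a k * U b j * (sf g f x k a * sf g f x j b) := by
      simp only [ct, sq, Finset.sum_mul_sum]
      refine Finset.sum_congr rfl fun a _ => Finset.sum_congr rfl fun b _ =>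
        Finset.sum_congr rfl fun k _ => Finset.sum_congr rfl fun j _ => ?_
      rw [sf_sy hg hf x k a, sf_sy hg hf x j b]; ring
    have e2 : m2 U U (sf g f x) (sf g f x) =
        ∑ a, ∑ b, ∑ k, ∑ j, U a k * U b j * (sf g f x j a * sf g f x k b) := by
      refine Finset.sum_congr rfl fun a _ => ?_
      rw [Finset.sum_comm]
      symm
      rw [Finset.sum_comm]
      refine Finset.sum_congr rfl fun k _ => ?_
      rw [Finset.sum_comm]
      refine Finset.sum_congr rfl fun j _ => Finset.sum_congr rfl fun b _ => ?_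
      rw [sf_sy hg hf x j a, psd_sy hU.1.posSemidef b j]; ring
    simp only [e1, e2, Rq, RL_g hg hf, mul_add, mul_sub, Finset.sum_add_distrib,
      Finset.sum_sub_distrib]
  have h2 : m2 U U (sf g f x) (sf g f x) ≤ a2 g f x := m2_mono hU.1.posSemidef hU.2 _
  nlinarith [sq_nonneg (ct U (sf g f x))]

theorem psd_g (hg : Met g) (f : E n → ℝ) (x : E n) :
    ((mat g x)⁻¹ - (mat (gb g 1 f) x)⁻¹).PosSemidef := by
  have : (mat g x)⁻¹ - (mat (gb g 1 f) x)⁻¹ =
      Matrix.vecMulVec (fun i => nv g f i x) (star fun i => nv g f i x) := by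
    ext i j
    have := up_g hg f i j x
    simp only [up] at this
    simp [Matrix.vecMulVec_apply, this]
  rw [this]
  exact Matrix.posSemidef_vecMulVec_self_star _

theorem Rq_bd (hg : Met g) {B : Set (E n)} (hB : IsCompact B) : ∃ C, ∀ y ∈ B,
    ∀ U, UL (mat g y)⁻¹ U → -C ≤ Rq g U y := by
  have hc : Continuous fun y => ∑ a, ∑ b, ∑ k, ∑ j, (up g a a y + up g k k y) *
      (up g b b y + up g j j y) * |RL g a b k j y| :=
    continuous_finsetSum _ fun a _ => continuous_finsetSum _ fun b _ =>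
      continuous_finsetSum _ fun k _ => continuous_finsetSum _ fun j _ =>
        (((hg.sm_up a a).cont.add (hg.sm_up k k).cont).mul
          ((hg.sm_up b b).cont.add (hg.sm_up j j).cont)).mul (sm_RL hg a b k j).cont.abs
  obtain ⟨C, hC⟩ := hB.bddAbove_image hc.continuousOn
  refine ⟨C, fun y hy U hU => neg_le_of_abs_le (le_trans ?_ (hC (mem_image_of_mem _ hy)))⟩
  refine (Finset.abs_sum_le_sum_abs _ _).trans (Finset.sum_le_sum fun a _ => ?_)
  refine (Finset.abs_sum_le_sum_abs _ _).trans (Finset.sum_le_sum fun b _ => ?_)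
  refine (Finset.abs_sum_le_sum_abs _ _).trans (Finset.sum_le_sum fun k _ => ?_)
  refine (Finset.abs_sum_le_sum_abs _ _).trans (Finset.sum_le_sum fun j _ => ?_)
  rw [abs_mul, abs_mul]
  exact mul_le_mul_of_nonneg_right (mul_le_mul (hU.entry_le a k) (hU.entry_le b j) (abs_nonneg _)
    ((abs_nonneg _).trans (hU.entry_le a k))) (abs_nonneg _)

end euclid

open Vale.Agent.P366M Vale.Agent.P366M.Gr Vale.Agent.P366M.Y.C Vale.Agent.P366M.Y.C.GbH
open Vale.Agent.P366.Stmt (E)

variable {n : ℕ} {M : Type} [Mf0 n M] {g₀ g : Fld n M} {Q w : M → ℝ} {e : Ch n M}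

theorem a2_rep (hg : Met g) (he : e ∈ At M) (hw : Smooth w) (y : E n) :
    P366P.a2 (rep e g) (loc e w) y = a2 g w (e.symm y) := by
  have h1 : P366P.sf (rep e g) (loc e w) y =
      rep e (fun x i j => (ww g 1 w x)⁻¹ * hess g w x i j) y := by
    funext i j
    rw [P366P.sf, hess_rep hg he (hw.c2 _), ← loc_w he g hw, rep_smul, div_eq_inv_mul]
    rfl
  rw [P366P.a2, ← rep_g he g hw, a2]
  simp only [div_eq_inv_mul]
  rw [← normSq_rep he]
  simp only [P366.Stmt.normSq, h1]

theorem GI.rq (h : GI g₀ g Q) (h₀ : Met g₀) (he : e ∈ At M) (y : E n)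
    {U : Matrix (Fin n) (Fin n) ℝ} (hU : UL (P366.Stmt.mat (rep e g) y)⁻¹ U) :
    UL (P366.Stmt.mat (rep e g₀) y)⁻¹ U ∧ Rq (rep e g₀) U y - Q (e.symm y) ≤ Rq (rep e g) U y := by
  induction h with
  | base => exact ⟨hU, by simp⟩
  | step h hw ih =>
    have hg := h.met h₀
    rw [rep_g he _ hw] at hU ⊢
    obtain ⟨h1, h2⟩ := ih (hU.trans (psd_g (hg.rep he) _ y))
    have h3 := Rq_g (hg.rep he) (hw e he) y hU
    rw [a2_rep hg he hw] at h3
    exact ⟨h1, by linarith⟩
  | mono _ k ih => exact ⟨(ih hU).1, by linarith [(ih hU).2, k (e.symm y)]⟩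

theorem Cur.mono {C C' : ℝ} {O O' : Set M} (h : Cur g₀ C O) (hC : C ≤ C') (hO : O' ⊆ O) :
    Cur g₀ C' O' := fun g Q k x hx => by linarith [h g Q k x (hO hx)]

/-- **the scalar curvature of iterated graphs** on a compact set -/
theorem cur_cpt (h₀ : Met g₀) {K : Set M} (hK : IsCompact K) : ∃ C, Cur g₀ C K := by
  refine hK.induction_on (p := fun s => ∃ C, Cur g₀ C s) ⟨0, fun _ _ _ _ h => h.elim⟩
    (fun s t hst ⟨C, hC⟩ => ⟨C, hC.mono le_rfl hst⟩) ?_ fun x _ => ?_
  · rintro s t ⟨C, hC⟩ ⟨D, hD⟩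
    exact ⟨max C D, fun g Q k x hx => hx.elim (hC.mono (le_max_left _ _) subset_rfl g Q k x)
      (hD.mono (le_max_right _ _) subset_rfl g Q k x)⟩
  · obtain ⟨C, hC⟩ := Rq_bd (h₀.loc' x) (isCompact_closedBall (pt x) 1)
    refine ⟨_, mem_nhdsWithin_of_mem_nhds
      (image_nhds x (Metric.closedBall_mem_nhds (pt x) one_pos)), C, ?_⟩
    rintro g Q k _ ⟨y, hy, rfl⟩
    have hg := k.met h₀
    obtain ⟨h1, h2⟩ := k.rq h₀ (ch_mem x) y (UL.self ((hg.loc' x).pos y).inv)
    rw [Rq_inv (hg.loc' x), scal_rep hg (ch_mem x)] at h2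
    linarith [hC y hy _ h1]

end Vale.Agent.P223T
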