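import Vale.Agent.P223T.Msg
import Vale.Agent.P223T.Gauss
import Vale.Agent.P223Y.Eqv

/-!
# P223T: the inequalities of Gauss and Sobolev near compact sets and on coverings
-/

open MeasureTheory Filter Topology Set Metric
open scoped ContDiff
open Vale.Agent.P366M Vale.Agent.P366M.Gr Vale.Agent.P366M.Y.C Vale.Agent.P210R Vale.Agent.P223Y

noncomputable section

namespace Vale.Agent.P223T

variable {n : ℕ} {M : Type} [Mf0 n M] {g₀ g : Fld n M} {Q : M → ℝ} {K : Set M}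

/-- finitely many functions with compact support which immerse `s` -/
def Emb (g₀ : Fld n M) (s : Set M) : Prop :=
  ∃ (κ : Type) (_ : Fintype κ) (φ : κ → M → ℝ) (Λ : ℝ), 0 ≤ Λ ∧
    (∀ k, Smooth (φ k) ∧ HasCompactSupport (φ k)) ∧ ∀ x ∈ s, ∀ ξ : Fin n → ℝ,
      ∑ i, ∑ j, g₀ x i j * ξ i * ξ j ≤ Λ * ∑ k, (∑ i, pd i (φ k) x * ξ i) ^ 2

theorem emb_loc (h₀ : Met g₀) (p : M) : Emb g₀ ((ch p).symm '' closedBall (pt p) 1) := by
  have he := ch_mem p
  obtain ⟨χ, c1, c2, c3, -, c4⟩ := exists_cut (cpt_image he (isCompact_closedBall (pt p) 1))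
    (ch p).open_source (image_sub he _)
  obtain ⟨C, hC⟩ := (isCompact_closedBall (pt p) 1).exists_bound_of_continuousOn
    (f := fun y => ∑ i, ∑ j, |rep (ch p) g₀ y i j|) (Continuous.continuousOn
      (continuous_finsetSum _ fun i _ => continuous_finsetSum _ fun j _ =>
        (h₀.sm _ he i j).continuous.abs))
  have l : ∀ k, loc (ch p) (fun x => ch p x k) = fun y => y k := fun k => funext fun y => by
    rw [loc_apply, right_inv he]
  have s : ∀ k, Smooth fun x => χ x * ch p x k := fun k => cd_of_cAt le_rfl fun x => by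
    by_cases hx : x ∈ tsupport χ
    · refine CAt.mul (CD.contDiffAt c1) ?_
      rw [← (ch p).left_inv (c3 hx)]
      exact cAt_of_loc le_rfl he (by rw [l]; exact (P366Z.contDiff_coord k).contDiffAt)
    · exact (cAt_const (c := 0)).congr_of_eventuallyEq
        ((notMem_tsupport_iff_eventuallyEq.1 hx).mono fun z hz => by simp [hz])
  refine ⟨Fin n, inferInstance, fun k x => χ x * ch p x k, C,
    (norm_nonneg _).trans (hC _ (mem_closedBall_self one_pos.le)),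
    fun k => ⟨s k, c2.mul_right⟩, ?_⟩
  rintro _ ⟨y, hy, rfl⟩ ξ
  set η : Fin n → ℝ := fun i => repV (ch p) (fun i _ => ξ i) i y with hη
  have a : ∀ k, ∑ i, pd i (fun x => χ x * ch p x k) ((ch p).symm y) * ξ i = η k := fun k => by
    have b : loc (ch p) (fun x => χ x * ch p x k) =ᶠ[𝓝 y] fun z => z k := by
      rw [← l]
      exact loc_congr' he ((c4 _ ⟨y, hy, rfl⟩).mono fun z hz => by simp only [hz, one_mul])
    rw [← dot_rep he (fun i => pd i fun x => χ x * ch p x k) (fun i _ => ξ i) y]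
    simp only [← pd_rep he ((s k).diff _), P366Z.pd_congr b, P366Z.pd_coord, ite_mul, one_mul,
      zero_mul, Finset.sum_ite_eq', Finset.mem_univ, if_true, hη]
  have b : ∀ i, η i ^ 2 ≤ ∑ k, η k ^ 2 := fun i =>
    Finset.single_le_sum (f := fun k => η k ^ 2) (fun _ _ => sq_nonneg _) (Finset.mem_univ i)
  simp only [a]
  rw [← quad_rep he g₀ (fun i _ => ξ i) (fun i _ => ξ i) y]
  refine le_trans ?_ (mul_le_mul_of_nonneg_right ((le_abs_self _).trans (hC y hy))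
    (Finset.sum_nonneg fun _ _ => sq_nonneg _))
  simp only [Finset.sum_mul]
  refine Finset.sum_le_sum fun i _ => Finset.sum_le_sum fun j _ => ?_
  rw [mul_assoc]
  refine (le_abs_self _).trans ?_
  rw [abs_mul]
  refine mul_le_mul_of_nonneg_left (abs_le.2 ⟨?_, ?_⟩) (abs_nonneg _)
  · nlinarith [b i, b j, sq_nonneg (η i + η j)]
  · nlinarith [b i, b j, sq_nonneg (η i - η j)]

theorem emb_cpt (h₀ : Met g₀) (hK : IsCompact K) : Emb g₀ K := by
  refine hK.induction_on ⟨Empty, inferInstance, fun k => k.elim, 0, le_rfl, fun k => k.elim,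
    fun _ h => h.elim⟩ (fun s t hst ⟨κ, _, φ, Λ, h0, h1, h2⟩ =>
      ⟨κ, inferInstance, φ, Λ, h0, h1, fun x hx => h2 x (hst hx)⟩) ?_ fun x _ =>
    ⟨_, mem_nhdsWithin_of_mem_nhds (image_nhds x (closedBall_mem_nhds (pt x) one_pos)),
      emb_loc h₀ x⟩
  rintro s t ⟨κ, _, φ, Λ, h0, h1, h2⟩ ⟨κ', _, φ', Λ', h0', h1', h2'⟩
  refine ⟨κ ⊕ κ', inferInstance, Sum.elim φ φ', Λ + Λ', by positivity,
    fun k => by cases k; exacts [h1 _, h1' _], fun x hx ξ => ?_⟩
  simp only [Fintype.sum_sum_type, Sum.elim_inl, Sum.elim_inr]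
  have p1 : 0 ≤ ∑ k, (∑ i, pd i (φ k) x * ξ i) ^ 2 := Finset.sum_nonneg fun _ _ => sq_nonneg _
  have p2 : 0 ≤ ∑ k, (∑ i, pd i (φ' k) x * ξ i) ^ 2 := Finset.sum_nonneg fun _ _ => sq_nonneg _
  rcases hx with hx | hx
  · nlinarith [h2 x hx ξ, mul_nonneg h0 p2, mul_nonneg h0' p1, mul_nonneg h0' p2]
  · nlinarith [h2' x hx ξ, mul_nonneg h0 p2, mul_nonneg h0' p1, mul_nonneg h0 p1]

theorem nsq_nonneg (h₀ : Met g₀) (T : Fld n M) (x : M) : 0 ≤ normSq g₀ T x :=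
  m2_nn (h₀.inv_pos x).posSemidef (h₀.inv_pos x).posSemidef (T x)

theorem imm_cpt (h₀ : Met g₀) (hK : IsCompact K) : ∃ Λ, Imm g₀ Λ K := by
  obtain ⟨κ, _, φ, Λ, h0, h1, h2⟩ := emb_cpt h₀ hK
  obtain ⟨A, hA⟩ := hK.exists_bound_of_continuousOn (continuous_finsetSum Finset.univ fun k _ =>
    (h₀.sm_ip (h1 k).1 (h1 k).1).cont).continuousOn
  obtain ⟨B, hB⟩ := hK.exists_bound_of_continuousOn (continuous_finsetSum Finset.univ fun k _ =>
    (h₀.sm_normSq (h₀.sm_hess (h1 k).1)).cont).continuousOn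
  refine ⟨max Λ (max A B), fun K' _ hs => ⟨κ, inferInstance, φ, fun k => (h1 k).1, fun x hx =>
    ⟨fun ξ => (h2 x (hs hx) ξ).trans (mul_le_mul_of_nonneg_right (le_max_left _ _)
      (Finset.sum_nonneg fun _ _ => sq_nonneg _)), ?_, ?_⟩⟩⟩
  · exact le_max_of_le_right (le_max_of_le_left ((le_abs_self _).trans (hA x (hs hx))))
  · exact le_max_of_le_right (le_max_of_le_right ((le_abs_self _).trans (hB x (hs hx))))

theorem Imm.mono {Λ : ℝ} {O O' : Set M} (h : Imm g₀ Λ O) (hO : O' ⊆ O) : Imm g₀ Λ O' :=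
  fun K hK hs => h K hK (hs.trans hO)

theorem Sob.mono {y y' : ℝ} {O O' : Set M} (h : Sob g₀ y O) (hy : y' ≤ y) (hO : O' ⊆ O) :
    Sob g₀ y' O' := fun g Q u k hQ hu hc hs =>
  (mul_le_mul_of_nonneg_right hy (Real.rpow_nonneg (integral_nonneg fun _ => by positivity) _)).trans
    (h g Q u k hQ hu hc (hs.trans hO))

/-- **Sobolev near a compact set** -/
theorem sob_cpt (hn : 3 ≤ n) (h₀ : Met g₀) (hK : IsCompact K) : ∃ y > 0, Sob g₀ y K := by
  obtain ⟨K', h1, h2⟩ := exists_compact_superset hK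
  obtain ⟨Λ, h3⟩ := imm_cpt h₀ h1
  obtain ⟨y, h4, h5⟩ := sob_of_imm hn Λ
  exact ⟨y, h4, (h5 M g₀ _ h₀ isOpen_interior (h3.mono interior_subset)).mono le_rfl h2⟩

/-! ### naturality -/

section Nat

variable {Z : Type} [Mf0 n Z] {Φ : Z → M}

theorem gb_cm (h : Cm Φ) (g : Fld n M) (w : M → ℝ) :
    gb (fun z => g (Φ z)) 1 (fun z => w (Φ z)) = fun z => gb g 1 w (Φ z) := by
  funext x i j
  simp only [gb, h.pd, Pi.one_apply]

theorem ww_cm (h : Cm Φ) (g : Fld n M) (w : M → ℝ) :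
    ww (fun z => g (Φ z)) 1 (fun z => w (Φ z)) = fun z => ww g 1 w (Φ z) := by
  funext x
  simp only [ww, h.ip, Pi.one_apply]

theorem a2_cm (h : Cm Φ) (g : Fld n M) (w : M → ℝ) :
    a2 (fun z => g (Φ z)) (fun z => w (Φ z)) = fun z => a2 g w (Φ z) := by
  funext x
  simp only [a2, gb_cm h, ww_cm h, h.hess]
  rfl

theorem GI.cm (k : GI g₀ g Q) (h : Cm Φ) :
    GI (fun z => g₀ (Φ z)) (fun z => g (Φ z)) fun z => Q (Φ z) := by
  induction k with
  | base => exact .base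
  | step _ hw ih =>
    have := ih.step (h.smooth hw)
    rwa [gb_cm h, a2_cm h] at this
  | mono _ hQ ih => exact ih.mono fun x => hQ _

end Nat

variable {X Γ : Type} [Mf0 n X] [Group Γ] [MulAction Γ X] {G₀ G : Fld n X} {χ P : X → ℝ}

/-- translation -/
theorem GI.tl (D : Deck X Γ) (hi : ∀ (γ : Γ) x, G₀ (γ • x) = G₀ x) (k : GI G₀ G P) (γ : Γ) :
    GI G₀ (tl γ G) (tl γ P) := by
  have := k.cm (D.cm γ⁻¹)
  simp only [hi] at this
  exact this

theorem wt_cov (hχ : Wt Γ χ) (x : X) : ∃ γ : Γ, γ⁻¹ • x ∈ tsupport χ := by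
  by_contra h
  have := hχ.sum x
  rw [finsum_eq_zero_of_forall_eq_zero (f := fun γ : Γ => tl γ χ x)
    fun γ => image_eq_zero_of_notMem_tsupport (f := χ) fun k => h ⟨γ, k⟩] at this
  exact zero_ne_one this

/-- **Gauss on a covering** -/
theorem cur_deck (D : Deck X Γ) (h₀ : Met G₀) (hi : ∀ (γ : Γ) x, G₀ (γ • x) = G₀ x)
    (hχ : Wt Γ χ) : ∃ C, Cur G₀ C univ := by
  obtain ⟨C, hC⟩ := cur_cpt h₀ hχ.cs.isCompact
  refine ⟨C, fun G P k x _ => ?_⟩
  obtain ⟨γ, hγ⟩ := wt_cov hχ x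
  have a := k.cm (D.cm γ)
  simp only [hi] at a
  have := hC _ _ a _ hγ
  simpa only [(D.cm γ).scal, smul_inv_smul] using this

/-- bounded multiplicity -/
theorem mult (D : Deck X Γ) {F : X → ℝ} (hF : Continuous F) (hc : HasCompactSupport F) :
    ∃ C, ∀ (T : Finset Γ) x, ∑ γ ∈ T, F (γ⁻¹ • x) ≤ C := by
  classical
  obtain ⟨o⟩ : Nonempty X := inferInstance
  obtain ⟨R, hR⟩ := hc.isCompact.isBounded.subset_closedBall o
  obtain ⟨B, hB⟩ := hF.bounded_above_of_compact_support hc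
  have B0 : 0 ≤ B := (norm_nonneg _).trans (hB o)
  refine ⟨(D.fin o (R + R)).toFinset.card * B, fun T x => ?_⟩
  rw [← Finset.sum_filter_ne_zero]
  refine (Finset.sum_le_card_nsmul _ _ B fun γ _ => (le_abs_self _).trans (hB _)).trans ?_
  rw [nsmul_eq_mul]
  refine mul_le_mul_of_nonneg_right (Nat.cast_le.2 ?_) B0
  rcases (T.filter fun γ => F (γ⁻¹ • x) ≠ 0).eq_empty_or_nonempty with h | ⟨γ₀, h⟩
  · simp [h]
  have a : ∀ γ ∈ T.filter fun γ => F (γ⁻¹ • x) ≠ 0, dist (γ⁻¹ • x) o ≤ R := fun γ hγ =>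
    hR (subset_tsupport _ (Finset.mem_filter.1 hγ).2)
  refine Finset.card_le_card_of_injOn (fun γ => γ₀⁻¹ * γ) (fun γ hγ => ?_)
    fun _ _ _ _ k => mul_left_cancel k
  rw [Finite.coe_toFinset]
  show dist ((γ₀⁻¹ * γ) • o) o ≤ _
  have b := D.iso (γ₀⁻¹ * γ) (γ⁻¹ • x) o
  rw [smul_smul, mul_inv_cancel_right] at b
  linarith [dist_triangle_left ((γ₀⁻¹ * γ) • o) o (γ₀⁻¹ • x), a γ hγ, a γ₀ h]

theorem imm_deck (D : Deck X Γ) (h₀ : Met G₀) (hi : ∀ (γ : Γ) x, G₀ (γ • x) = G₀ x)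
    (hχ : Wt Γ χ) : ∃ Λ, Imm G₀ Λ univ := by
  classical
  obtain ⟨κ, _, φ, Λ, h0, h1, h2⟩ := emb_cpt h₀ hχ.cs.isCompact
  have cs : ∀ F : κ → X → ℝ, (∀ k x, x ∉ tsupport (φ k) → F k x = 0) →
      HasCompactSupport fun x => ∑ k, F k x := fun F hF =>
    HasCompactSupport.intro (isCompact_iUnion fun k => (h1 k).2.isCompact) fun x hx =>
      Finset.sum_eq_zero fun k _ => hF k x fun a => hx (mem_iUnion.2 ⟨k, a⟩)
  obtain ⟨A, hA⟩ := mult D (continuous_finsetSum Finset.univ fun k _ =>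
    (h₀.sm_ip (h1 k).1 (h1 k).1).cont) (cs _ fun k x hx => ip_zero hx)
  obtain ⟨B, hB⟩ := mult D (continuous_finsetSum Finset.univ fun k _ =>
    (h₀.sm_normSq (h₀.sm_hess (h1 k).1)).cont) (cs _ fun k x hx => by
      have : hess G₀ (φ k) x = fun _ _ => 0 := by
        rw [hess_congr (notMem_tsupport_iff_eventuallyEq.1 hx)]
        funext i j
        exact hess_const 0 x i j
      simp [normSq, this])
  refine ⟨max Λ (max A B), fun K hK _ => ?_⟩
  have hT := D.fin_bdd hχ.cs.isCompact.isBounded hK.isBounded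
  refine ⟨hT.toFinset × κ, inferInstance, fun q => tl (q.1 : Γ) (φ q.2),
    fun q => D.smooth (h1 q.2).1 _, fun x hx => ⟨fun ξ => ?_, ?_, ?_⟩⟩
  · obtain ⟨γ, hγ⟩ := wt_cov hχ x
    have a := h2 _ hγ ξ
    rw [hi] at a
    refine a.trans (mul_le_mul (le_max_left _ _) ?_ (Finset.sum_nonneg fun _ _ => sq_nonneg _)
      (le_max_of_le_left h0))
    rw [Fintype.sum_prod_type]
    refine le_trans (le_of_eq ?_) (Finset.single_le_sum (fun _ _ => Finset.sum_nonneg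
      fun _ _ => sq_nonneg _) (Finset.mem_univ (⟨γ, hT.mem_toFinset.2 ⟨_, hγ, by
        rwa [smul_inv_smul]⟩⟩ : hT.toFinset)))
    exact Finset.sum_congr rfl fun k _ => by
      rw [Finset.sum_congr rfl fun i _ => by rw [← congrFun ((D.cm γ⁻¹).pd i (φ k)) x]]; rfl
  · refine le_max_of_le_right (le_max_of_le_left (le_trans (le_of_eq ?_) (hA hT.toFinset x)))
    rw [Fintype.sum_prod_type, ← Finset.sum_coe_sort hT.toFinset]
    refine Finset.sum_congr rfl fun γ _ => Finset.sum_congr rfl fun k _ => ?_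
    rw [← congrFun ((D.cm (γ : Γ)⁻¹).ip G₀ (φ k) (φ k)) x]
    simp only [hi]
    rfl
  · refine le_max_of_le_right (le_max_of_le_right (le_trans (le_of_eq ?_) (hB hT.toFinset x)))
    rw [Fintype.sum_prod_type, ← Finset.sum_coe_sort hT.toFinset]
    refine Finset.sum_congr rfl fun γ _ => Finset.sum_congr rfl fun k _ => ?_
    have a := congrFun ((D.cm (γ : Γ)⁻¹).hess G₀ (φ k)) x
    simp only [hi] at a
    simp only [normSq, up, mat, hi, ← a]
    rfl

/-- **Sobolev on a covering** -/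
theorem sob_deck (hn : 3 ≤ n) (D : Deck X Γ) (h₀ : Met G₀) (hi : ∀ (γ : Γ) x, G₀ (γ • x) = G₀ x)
    (hχ : Wt Γ χ) : ∃ y > 0, Sob G₀ y univ := by
  obtain ⟨Λ, h3⟩ := imm_deck D h₀ hi hχ
  obtain ⟨y, h4, h5⟩ := sob_of_imm hn Λ
  exact ⟨y, h4, h5 X G₀ _ h₀ isOpen_univ h3⟩

end Vale.Agent.P223T
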