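import Vale.Agent.P223T.Deck

/-!
# P223T: positivity from a small integral
-/

open MeasureTheory Filter Topology Set
open scoped ContDiff
open Vale.Agent.P366M Vale.Agent.P366M.Gr Vale.Agent.P366M.Y.C Vale.Agent.P210G

noncomputable section

namespace Vale.Agent.P223T

variable {n : ℕ} {M : Type} [Mf0 n M] {g₀ g : Fld n M} {Q S P V ζ : M → ℝ} {O : Set M}

theorem holder (hn : 3 ≤ n) (hg : Met g) (hV : Continuous V) (h0 : ∀ x, 0 ≤ V x)
    (hζ : Continuous ζ) (hc : HasCompactSupport ζ) :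
    ∫ x, V x * ζ x ^ 2 ∂vol g ≤ (∫ x in tsupport ζ, V x ^ ((n : ℝ) / 2) ∂vol g) ^ (2 / (n : ℝ)) *
      (∫ x, |ζ x| ^ (2 * (n : ℝ) / (n - 2)) ∂vol g) ^ (((n : ℝ) - 2) / n) := by
  have hn3 : (3 : ℝ) ≤ n := by exact_mod_cast hn
  have := hg.locFin
  have : IsFiniteMeasure ((vol g).restrict (tsupport ζ)) :=
    isFiniteMeasure_restrict.2 hc.isCompact.measure_lt_top.ne
  have m : ∀ f : M → ℝ, Continuous f → ∀ p, MemLp f p ((vol g).restrict (tsupport ζ)) :=
    fun f hf p => by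
      obtain ⟨C, hC⟩ := hc.isCompact.exists_bound_of_continuousOn hf.continuousOn
      exact MemLp.of_bound hf.aestronglyMeasurable C
        (ae_restrict_of_forall_mem hc.isCompact.measurableSet hC)
  have pq : ((n : ℝ) / 2).HolderConjugate (n / (n - 2)) := by
    refine Real.holderConjugate_iff.2 ⟨by linarith, ?_⟩
    have : (n : ℝ) ≠ 0 := by linarith
    have : (n : ℝ) - 2 ≠ 0 := by linarith
    field_simp
    ring
  have k := integral_mul_le_Lp_mul_Lq_of_nonneg pq (.of_forall h0)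
    (.of_forall fun x => sq_nonneg (ζ x)) (m V hV _) (m _ (hζ.pow 2) _)
  have z : ∀ x ∉ tsupport ζ, ζ x = 0 := fun x => image_eq_zero_of_notMem_tsupport
  have e : ∀ x, (ζ x ^ 2) ^ ((n : ℝ) / (n - 2)) = |ζ x| ^ (2 * (n : ℝ) / (n - 2)) := fun x => by
    rw [← sq_abs, ← Real.rpow_two, ← Real.rpow_mul (abs_nonneg _), mul_div_assoc]
  simp only [e, one_div, inv_div] at k
  rwa [setIntegral_eq_integral_of_forall_compl_eq_zero fun x hx => by simp [z x hx],
    setIntegral_eq_integral_of_forall_compl_eq_zero (f := fun x => |ζ x| ^ (2 * (n : ℝ) / (n - 2)))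
      fun x hx => by
        rw [z x hx, abs_zero, Real.zero_rpow (div_pos (by linarith) (by linarith)).ne']] at k

/-- **positivity from Michael–Simon** -/
theorem spec_ms (hn : 3 ≤ n) (h₀ : Met g₀) {y C δ θ : ℝ} (hy : 0 ≤ y) (hs : Sob g₀ y O)
    (hC : Cur g₀ C O) (k : GI g₀ g Q) (hQ : Continuous Q) (hS : Continuous S) (hP : Continuous P)
    (hV : Continuous V) (h0 : ∀ x, 0 ≤ V x) (t0 : 0 ≤ θ) (t1 : θ ≤ 1) (t2 : 5 * θ ≤ (1 - θ) * δ)
    (hsp : Spec g (fun x => S x + δ * Q x) 4 O)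
    (h1 : ∀ x ∈ O, P x + θ * (C + 4) ≤ (1 - θ) * S x + V x)
    (h2 : ∀ K, IsCompact K → K ⊆ O →
      ∫ x in K, V x ^ ((n : ℝ) / 2) ∂vol g ≤ (4 * θ * y) ^ ((n : ℝ) / 2)) : Spec g P 4 O := by
  intro ζ hζ hc hO
  have hn3 : (3 : ℝ) ≤ n := by exact_mod_cast hn
  have hg := k.met h₀
  have z : ∀ x ∉ tsupport ζ, ζ x = 0 := fun x => image_eq_zero_of_notMem_tsupport
  have a1 := hsp ζ hζ hc hO
  have a2 := hs g Q ζ k hQ hζ hc hO
  have a3 := holder hn hg hV h0 hζ.cont hc
  have a4 : (∫ x in tsupport ζ, V x ^ ((n : ℝ) / 2) ∂vol g) ^ (2 / (n : ℝ)) ≤ 4 * θ * y := by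
    refine (Real.rpow_le_rpow (integral_nonneg fun x => Real.rpow_nonneg (h0 x) _)
      (h2 _ hc.isCompact hO) (by positivity)).trans_eq ?_
    rw [← Real.rpow_mul (by positivity), div_mul_div_cancel₀ two_ne_zero,
      div_self (by linarith), Real.rpow_one]
  have i1 : Integrable (fun x => 4 * ip g ζ ζ x + (scal g x - (S x + δ * Q x)) * ζ x ^ 2) (vol g) :=
    spec_int hg (hS.add (continuous_const.mul hQ)) hζ hc 4
  have i2 : Integrable (fun x => ip g ζ ζ x + (1 + Q x) * ζ x ^ 2) (vol g) :=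
    int_of hg hc ((hg.sm_ip hζ hζ).cont.add ((continuous_const.add hQ).mul (hζ.cont.pow 2)))
      fun x hx => by simp [ip_zero hx, z x hx]
  have i3 : Integrable (fun x => V x * ζ x ^ 2) (vol g) :=
    int_of hg hc (hV.mul (hζ.cont.pow 2)) fun x hx => by simp [z x hx]
  have b := integral_mono (((i1.const_mul (1 - θ)).add (i2.const_mul (4 * θ))).sub i3)
    (spec_int hg hP hζ hc 4) fun x => by
      by_cases hx : x ∈ tsupport ζ
      · have c1 := mul_nonneg t0 (sub_nonneg.2 (hC g Q k x (hO hx)))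
        have c2 := mul_le_mul_of_nonneg_right t2 (k.nonneg h₀ x)
        have c3 : 0 ≤ (scal g x - P x - ((1 - θ) * (scal g x - (S x + δ * Q x)) +
            4 * θ * (1 + Q x) - V x)) * ζ x ^ 2 :=
          mul_nonneg (by linarith [h1 x (hO hx)]) (sq_nonneg _)
        simp only [Pi.sub_apply, Pi.add_apply]
        linarith
      · simp [ip_zero hx, z x hx]
  rw [integral_sub' ((i1.const_mul _).add (i2.const_mul _)) i3,
    integral_add' (i1.const_mul _) (i2.const_mul _), integral_const_mul, integral_const_mul] at b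
  have c1 := mul_nonneg (sub_nonneg.2 t1) a1
  have c2 := mul_le_mul_of_nonneg_left a2 (by positivity : 0 ≤ 4 * θ)
  have c3 := mul_le_mul_of_nonneg_right a4 (Real.rpow_nonneg (integral_nonneg (μ := vol g)
    (f := fun x => |ζ x| ^ (2 * (n : ℝ) / (n - 2))) fun x => by positivity) (((n : ℝ) - 2) / n))
  linarith

theorem pow_le_exp (A : ℝ) {b m s : ℝ} (hb : 0 < b) (hm : 0 < m) (hs : 0 < s) :
    ∃ c > 0, ∀ t : ℝ, max (A - b * t) 0 ^ m ≤ c * Real.exp (-(s * t)) := by
  refine ⟨(b * m / s) ^ m * Real.exp (s * A / b), by positivity, fun t => ?_⟩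
  have h : max (A - b * t) 0 ≤ b * m / s * Real.exp (s * (A - b * t) / (b * m)) := by
    refine max_le ?_ (by positivity)
    calc A - b * t = b * m / s * (s * (A - b * t) / (b * m)) := by field_simp
      _ ≤ _ := by
        gcongr
        linarith [Real.add_one_le_exp (s * (A - b * t) / (b * m))]
  refine (Real.rpow_le_rpow (le_max_right _ _) h hm.le).trans_eq ?_
  rw [Real.mul_rpow (by positivity) (by positivity), ← Real.exp_mul, mul_assoc, ← Real.exp_add]
  congr 2
  field_simp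
  ring

/-- **positivity from a small mass** -/
theorem spec_mass {n : ℕ} (hn : 3 ≤ n) {y δ s : ℝ} (hy : 0 < y) (hδ : 0 < δ) (hs : 0 < s)
    (C p : ℝ) : ∃ η > 0, ∀ (M : Type) [Mf0 n M] (g₀ g : Fld n M) (Q S : M → ℝ) (O : Set M),
      Met g₀ → Sob g₀ y O → Cur g₀ C O → GI g₀ g Q → Continuous Q → Continuous S →
      Spec g (fun x => S x + δ * Q x) 4 O →
      (∀ K, IsCompact K → K ⊆ O → ∫ x in K, Real.exp (-(s * S x)) ∂vol g ≤ η) →
      Spec g (fun _ => p) 4 O := by
  have hn3 : (3 : ℝ) ≤ n := by exact_mod_cast hn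
  set θ := δ / (5 + δ) with hθ
  have t0 : 0 < θ := by positivity
  have t1 : 1 - θ = 5 / (5 + δ) := by rw [hθ]; field_simp; ring
  have t2 : 0 < 1 - θ := by rw [t1]; positivity
  obtain ⟨c, c0, hc⟩ := pow_le_exp (p + θ * (C + 4)) t2 (by positivity : 0 < (n : ℝ) / 2) hs
  refine ⟨(4 * θ * y) ^ ((n : ℝ) / 2) / c, by positivity, ?_⟩
  intro M _ g₀ g Q S O h₀ h1 h2 k hQ hS h3 h4
  have hV : Continuous fun x => max (p + θ * (C + 4) - (1 - θ) * S x) 0 := by fun_prop
  refine spec_ms hn h₀ hy.le h1 h2 k hQ hS continuous_const hV (fun x => le_max_right _ _) t0.le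
    (by linarith) (le_of_eq (by rw [t1, hθ]; ring)) h3
    (fun x _ => by linarith [le_max_left (p + θ * (C + 4) - (1 - θ) * S x) 0]) fun K hK hO => ?_
  have := (k.met h₀).locFin
  refine (integral_mono (ContinuousOn.integrableOn_compact hK (hV.rpow_const fun _ => Or.inr
    (by positivity)).continuousOn) ?_ fun x => hc (S x)).trans ?_
  · exact ContinuousOn.integrableOn_compact hK (Continuous.continuousOn (by fun_prop))
  · rw [integral_const_mul, ← le_div_iff₀' c0]
    exact h4 K hK hO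

end Vale.Agent.P223T
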