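import Vale.Agent.P223T.Lst1
import Vale.Agent.P210C.Move

/-!
# P223T: the local approximate step `LST`
-/

open Filter Topology Set
open scoped ContDiff
open Vale.Agent.P366M Vale.Agent.P366M.Gr Vale.Agent.P366M.Y.C Vale.Agent.P366M.Y.C.GbH
open Vale.Agent.P210G Vale.Agent.P210Y Vale.Agent.P210R Vale.Agent.P210T Vale.Agent.P210D
open Vale.Agent.P210C Vale.Agent.P210K

noncomputable section

namespace Vale.Agent.P223T

variable {n : ℕ} {M : Type} [Mf0 n M] {g g₀ : Fld n M} {v v' : Fin n → M → ℝ}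
  {w w' χ κ W K V k ϱ : M → ℝ} {x : M} {D K₀ : Set M} {q β A s ε η e a C : ℝ}

theorem sol0 [CompactSpace M] (hn : 2 ≤ n) (hg : Met g) (hv' : CC ∞ v) (hV : Smooth V)
    (hk : Smooth k) (sk : Smooth κ) (V0 : ∀ x, 0 ≤ V x) (k0 : ∀ x, 0 < k x) (hκ : ∀ x, 0 ≤ κ x)
    (q0 : 0 ≤ q) (β0 : 0 < β) (a0 : 0 < a) (a1 : ∀ x, a ^ 2 ≤ k x)
    (lo : ∀ x, V x * a ^ 2 + (β + κ x) * (a ^ 2 - k x) ≤ 0) : ∃ w, Smooth w ∧ (∀ x, a ≤ w x) ∧
      ∀ x, hv g v w x = Hf q β V k κ x (w x) (ww g 1 w x)⁻¹ := by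
  obtain ⟨kM, kM0, m3⟩ := bd_cont isCompact_univ hk.cont
  obtain ⟨p⟩ : Nonempty M := inferInstance
  obtain ⟨w, hw, wI, eq⟩ := capV (H := Hf q β V k κ) hn hg hv' (half_lt_self a0)
    (by nlinarith [a1 p, (le_abs_self _).trans (m3 p trivial)] : a ≤ kM + 1) (lt_add_one _) β0
    (((((smH_const q).mul ((smH_const 1).sub smH_u)).div smH_t fun _ _ h _ =>
      ((half_pos a0).trans h.1).ne').neg.add ((smH_x hV).mul smH_t)).add
      (((smH_const β).add (smH_x sk)).mul (smH_t.sub ((smH_x hk).div smH_t fun _ _ h _ =>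
        ((half_pos a0).trans h.1).ne'))))
    (fun x s hs t ht t' _ h => by
      have t0 := (half_pos a0).trans ht.1
      have h1 := div_le_div_of_nonneg_left (mul_nonneg q0 (sub_nonneg.2 hs.2)) t0 h
      have h2 := mul_le_mul_of_nonneg_left (div_le_div_of_nonneg_left (k0 x).le t0 h)
        (add_nonneg β0.le (hκ x))
      simp only [Hf]
      nlinarith [mul_le_mul_of_nonneg_left h (V0 x), mul_le_mul_of_nonneg_left h (hκ x)])
    (fun x => by
      have e : Hf q β V k κ x a 1 = (V x * a ^ 2 + (β + κ x) * (a ^ 2 - k x)) / a := by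
        simp only [Hf]; field_simp; ring
      exact e ▸ div_nonpos_of_nonpos_of_nonneg (lo x) a0.le)
    (fun x => by
      have h1 : k x / (kM + 1) ≤ kM + 1 := by
        rw [div_le_iff₀ (by positivity)]
        nlinarith [(le_abs_self _).trans (m3 x trivial)]
      simp only [Hf, sub_self, mul_zero, zero_div, neg_zero, zero_add]
      exact add_nonneg (mul_nonneg (V0 x) (by positivity))
        (mul_nonneg (add_nonneg β0.le (hκ x)) (sub_nonneg.2 h1)))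
  exact ⟨w, hw, fun x => (wI x).1, eq⟩

/-- the solution near a compact set of any manifold -/
theorem solD (hn : 2 ≤ n) (hg : Met g) (cv : CC ∞ v) (hD : IsCompact D) (hV : Smooth V)
    (hk : Smooth k) (sk : Smooth κ) (V0 : ∀ x, 0 ≤ V x) (k0 : ∀ x, 0 < k x) (hκ : ∀ x, 0 ≤ κ x)
    (q0 : 0 ≤ q) (β0 : 0 < β) (a0 : 0 < a) (a1 : ∀ x, a ^ 2 ≤ k x)
    (lo : ∀ x, V x * a ^ 2 + (β + κ x) * (a ^ 2 - k x) ≤ 0) : ∃ w, Smooth w ∧ (∀ x, a ≤ w x) ∧
      ∀ x ∈ D, hv g v w x = Hf q β V k κ x (w x) (uu g w x) := by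
  obtain ⟨p⟩ : Nonempty M := inferInstance
  obtain ⟨X, _, _, π, σ, U, b, -, s⟩ := P210L.closeup hg (hD.insert p) isOpen_univ (subset_univ _)
    (insert_nonempty _ _)
  have cv' : CC ∞ (pullC π v) := cv.pull le_rfl s.sm
  obtain ⟨χ, c1, -, c2, c3, c4⟩ := exists_cut hD s.opn ((subset_insert _ _).trans b)
  obtain ⟨w, sw, lw, h⟩ := sol0 hn bg_met cv' (P366D.smooth_comp s.sm hV)
    (P366D.smooth_comp s.sm hk) (P366D.smooth_comp s.sm sk) (fun _ => V0 _) (fun _ => k0 _)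
    (fun _ => hκ _) q0 β0 a0 (fun _ => a1 _) fun _ => lo _
  refine ⟨fun x => a + χ x * (w (σ x) - a), CD.add cd_const (sm_cut s.sms c1 c2
    (CD.sub sw cd_const)), fun x => le_add_of_nonneg_right (mul_nonneg (c3 x).1
      (sub_nonneg.2 (lw _))), fun y hy => ?_⟩
  have hU := b (.inr hy)
  have e : (fun x => a + χ x * (w (σ x) - a)) =ᶠ[𝓝 y] fun z => w (σ z) :=
    (c4 y hy).mono fun z k => by simp [k]
  rw [hv_eq (iso_sec s hU (s.iso y hU)) (v := pullC π v) (fun j => by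
    rw [pullC_pullC (s.sm _) (s.sms y hU), pullC_of_id (rt_ev s hU)]) sw e, h, uu,
    ww_eq (iso_sec s hU (s.iso y hU)) (sw.diff _) e, e.self_of_nhds]
  simp only [Hf, s.rt y hU]

theorem Hf_eq (hx : hv g v w x = Hf q β W (fun y => s * K y + ε) κ x (w x) (uu g w x)) :
    hv g v w x = H0 g W K q β s ε w x + κ x * (w x - (s * K x + ε) / w x) := by
  rw [hx, Hf, H0, P210R.yy]; ring

/-- the approximate step where the equation holds -/
theorem ap_ex (hg : Met g) (cv : CC ∞ v) (hw : Smooth w) (sW : Smooth W) (sK : Smooth K)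
    (sk : Smooth κ) (w0 : ∀ y, 0 < w y) (K0 : ∀ y, 0 ≤ K y) (k0 : ∀ y, 0 ≤ κ y) (q0 : 0 ≤ q)
    (q1 : q ≤ 1) (β0 : 0 < β) (A0 : 0 ≤ A) (s0 : 0 ≤ s) (ε0 : 0 < ε) (h1 : β ^ 2 ≤ η * A)
    (h2 : 16 * ε * (A + β + 1) ^ 2 ≤ η) (lo : β * ε ≤ 2 * (A + β) * w x ^ 2)
    (gk : ip g κ κ x ≤ 1 / 2 * κ x * (β + κ x) ^ 2) (alt : κ x = 0 ∨ W x = A ∧ K x = 0)
    (eq : ∀ᶠ y in 𝓝 x, hv g v w y = Hf q β W (fun y => s * K y + ε) κ y (w y) (uu g w y))
    (ev : ∀ i, v' i =ᶠ[𝓝 x] vg g v w i) : Ap g₀ g v W K q β s ε η w v' x := by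
  have η0 : 0 ≤ η := le_trans (by positivity) h2
  have f0 : 0 ≤ fi g K x := P210V.fi_nonneg hg (K0 x)
  obtain ⟨a, b⟩ := step n M g v w W _ κ q β (s * fi g K x) x hg cv hw sW
    (CD.add (CD.mul cd_const sK) cd_const) sk w0 (by have := K0 x; positivity)
    (add_nonneg β0.le (k0 x)) q0 q1 (by positivity) (by
      have e : ∀ i, pd i (fun y => s * K y + ε) x = s * pd i K x := fun i => by
        rw [pd_add_const, pd_const_mul]
      rw [ip_of_pd e e]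
      linarith [mul_le_mul_of_nonneg_left (P210V.ip_le_fi (g := g) (x := x) K0) (mul_self_nonneg s),
        mul_nonneg ε0.le (mul_nonneg s0 f0)]) eq
  have e := Hf_eq eq.self_of_nhds
  have z : iv g₀ (fun i y => v' i y - vg g v w i y) (fun i y => v' i y - vg g v w i y) x = 0 := by
    simp [iv, (ev _).self_of_nhds]
  rw [← Rv_congr ev] at b
  refine ⟨(κ x * (w x - (s * K x + ε) / w x)) ^ 2 / 4, by positivity, ?_, by
    rw [e]; nlinarith [sq_nonneg (H0 g W K q β s ε w x - κ x * (w x - (s * K x + ε) / w x))],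
    by rw [z]; positivity⟩
  rcases alt with k | ⟨k, k'⟩
  · rw [e, k, show dn g w κ x = 0 by rw [dn, P210V.ip_zero' k0 k, zero_div]] at b
    rw [k]
    linarith
  · have c : dn g w κ x ^ 2 ≤ 1 / 2 * κ x * (β + κ x) ^ 2 * (1 - uu g w x ^ 2) := by
      have := ev_cs hg (df κ) (nv g w) x
      rw [ev_df_nv hg, iv_df, gq_nv' hg] at this
      exact this.trans (mul_le_mul_of_nonneg_right gk (gq_nv' hg w x ▸ gq_nonneg hg _ x))
    have d := spr_alg (uu_pos hg w x) (uu_le hg w x) (w0 x) (k0 x) β0 A0 ε0 q0 q1 c lo h1 h2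
    rw [e, P210V.fi_zero k'] at b
    rw [P210V.fi_zero k']
    simp only [H0, P210R.yy, k, k', mul_zero, zero_add] at b ⊢
    linarith

theorem near_c {A B ε c d : ℝ} (A0 : 0 ≤ A) (B0 : 0 < B) (ε0 : 0 < ε) (c0 : 0 < c)
    (h : c ^ 2 * (A + B) = B * ε) (hd : √ε * A ≤ d * B) : |c - √ε| ≤ d := by
  have r0 := Real.sqrt_pos.2 ε0
  have r2 := Real.sq_sqrt ε0.le
  generalize √ε = r at *
  subst r2
  have h1 : c ≤ r := (abs_le_of_sq_le_sq' (le_of_mul_le_mul_right (by nlinarith) B0) r0.le).2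
  rw [abs_sub_comm, abs_of_nonneg (sub_nonneg.2 h1)]
  refine le_of_mul_le_mul_right (le_trans (le_of_mul_le_mul_right ?_ r0) hd) B0
  nlinarith [mul_nonneg (mul_nonneg (sub_nonneg.2 h1) c0.le) B0.le,
    mul_nonneg (mul_nonneg (sub_nonneg.2 h1) (add_pos r0 c0).le) A0]

theorem lst0 (hC : ∀ t, |deriv Real.smoothTransition t| ≤ C ∧
      (t ∉ Icc (0 : ℝ) 1 → deriv Real.smoothTransition t = 0)) (hn : 2 ≤ n) (hg₀ : Met g₀)
    (hg : Met g) (cv : CC ∞ v) (hϱ : Smooth ϱ) (sW : Smooth W) (sK : Smooth K) (hK : IsCompact K₀)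
    (far : ∀ x ∉ K₀, 4 ≤ ϱ x) (sl : ∀ x ∈ K₀, ip g ϱ ϱ x ≤ 1)
    (bd : ∀ x, 0 ≤ W x ∧ W x ≤ A ∧ 0 ≤ K x) (hc : ∀ x ∈ K₀, 0 < ϱ x → W x = A ∧ K x = 0)
    (q0 : 0 ≤ q) (q1 : q ≤ 1) (hβ : 32 * C ^ 2 ≤ β) (β0 : 0 < β) (s0 : 0 ≤ s) (ε0 : 0 < ε)
    (h1 : β ^ 2 ≤ η * A) (h2 : 16 * ε * (A + β + 1) ^ 2 ≤ η) :
    ∃ (w : M → ℝ) (v' : Fin n → M → ℝ), Smooth w ∧ (∀ x, 0 < w x) ∧ CC ∞ v' ∧
      (∀ x ∉ K₀, w x = √ε ∧ ∀ i, v' i x = v i x) ∧ ∀ x, (x ∉ K₀ → K x = 0) →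
        Ap g₀ g v W K q β s ε η w v' x ∧
        (ϱ x < 3 → ε ≤ w x ^ 2 → H0 g W K q β s ε w x ≤ hv g v w x) ∧
        (2 ≤ ϱ x → w x ^ 2 ≤ 2 * ε) := by
  obtain ⟨p⟩ : Nonempty M := inferInstance
  have A0 : 0 ≤ A := (bd p).1.trans (bd p).2.1
  have η0 : 0 < η := lt_of_lt_of_le (by positivity) h2
  have r0 := Real.sqrt_pos.2 ε0
  have r2 := Real.sq_sqrt ε0.le
  have mK : ∀ x, ϱ x < 4 → x ∈ K₀ := fun x h => by_contra fun k => (far x k).not_gt h
  have sψ : Smooth fun x => Real.smoothTransition (ϱ x) := Real.smoothTransition.contDiff.compM hϱ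
  -- the barrier
  obtain ⟨a, a0, a2⟩ : ∃ a > (0 : ℝ), 2 * (A + β) * a ^ 2 = β * ε :=
    ⟨√(β * ε / (2 * (A + β))), by positivity, by
      rw [Real.sq_sqrt (by positivity)]; field_simp⟩
  have a3 : 2 * a ^ 2 ≤ ε := le_of_mul_le_mul_left (by nlinarith [sq_nonneg a]) β0
  have a4 : 2 * A * a ^ 2 ≤ β * ε := by nlinarith [sq_nonneg a]
  have a5 : a ≤ √ε := Real.le_sqrt_of_sq_le (by linarith [sq_nonneg a])
  -- cutoffs and the smallness
  obtain ⟨κ', sκ, rκ, zκ, oκ⟩ := cutoff hϱ (by norm_num : (3 : ℝ) < 13 / 4)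
  obtain ⟨χ', sχ', rχ', zχ', oχ'⟩ := cutoff hϱ (by norm_num : (7 / 2 : ℝ) < 15 / 4)
  obtain ⟨χ, sχ, rχ, oχ, zχ⟩ : ∃ χ : M → ℝ, Smooth χ ∧ (∀ x, 0 ≤ χ x ∧ χ x ≤ 1) ∧
      (∀ x, ϱ x < 7 / 2 → χ =ᶠ[𝓝 x] fun _ => 1) ∧ ∀ x, 15 / 4 < ϱ x → χ =ᶠ[𝓝 x] fun _ => 0 :=
    ⟨fun x => 1 - χ' x, CD.sub cd_const sχ', fun x => ⟨by linarith [(rχ' x).2], by
      linarith [(rχ' x).1]⟩, fun x h => (zχ' x h).mono fun y hy => by simp [hy],
      fun x h => (oχ' x h).mono fun y hy => by simp [hy]⟩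
  have cT : IsCompact (ϱ ⁻¹' Icc 2 (15 / 4)) := hK.of_isClosed_subset
    (isClosed_Icc.preimage hϱ.cont) fun x hx => mK x (by linarith [hx.2])
  have oO : IsOpen (ϱ ⁻¹' Ioo 1 4) := isOpen_Ioo.preimage hϱ.cont
  obtain ⟨e, e0, e1, e2⟩ : ∃ e > (0 : ℝ), e ≤ 1 ∧ 32 * e ≤ η :=
    ⟨min 1 (η / 32), by positivity, min_le_left _ _, by linarith [min_le_right 1 (η / 32)]⟩
  obtain ⟨f, f0, f1, f2, f3⟩ : ∃ f > (0 : ℝ), f ≤ e ∧ 32 * f ≤ e * ε ∧ 4 * f ≤ √ε :=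
    ⟨min e (min (e * ε / 32) (√ε / 4)), by positivity, min_le_left _ _,
      by linarith [(min_le_right e _).trans (min_le_left (e * ε / 32) (√ε / 4))],
      by linarith [(min_le_right e _).trans (min_le_right (e * ε / 32) (√ε / 4))]⟩
  obtain ⟨δ, δ0, δ1, hδ⟩ := tailB hg₀ hg cv sχ sκ rχ rκ cT f0
  obtain ⟨A₁, A0', hA⟩ := decayS hg cv cT oO (fun x hx => ⟨by linarith [hx.1], by linarith [hx.2]⟩)
    a⁻¹ (half_pos δ0)
  obtain ⟨A₀, A1, A3, A4⟩ : ∃ A₀ > (0 : ℝ), A₁ ≤ A₀ ∧ √ε * A ≤ δ / 2 * A₀ :=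
    ⟨max A₁ (√ε * A / (δ / 2)), lt_max_of_lt_left A0', le_max_left _ _,
      (div_le_iff₀' (half_pos δ0)).1 (le_max_right _ _)⟩
  -- the spring and the solution
  obtain ⟨κ, sk, hκ⟩ := spring hg sψ (fun _ => ⟨Real.smoothTransition.nonneg _,
    Real.smoothTransition.le_one _⟩) β0 (m := 1 + A₀ / β) (by positivity) (c₀ := 1 / 2) fun x => by
      have d := ((Real.smoothTransition.contDiff (n := 1)).differentiable one_ne_zero
        (ϱ x)).hasDerivAt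
      rw [ip_comp d d (hϱ.diff x) (hϱ.diff x)]
      by_cases k : ϱ x ∈ Icc (0 : ℝ) 1
      · have := sq_le_sq' (abs_le.1 (hC (ϱ x)).1).1 (abs_le.1 (hC (ϱ x)).1).2
        linarith [mul_le_of_le_one_right (mul_self_nonneg (deriv Real.smoothTransition (ϱ x)))
          (sl x (mK x (by linarith [k.2])))]
      · rw [(hC _).2 k]; linarith
  set B := β * (1 + A₀ / β) ^ 2 with hB
  have B1 : A₀ ≤ B := by
    have h1 : β * (A₀ / β) = A₀ := mul_div_cancel₀ _ β0.ne'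
    have h2 : 0 ≤ A₀ / β := by positivity
    nlinarith only [h1, h2, β0, mul_nonneg β0.le (sq_nonneg (A₀ / β))]
  have B2 : 0 ≤ B := A1.le.trans B1
  have k1 : ∀ x, ε ≤ s * K x + ε := fun x => le_add_of_nonneg_left (mul_nonneg s0 (bd x).2.2)
  obtain ⟨w, hw, wI, eq⟩ := solD hn hg cv hK sW (CD.add (CD.mul cd_const sK) cd_const) sk
    (fun x => (bd x).1) (fun x => ε0.trans_le (k1 x)) (fun x => (hκ x).1) q0 β0 a0
    (fun x => by linarith [k1 x, sq_nonneg a])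
    fun x => low_bar a0 β0 a3 a4 (bd x).2.1 (k1 x) (hκ x).1
  -- the constant
  have B3 : 0 < β + B := by positivity
  have B4 : 0 < A + (β + B) := by positivity
  set c := √((β + B) * ε / (A + (β + B))) with hcd
  have c2 : c ^ 2 * (A + (β + B)) = (β + B) * ε := by
    rw [hcd, Real.sq_sqrt (by positivity), div_mul_cancel₀ _ B4.ne']
  have c1 : a ≤ c := Real.le_sqrt_of_sq_le ((le_div_iff₀ B4).2 (by
    linarith [low_bar a0 β0 a3 a4 le_rfl le_rfl B2]))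
  have c0 := a0.trans_le c1
  have c3 := near_c A0 B3 ε0 c0 c2 (A4.trans (mul_le_mul_of_nonneg_left
    (by linarith only [B1, β0]) (half_pos δ0).le))
  have eO : ∀ x ∈ ϱ ⁻¹' Ioo 1 4, hv g v w x =
      -(q * (1 - iw g w x) / w x) + A * w x + (β + B) * (w x - ε / w x) := fun x hx => by
    obtain ⟨k, k'⟩ := hc x (mK x hx.2) (one_pos.trans hx.1)
    rw [eq x (mK x hx.2), Hf, k, k', mul_zero, zero_add,
      (hκ x).2.2.2 (Real.smoothTransition.one_of_one_le hx.1.le)]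
    rfl
  have dec := hA B (A3.trans B1) (fun t s => -(q * (1 - s) / t) + A * t + (β + B) * (t - ε / t))
    (Ici a) c w (convex_Ici a) c1 (by field_simp; linarith) (fun t ht s hs => by
      have t0 := a0.trans_le ht
      refine ⟨_, _, ?_, ?_, hf_deriv q A (β + B) ε t0.ne' s⟩
      · have h1 : 0 ≤ q * (1 - s) / t ^ 2 :=
          div_nonneg (mul_nonneg q0 (sub_nonneg.2 hs.2)) (by positivity)
        have h2 : 0 ≤ (β + B) * (ε / t ^ 2) := by positivity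
        linarith
      · rw [abs_of_nonneg (by positivity), ← one_div]
        exact div_le_div₀ zero_le_one q1 a0 ht) hw fun x hx => ⟨(wI x), eO x hx⟩
  have dc : ∀ x ∈ ϱ ⁻¹' Icc 2 (15 / 4), |w x - √ε| ≤ δ := fun x hx => by
    linarith only [abs_sub_le (w x) c √ε, (dec x hx).1, c3]
  set w' : M → ℝ := fun y => √ε + χ y * (w y - √ε) with hw'
  have s1 : Smooth w' := CD.add cd_const (CD.mul sχ (CD.sub hw cd_const))
  have wI' : ∀ x, a ≤ w' x := fun x => by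
    have := mul_nonneg (rχ x).1 (sub_nonneg.2 (wI x))
    simp only [hw']
    linarith only [this, mul_nonneg (sub_nonneg.2 (rχ x).2) (sub_nonneg.2 a5)]
  have w0 : ∀ x, 0 < w' x := fun x => a0.trans_le (wI' x)
  have e3 : ∀ x, ϱ x < 7 / 2 → w' =ᶠ[𝓝 x] w := fun x h => (oχ x h).mono fun y hy => by simp [hw', hy]
  have e4 : ∀ x, 15 / 4 < ϱ x → w' =ᶠ[𝓝 x] fun _ => √ε := fun x h =>
    (zχ x h).mono fun y hy => by simp [hw', hy]
  have e5 : ∀ x, ϱ x < 7 / 2 → hv g v w' x =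
      Hf q β W (fun y => s * K y + ε) κ x (w' x) (uu g w' x) := fun x h => by
    rw [(hv_congr (e3 x h)).self_of_nhds, uu, (ww_congr (e3 x h)).self_of_nhds,
      (e3 x h).self_of_nhds, eq x (mK x (by linarith))]
    rfl
  have alt : ∀ x, ϱ x < 4 → κ x = 0 ∨ W x = A ∧ K x = 0 := fun x h => (le_or_gt (ϱ x) 0).imp
    (fun k => (hκ x).2.2.1 (Real.smoothTransition.zero_of_nonpos k)) (hc x (mK x h))
  have nr : ∀ x ∈ ϱ ⁻¹' Icc 2 (15 / 4), ε ≤ 2 * w' x ^ 2 ∧ w' x ^ 2 ≤ 2 * ε := fun x hx => by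
    have : |w' x - √ε| ≤ √ε / 4 := by
      rw [hw', add_sub_cancel_left, abs_mul, abs_of_nonneg (rχ x).1]
      linarith only [mul_le_of_le_one_left (abs_nonneg (w x - √ε)) (rχ x).2, dc x hx, δ1, f3]
    obtain ⟨b1, b2⟩ := abs_le.1 this
    constructor <;> nlinarith only [b1, b2, r0, r2]
  refine ⟨w', kv g v κ' w', s1, w0, cc_kv hg cv sκ s1, fun x hx => ?_, fun x hx => ⟨?_,
    fun h k => ?_, fun h => ?_⟩⟩
  · have e := e4 x (by linarith [far x hx])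
    exact ⟨e.self_of_nhds, fun i => (kv_const e i).self_of_nhds⟩
  · rcases lt_or_ge (ϱ x) 3 with h | h
    · exact ap_ex hg cv s1 sW sK sk w0 (fun y => (bd y).2.2) (fun y => (hκ y).1) q0 q1 β0 A0 s0 ε0
        h1 h2 (a2 ▸ mul_le_mul_of_nonneg_left (pow_le_pow_left₀ a0.le (wI' x) 2) (by positivity))
        (hκ x).2.1 (alt x (by linarith)) (((hϱ.cont.tendsto x).eventually (gt_mem_nhds h)).mono
          fun y hy => e5 y (by linarith)) (kv_zero (zκ x h))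
    rcases lt_or_ge (15 / 4) (ϱ x) with h' | h'
    · exact ap_const hg cv s1 q0 q1 β0.le ε0 (bd x).1 (bd x).2.1 ((em (x ∈ K₀)).elim
        (fun k => (hc x k (by linarith)).2) hx) h2 (e4 x h') (kv_const (e4 x h'))
    have xT : x ∈ ϱ ⁻¹' Icc 2 (15 / 4) := ⟨by linarith, h'⟩
    have xO : ∀ᶠ y in 𝓝 x, y ∈ ϱ ⁻¹' Ioo 1 4 := oO.eventually_mem ⟨by linarith, by linarith⟩
    obtain ⟨t1, t2, t3, t4⟩ := hδ x xT w w' √ε hw s1 .rfl (dc x xT)
      ((dec x xT).2.1.trans (half_le_self δ0.le)) ((dec x xT).2.2.trans (half_le_self δ0.le))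
    have p1 : ip g w' w' x ≤ f ^ 2 := by
      rw [← hg.gn_sq]; exact pow_le_pow_left₀ (gn_nonneg _ _ _) t1 2
    have p2 := mul_le_mul_of_nonneg_right f1 (add_nonneg zero_le_one (a2_nonneg hg s1 x))
    have p3 := mul_le_of_le_one_left f0.le (f1.trans e1)
    refine ap_of hg s1 q0 q1 β0.le ε0 (bd x).1 (bd x).2.1 (hc x (mK x (by linarith))
      (by linarith)).2 (by
        rw [dn_congr .rfl (xO.mono fun y hy => (hc y (mK y hy.2) (one_pos.trans hy.1)).1), dn,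
          ip_const_right, zero_div]) e1 e2 h2 (w0 x) (nr x xT).1 (nr x xT).2
      (by linarith only [p1, p3, f2, f0]) (t2.trans p2) (t3.trans p2)
      (le_trans (by linarith only [f1]) (t4 ((lt_or_ge (13 / 4) (ϱ x)).imp
        (fun k => (oκ x k).self_of_nhds) fun k => ?_)))
    have e6 := e3 x (by linarith)
    have u0 := iw_pos hg w' x
    have u1 := iw_le hg w' x
    have d1 := two_dn_le hg s1 (lw g w') (8 * (q * iw g w' x / w' x)) x
    have d2 := (tail_alg u0 u1 q0 q1 (hg.ip_nonneg w' x) (e := f / 32) (by positivity) (w0 x)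
      (ip_iw hg w' x) (nr x xT).1 (by
        nlinarith only [p1, f0, f2, mul_le_of_le_one_left ε0.le e1])).1
    rw [dn_lin (s := q * (1 - iw g w' x) / w' x ^ 2 + A + (β + B) * (1 + ε / w' x ^ 2))
      (t := q / w' x) (w := w') (ζ := iw g w') fun i => (pd_congr (by
        filter_upwards [xO, e6.eventuallyEq_nhds] with z hz k
        rw [(hv_congr k).self_of_nhds, eO z hz, iw, iw, (ww_congr k).self_of_nhds,
          k.self_of_nhds]) i).trans
        (pd_comp₂ (Φ := fun t s => -(q * (1 - s) / t) + A * t + (β + B) * (t - ε / t))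
          (s1.diff x) ((sm_iw hg s1).diff x) (hf_deriv q A (β + B) ε (w0 x).ne' _) i), dn_iw hg s1]
    have d3 : 0 ≤ (q * (1 - iw g w' x) / w' x ^ 2 + A + (β + B) * (1 + ε / w' x ^ 2)) *
        dn g w' w' x := mul_nonneg (by have := sub_nonneg.2 u1; positivity) (dn_nonneg hg w' x)
    have d4 : q / w' x * -(iw g w' x * dn g w' (lw g w') x) =
        -(q * iw g w' x / w' x * dn g w' (lw g w') x) := by ring
    rw [d4]
    linarith only [d1, d2, d3]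
  · rw [Hf_eq (e5 x (by linarith))]
    refine le_add_of_nonneg_right ((alt x (by linarith)).elim (fun k => by simp [k]) fun k' => ?_)
    rw [k'.2, mul_zero, zero_add]
    exact mul_nonneg (hκ x).1 (sub_nonneg.2 ((div_le_iff₀ (w0 x)).2 (by linarith)))
  · rcases lt_or_ge (15 / 4) (ϱ x) with h' | h'
    · rw [(e4 x h').self_of_nhds]; linarith
    · exact (nr x ⟨h, h'⟩).2

/-- **LST** -/
theorem lst : LST := by
  obtain ⟨C, -, hC⟩ := P210F.Al.st_bd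
  refine ⟨32 * C ^ 2, fun n X _ g₀ g v ϱ W K K₀ D q β A s ε η hn hg₀ hg cv hϱ sW sK hK hD far sl bd
    hc q0 q1 hβ β0 s0 ε0 h1 h2 => ?_⟩
  obtain ⟨ζ, z1, -, z2, z3, z4⟩ := exists_cut hK isOpen_interior hD
  have e : ∀ x ∈ K₀, (fun y => 4 + ζ y * (ϱ y - 4)) =ᶠ[𝓝 x] ϱ := fun x hx =>
    (z4 x hx).mono fun y k => by simp [k]
  have mD : ∀ x ∈ K₀, x ∈ D := fun x hx => interior_subset (hD hx)
  have far' : ∀ x ∉ K₀, 4 ≤ 4 + ζ x * (ϱ x - 4) := fun x hx => by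
    by_cases k : ζ x = 0
    · simp [k]
    · exact le_add_of_nonneg_right (mul_nonneg (z3 x).1 (sub_nonneg.2
        (far x (interior_subset (z2 (subset_tsupport _ k))) hx)))
  obtain ⟨w, v', a, b, c, d, h⟩ := lst0 (ϱ := fun y => 4 + ζ y * (ϱ y - 4)) hC hn hg₀ hg cv
    (CD.add cd_const (CD.mul z1 (CD.sub hϱ cd_const))) sW sK hK far'
    (fun x hx => (ip_congr (e x hx) (e x hx)).trans_le (sl x (mD x hx))) bd
    (fun x hx k => hc x (mD x hx) (k.trans_eq (e x hx).self_of_nhds)) q0 q1 hβ β0 s0 ε0 h1 h2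
  refine ⟨w, v', a, b, c, d, fun x hx => ?_⟩
  obtain ⟨k1, k2, k3⟩ := h x fun k => (hc x hx (by linarith [far x hx k])).2
  by_cases k : x ∈ K₀
  · have := (e x k).self_of_nhds
    exact ⟨k1, fun m => k2 (this.trans_lt m), fun m => k3 (m.trans_eq this.symm)⟩
  · exact ⟨k1, fun m => by linarith [far x hx k], fun _ => k3 (by linarith [far' x k])⟩

end Vale.Agent.P223T
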