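import Vale.Agent.P223T.LstD
import Vale.Agent.P210T.LStep
import Vale.Agent.P210T.Step
import Vale.Agent.P210V.MixR
import Vale.Agent.P210K.Tr
import Vale.Agent.P210F.Alg

/-!
# P223T: the approximate step; pointwise lemmas
-/

open Filter Topology Set
open scoped ContDiff
open Vale.Agent.P366M Vale.Agent.P366M.Gr Vale.Agent.P366M.Y.C Vale.Agent.P366M.Y.C.GbH
open Vale.Agent.P210G Vale.Agent.P210Y Vale.Agent.P210R Vale.Agent.P210T Vale.Agent.P210D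

noncomputable section

namespace Vale.Agent.P223T

variable {n : ℕ} {M : Type} [Mf0 n M] {g g₀ : Fld n M} {v v' : Fin n → M → ℝ}
  {w w' χ κ W K : M → ℝ} {x : M} {T : Set M} {q β A s ε η e : ℝ}

theorem spr_neg {w t ζ β A ε η : ℝ} (w0 : 0 < w) (β0 : 0 < β) (A0 : 0 ≤ A) (ε0 : 0 < ε)
    (hz : ζ * w = ε) (ht : t = ζ - w) (t0 : 0 ≤ t) (hw : β * ε ≤ 2 * (A + β) * w ^ 2)
    (h2 : 16 * ε * (A + β + 1) ^ 2 ≤ η) : β ^ 2 * t ^ 2 ≤ η / 8 ∧ A ^ 2 * w ^ 2 ≤ η / 16 := by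
  have w1 : w ^ 2 ≤ ε := by nlinarith
  have b0 : β * ζ ^ 2 ≤ 2 * (A + β) * ε := by
    refine le_of_mul_le_mul_right ?_ (pow_pos w0 2)
    have : β * ζ ^ 2 * w ^ 2 = β * ε * ε := by rw [← hz]; ring
    linarith [mul_le_mul_of_nonneg_right hw ε0.le]
  have c1 := mul_le_mul_of_nonneg_left (pow_le_pow_left₀ t0 (by linarith : t ≤ ζ) 2) (sq_nonneg β)
  have c2 := mul_le_mul_of_nonneg_left b0 β0.le
  have c3 : β * (A + β) ≤ (A + β + 1) ^ 2 := by nlinarith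
  have c4 : A ^ 2 ≤ (A + β + 1) ^ 2 := by nlinarith
  exact ⟨by linarith [mul_le_mul_of_nonneg_left c3 ε0.le],
    by linarith [mul_le_mul c4 w1 (sq_nonneg _) (sq_nonneg _)]⟩

theorem spr_alg {u w κ β A ε q N η : ℝ} (u0 : 0 < u) (u1 : u ≤ 1) (w0 : 0 < w) (κ0 : 0 ≤ κ)
    (β0 : 0 < β) (A0 : 0 ≤ A) (ε0 : 0 < ε) (q0 : 0 ≤ q) (q1 : q ≤ 1)
    (hN : N ^ 2 ≤ 1 / 2 * κ * (β + κ) ^ 2 * (1 - u ^ 2)) (hw : β * ε ≤ 2 * (A + β) * w ^ 2)
    (h1 : β ^ 2 ≤ η * A) (h2 : 16 * ε * (A + β + 1) ^ 2 ≤ η) :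
    (κ * (w - ε / w)) ^ 2 / 4 + (-(q * ((1 - u) / w)) + A * w + β * (w - ε / w)) ^ 2 - η ≤
      (-(q * ((1 - u) / w)) + A * w + β * (w - ε / w) + κ * (w - ε / w)) ^ 2 +
        2 * κ * ((1 - u ^ 2) / u) + 2 * (w - ε / w) * N := by
  have s0 : 0 ≤ 1 - u ^ 2 := by nlinarith
  have s1 : 1 - u ^ 2 ≤ 1 := by nlinarith
  have m : 2 * (1 - u) + (1 - u ^ 2) ≤ 2 * ((1 - u ^ 2) / u) := by
    rw [← mul_div_assoc, le_div_iff₀ u0]
    nlinarith [mul_nonneg (sub_nonneg.2 u1) (show 0 ≤ 2 - u - u ^ 2 by nlinarith)]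
  have m' := mul_le_mul_of_nonneg_left (le_div_self s0 u0 u1) κ0
  have m1 := mul_le_mul_of_nonneg_left m κ0
  have hy : (1 - u) / w * w = 1 - u := div_mul_cancel₀ _ w0.ne'
  have y0 : 0 ≤ (1 - u) / w := div_nonneg (by linarith) w0.le
  have hz : ε / w * w = ε := div_mul_cancel₀ _ w0.ne'
  have z0 : 0 < ε / w := by positivity
  have η0 : 0 ≤ η := le_trans (by positivity) h2
  generalize (1 - u ^ 2) / u = μ at *
  generalize 1 - u ^ 2 = σ at *
  generalize (1 - u) / w = y at *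
  generalize ε / w = ζ at *
  obtain ⟨r, r0, hr⟩ : ∃ r ≥ (0 : ℝ), r ^ 2 = κ * σ / 2 :=
    ⟨√(κ * σ / 2), Real.sqrt_nonneg _, Real.sq_sqrt (by positivity)⟩
  have n1 : |N| ≤ r * (β + κ) := abs_le_of_sq_le_sq (by rw [mul_pow, hr]; linarith) (by positivity)
  have n2 : |(w - ζ) * N| ≤ |w - ζ| * (r * (β + κ)) := by
    rw [abs_mul]; exact mul_le_mul_of_nonneg_left n1 (abs_nonneg _)
  have n3 := (abs_le.1 n2).1
  rcases le_total 0 (w - ζ) with k | k
  · rw [abs_of_nonneg k] at n3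
    have t1 : w - ζ ≤ w := by linarith
    generalize w - ζ = t at *
    have a1 := P210F.Al.amgm (u := 2 * r * β * t) (p := 2 * κ * A * t ^ 2) (q := η / 4)
      (by positivity) (by positivity) (by
        have := mul_le_mul_of_nonneg_left ((mul_le_of_le_one_left (sq_nonneg β) s1).trans h1)
          (by positivity : 0 ≤ 2 * κ * t ^ 2)
        calc (2 * r * β * t) ^ 2 = 4 * r ^ 2 * β ^ 2 * t ^ 2 := by ring
          _ = 2 * κ * t ^ 2 * (σ * β ^ 2) := by rw [hr]; ring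
          _ ≤ _ := by linarith only [this])
    have a2 : κ * (t * (q * y)) ≤ κ * (1 - u) := mul_le_mul_of_nonneg_left
      ((mul_le_mul t1 (mul_le_of_le_one_left y0 q1) (by positivity) w0.le).trans_eq
        (by linarith only [hy])) κ0
    have a3 : κ * A * t * t ≤ κ * A * t * w := mul_le_mul_of_nonneg_left t1 (by positivity)
    have a4 : 0 ≤ κ * β * t ^ 2 := by positivity
    linarith only [le_abs_self (2 * r * β * t), sq_nonneg (2 * r - κ * t), sq_nonneg (κ * t), a1,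
      a2, a3, a4, n3, m1, hr, η0]
  · rw [abs_of_nonpos k] at n3
    obtain ⟨t, ht⟩ : ∃ t, t = ζ - w := ⟨_, rfl⟩
    have t0 : 0 ≤ t := by linarith
    obtain ⟨b1, b2⟩ := spr_neg w0 β0 A0 ε0 hz ht t0 hw h2
    rw [show w - ζ = -t by linarith] at n3 ⊢
    have a2 : 0 ≤ κ * t * (q * y) := by positivity
    have a4 : 0 ≤ κ * β * t ^ 2 := by positivity
    linarith only [sq_nonneg (2 * r - κ * t), sq_nonneg (2 * r - β * t),
      sq_nonneg (κ * t - 4 * A * w), a2, a4, b1, b2, n3, m', hr, η0]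

/-- the comparison of two metrics -/
theorem iv_cmp (hg₀ : Met g₀) (hg : Met g) (a : Fin n → M → ℝ) (x : M) :
    iv g₀ a a x ≤ √(normSq g₀ g x) * iv g a a x := by
  have h1 := ev_cs hg a (sh g₀ a) x
  have h2 := (le_abs_self _).trans (abs_gq_le hg₀ g (sh g₀ a) x)
  have h3 : gq g₀ (sh g₀ a) (sh g₀ a) x = iv g₀ a a x := by
    rw [gq_eq_ev, iv_eq_ev]
    exact Finset.sum_congr rfl fun i _ => congrArg (· * _) (hg₀.g_up_mul x i fun j => a j x)
  rw [← iv_eq_ev] at h1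
  rw [h3] at h2
  have h4 := iv_nonneg hg a x
  rcases (iv_nonneg hg₀ a x).eq_or_lt with h | h
  · rw [← h]; positivity
  · exact le_of_mul_le_mul_right (by nlinarith [mul_le_mul_of_nonneg_left h2 h4]) h

/-- the tail -/
theorem tailB (hg₀ : Met g₀) (hg : Met g) (hv' : CC ∞ v) (hχ : Smooth χ) (hκ : Smooth κ)
    (k : ∀ x, 0 ≤ χ x ∧ χ x ≤ 1) (k' : ∀ x, 0 ≤ κ x ∧ κ x ≤ 1) (hT : IsCompact T) (he : 0 < e) :
    ∃ δ > 0, δ ≤ e ∧ ∀ x ∈ T, ∀ (w w' : M → ℝ) (c : ℝ), Smooth w → Smooth w' →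
      (w' =ᶠ[𝓝 x] fun y => c + χ y * (w y - c)) → |w x - c| ≤ δ → gn g w x ≤ δ →
      |hv g v w x| ≤ δ → gn g w' x ≤ e ∧ hv g v w' x ^ 2 ≤ e * (1 + a2 g w' x) ∧
        iv g₀ (fun i y => kv g v κ w' i y - vg g v w' i y)
          (fun i y => kv g v κ w' i y - vg g v w' i y) x ≤ e * (1 + a2 g w' x) ∧
        ((κ x = 1 ∨ -(ip (gb g 1 w') (lw g w') (lw g w') x / 8 + e / 2) ≤
          2 * dn g w' (hv g v w') x) → Rv g v x + 7 / 8 * (a2 g w' x +
            ip (gb g 1 w') (lw g w') (lw g w') x) - e ≤ Rv (gb g 1 w') (kv g v κ w') x) := by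
  have c1 : Continuous fun x => gn g χ x + |Lv g v χ x| + √(normSq g (hess g χ) x) + gn g κ x +
      √(normSq g₀ g x) :=
    ((((hg.cont_gn hχ.one).add (sm_Lv hg hv' hχ).cont.abs).add
      (hg.sm_normSq (hg.sm_hess hχ)).cont.sqrt).add (hg.cont_gn hκ.one)).add
      (hg₀.sm_normSq hg.sm).cont.sqrt
  obtain ⟨K, K0, hK⟩ := bd_cont hT c1
  have hK1 : 0 < 1 + K := by positivity
  have hK2 : 0 < 400 + 256 * K + K ^ 2 := by positivity
  obtain ⟨η, η0, η1, η2⟩ : ∃ η > (0 : ℝ), η * (400 + 256 * K + K ^ 2) ≤ 1 / 8 ∧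
      η * (400 + 256 * K + K ^ 2) ≤ e / 2 :=
    ⟨min (1 / 8) (e / 2) / (400 + 256 * K + K ^ 2), by positivity,
      (div_mul_cancel₀ _ hK2.ne').trans_le (min_le_left _ _),
      (div_mul_cancel₀ _ hK2.ne').trans_le (min_le_right _ _)⟩
  have p1 : 0 ≤ η * K := by positivity
  have p2 : 0 ≤ η * K ^ 2 := by positivity
  have e1 : η / (1 + K) * (1 + K) = η := div_mul_cancel₀ _ hK1.ne'
  have e2 : η / (1 + K) ≤ η := div_le_self η0.le (by linarith)
  refine ⟨η / (1 + K), by positivity, by linarith, fun x hx w w' c hw hw' ec d1 d2 hH => ?_⟩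
  have b := (le_abs_self _).trans (hK x hx)
  have b1 := gn_nonneg g χ x
  have b2 := abs_nonneg (Lv g v χ x)
  have b3 := Real.sqrt_nonneg (normSq g (hess g χ) x)
  have b4 := gn_nonneg g κ x
  have b5 := Real.sqrt_nonneg (normSq g₀ g x)
  obtain ⟨h1, h2⟩ := hv_cut_le hg hχ hw hw' (K := K) (B := 1) ec (k x).1 (k x).2 (by linarith)
    (by linarith) (by linarith) d1 d2 (by linarith) (by rw [e1]; linarith)
  rw [e1] at h1 h2
  have L0 := (met_g hg hw').ip_nonneg (lw g w') x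
  have a0 := a2_nonneg hg hw' x
  have s1 : |χ x * hv g v w x| ≤ η := by
    rw [abs_mul, abs_of_nonneg (k x).1]
    exact (mul_le_of_le_one_left (abs_nonneg _) (k x).2).trans (hH.trans e2)
  have s2 : |hv g v w' x| ≤ η * (√(a2 g w' x) + 8) := by
    linarith [abs_sub_abs_le_abs_sub (hv g v w' x) (χ x * hv g v w x)]
  have s3 : hv g v w' x ^ 2 ≤ η * (η * (128 * (1 + a2 g w' x))) := by
    refine (sq_le_sq' (abs_le.1 s2).1 (abs_le.1 s2).2).trans ?_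
    rw [mul_pow, sq η, mul_assoc]
    gcongr
    nlinarith [sq_nonneg (√(a2 g w' x) - 8), Real.sq_sqrt a0]
  have s4 : hv g v w' x ^ 2 ≤ η * (128 * (1 + a2 g w' x)) :=
    s3.trans (mul_le_of_le_one_left (by positivity) (by linarith))
  have q0 := hg.ip_nonneg w' x
  have q1 : ip g w' w' x ≤ 1 := by
    rw [← hg.gn_sq]; exact pow_le_one₀ (gn_nonneg _ _ _) (by linarith)
  have s5 : (κ x * hv g v w' x) ^ 2 * ip g w' w' x ≤ hv g v w' x ^ 2 := by
    refine (mul_le_of_le_one_right (sq_nonneg _) q1).trans ?_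
    rw [mul_pow]
    exact mul_le_of_le_one_left (sq_nonneg _) (pow_le_one₀ (k' x).1 (k' x).2)
  have t1 := mul_le_mul_of_nonneg_right η1 a0
  have t2 := mul_le_mul_of_nonneg_right η2 a0
  have t3 := mul_nonneg p1 a0
  have t4 := mul_nonneg p2 a0
  have t5 := mul_nonneg η0.le a0
  refine ⟨by linarith, by linarith, ?_, fun hk => ?_⟩
  · rw [iv_congr (a := fl (gb g 1 w') fun j z => -κ z * (hv g v w' z * nv g w' j z))
      (b := fl (gb g 1 w') fun j z => -κ z * (hv g v w' z * nv g w' j z))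
      (fun i => add_sub_cancel_left _ _) fun i => add_sub_cancel_left _ _]
    set E := fl (gb g 1 w') fun j z => -κ z * (hv g v w' z * nv g w' j z)
    have u1 := iv_g_ge hg w' E x
    rw [iv_fl (met_g hg hw'), gq_smul (X := nv g w') (s := -(κ x * hv g v w' x)) fun i => by ring,
      gq_gb_nv hg, neg_sq] at u1
    have u2 : 1 / 2 ≤ uu g w' x ^ 2 := by
      have := ip_iw hg w' x
      have := mul_le_of_le_one_left (sq_nonneg (iw g w' x)) q1
      change _ ≤ iw g w' x ^ 2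
      linarith
    have u3 := iv_nonneg hg E x
    have u4 : iv g E E x ≤ 2 * (η * (128 * (1 + a2 g w' x))) := by
      linarith [mul_le_mul_of_nonneg_right u2 u3]
    refine (iv_cmp hg₀ hg E x).trans ((mul_le_mul (by linarith) u4 u3 K0).trans ?_)
    linarith
  · have r1 : |dn g w' κ x| ≤ K := (abs_dn_le hg _ _ x).trans (by linarith)
    have r2 := P210F.Al.amgm (u := 2 * (hv g v w' x * dn g w' κ x)) (q := η * K ^ 2)
      (p := η * (128 * (1 + a2 g w' x))) (by positivity) p2 (by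
        have := mul_le_mul s3 (sq_le_sq' (abs_le.1 r1).1 (abs_le.1 r1).2) (sq_nonneg _)
          (by positivity)
        linarith)
    have r3 : -(ip (gb g 1 w') (lw g w') (lw g w') x / 8 + e / 2) ≤
        (1 - κ x) * (2 * dn g w' (hv g v w') x) := by
      rcases hk with hk | hk
      · rw [hk, sub_self, zero_mul]; linarith
      · nlinarith [mul_le_mul_of_nonneg_left hk (sub_nonneg.2 (k' x).2), (k' x).1]
    rw [Rv_kv hg hv' hκ hw', gid hg hv' hw', gq_gb_nv hg]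
    nlinarith [le_abs_self (2 * (hv g v w' x * dn g w' κ x)),
      mul_nonneg (sub_nonneg.2 (k' x).2) (sq_nonneg (hv g v w' x))]

theorem near_alg {t W A β ε η : ℝ} (β0 : 0 ≤ β) (ε0 : 0 < ε) (W0 : 0 ≤ W) (W1 : W ≤ A)
    (hε : 16 * ε * (A + β + 1) ^ 2 ≤ η) (w0 : 0 < t) (w1 : ε ≤ 2 * t ^ 2) (w2 : t ^ 2 ≤ 2 * ε) :
    (W * t + β * (t - ε / t)) ^ 2 ≤ η / 8 := by
  have hz : ε / t * t = ε := div_mul_cancel₀ _ w0.ne'
  have z0 : 0 < ε / t := by positivity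
  obtain ⟨r, r0, hr⟩ : ∃ r ≥ (0 : ℝ), r ^ 2 = 2 * ε :=
    ⟨√(2 * ε), Real.sqrt_nonneg _, Real.sq_sqrt (by positivity)⟩
  have k1 : t ≤ r := (abs_le_of_sq_le_sq' (by linarith) r0).2
  have k2 : ε / t ≤ r := (abs_le_of_sq_le_sq' (le_of_mul_le_mul_right (by
    rw [← mul_pow, hz, hr]; linarith [mul_le_mul_of_nonneg_left w1 ε0.le]) (pow_pos w0 2)) r0).2
  have k3 := mul_le_mul W1 k1 w0.le (W0.trans W1)
  have k4 : (W * t + β * (t - ε / t)) ^ 2 ≤ ((A + β + 1) * r) ^ 2 := sq_le_sq' (by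
    linarith [mul_le_mul_of_nonneg_left k2 β0, mul_nonneg W0 w0.le, mul_nonneg β0 w0.le,
      mul_nonneg (W0.trans W1) r0]) (by
    linarith [mul_le_mul_of_nonneg_left k1 β0, mul_nonneg β0 z0.le])
  rw [mul_pow, hr] at k4
  linarith

theorem tail_alg {u p t q e ε : ℝ} (u0 : 0 < u) (u1 : u ≤ 1) (q0 : 0 ≤ q) (q1 : q ≤ 1)
    (p0 : 0 ≤ p) (e0 : 0 ≤ e) (w0 : 0 < t) (hs : p * u ^ 2 = 1 - u ^ 2) (w1 : ε ≤ 2 * t ^ 2)
    (hp : p ≤ e * ε) : (q * u / t) ^ 2 * p ≤ 2 * e ∧ q ^ 2 * (1 - u ^ 2) ^ 2 / t ^ 2 ≤ 2 * e ∧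
      ((1 - u) / t) ^ 2 ≤ 2 * e ∧ (1 - u ^ 2) / u ≤ e * ε := by
  have t2 := pow_pos w0 2
  have c0 : p / t ^ 2 ≤ 2 * e := by
    rw [div_le_iff₀ t2]; linarith [mul_le_mul_of_nonneg_left w1 e0]
  have s0 : 0 ≤ 1 - u ^ 2 := by nlinarith
  have s1 : 1 - u ^ 2 ≤ p := hs ▸ mul_le_of_le_one_right p0 (pow_le_one₀ u0.le u1)
  refine ⟨le_trans ?_ c0, le_trans ?_ c0, le_trans ?_ c0, ?_⟩
  · rw [div_pow, div_mul_eq_mul_div]
    exact div_le_div_of_nonneg_right (mul_le_of_le_one_left p0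
      (pow_le_one₀ (by positivity) (mul_le_one₀ q1 u0.le u1))) t2.le
  · exact div_le_div_of_nonneg_right ((mul_le_of_le_one_left (sq_nonneg _)
      (pow_le_one₀ q0 q1)).trans (by nlinarith)) t2.le
  · rw [div_pow]; exact div_le_div_of_nonneg_right (by nlinarith) t2.le
  · rw [div_le_iff₀ u0, ← hs]
    linarith [mul_le_mul_of_nonneg_right hp u0.le, mul_le_of_le_one_right (mul_nonneg p0 u0.le) u1]

/-- the approximate step where the function is close to `√ε` -/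
theorem ap_of (hg : Met g) (hw : Smooth w) (q0 : 0 ≤ q) (q1 : q ≤ 1) (β0 : 0 ≤ β) (ε0 : 0 < ε)
    (W0 : 0 ≤ W x) (W1 : W x ≤ A) (K0 : K x = 0) (hW : dn g w W x = 0) (e1 : e ≤ 1)
    (e2 : 32 * e ≤ η) (hε : 16 * ε * (A + β + 1) ^ 2 ≤ η) (w0 : 0 < w x) (w1 : ε ≤ 2 * w x ^ 2)
    (w2 : w x ^ 2 ≤ 2 * ε) (hp : ip g w w x ≤ e * ε) (h2 : hv g v w x ^ 2 ≤ e * (1 + a2 g w x))
    (h3 : iv g₀ (fun i y => v' i y - vg g v w i y) (fun i y => v' i y - vg g v w i y) x ≤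
      e * (1 + a2 g w x))
    (h1 : Rv g v x + 7 / 8 * (a2 g w x + ip (gb g 1 w) (lw g w) (lw g w) x) - e ≤
      Rv (gb g 1 w) v' x) : Ap g₀ g v W K q β s ε η w v' x := by
  have a0 := a2_nonneg hg hw x
  have p0 := hg.ip_nonneg w x
  have e0 : 0 ≤ e := nonneg_of_mul_nonneg_left (p0.trans hp) ε0
  refine ⟨a2 g w x / 8, by positivity, ?_, ?_, ?_⟩
  rotate_left
  · linarith [sq_nonneg (H0 g W K q β s ε w x), mul_le_of_le_one_left a0 e1]
  · linarith [mul_le_mul_of_nonneg_right e2 a0, mul_nonneg e0 a0]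
  have d := two_dn_le hg hw (lw g w) (-6 * (q * uu g w x / w x)) x
  obtain ⟨c1, c2, c3, c4⟩ := tail_alg (uu_pos hg w x) (uu_le hg w x) q0 q1 p0 e0 w0 (ip_iw hg w x)
    w1 hp
  have c6 := near_alg β0 ε0 W0 W1 hε w0 w1 w2
  rw [H0, hq, P210R.yy, hW, P210V.fi_zero K0, K0, mul_zero, zero_add]
  generalize uu g w x = u at *
  generalize w x = t at *
  have c5 : (W x + β) * ((1 - u ^ 2) / u) ≤ η / 16 := by
    have : (W x + β) * (e * ε) ≤ (A + β + 1) ^ 2 * ε := mul_le_mul (by nlinarith only [W0, W1, β0])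
      (mul_le_of_le_one_left ε0.le e1) (by positivity) (sq_nonneg _)
    linarith only [mul_le_mul_of_nonneg_left c4 (add_nonneg W0 β0), this, hε]
  have c7 : (q * ((1 - u) / t)) ^ 2 ≤ ((1 - u) / t) ^ 2 := by
    rw [mul_pow]; exact mul_le_of_le_one_left (sq_nonneg _) (pow_le_one₀ q0 q1)
  have c8 : 2 * q * (1 - q) * ((1 - u) / t) ^ 2 ≤ ((1 - u) / t) ^ 2 :=
    mul_le_of_le_one_left (sq_nonneg _) (by nlinarith only [sq_nonneg (1 - 2 * q)])
  have c9 := sq_nonneg (q * ((1 - u) / t) + (W x * t + β * (t - ε / t)))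
  have e3 : 2 * q * u * dn g w (lw g w) x / t = 2 * (q * u / t) * dn g w (lw g w) x := by ring
  rw [e3]
  generalize q * u / t = b at *
  generalize (1 - u) / t = y at *
  generalize t - ε / t = z at *
  linarith only [c1, c2, c3, c5, c6, c7, c8, c9, d, h1, e2, e0]

/-- the approximate step where nothing is done -/
theorem ap_const (hg : Met g) (hv' : CC ∞ v) (hw : Smooth w) (q0 : 0 ≤ q) (q1 : q ≤ 1)
    (β0 : 0 ≤ β) (ε0 : 0 < ε) (W0 : 0 ≤ W x) (W1 : W x ≤ A) (K0 : K x = 0)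
    (hε : 16 * ε * (A + β + 1) ^ 2 ≤ η) (ew : w =ᶠ[𝓝 x] fun _ => √ε)
    (ev : ∀ i, v' i =ᶠ[𝓝 x] v i) : Ap g₀ g v W K q β s ε η w v' x := by
  have η0 : 0 < η := lt_of_lt_of_le (by have := W0.trans W1; positivity) hε
  have z : ∀ f, ip g w f x = 0 := fun f => by rw [ip_congr ew .rfl, ip_const_left]
  have h := gid hg hv' hw x
  rw [Rv_of_ev (gb_const ew) (vg_const ew), dn, z, zero_div] at h
  have L0 := (met_g hg hw).ip_nonneg (lw g w) x
  have a0 := a2_nonneg hg hw x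
  have h0 := sq_nonneg (hv g v w x)
  have e0 : 0 < min 1 (η / 32) := by positivity
  have w2 : w x ^ 2 = ε := by rw [ew.self_of_nhds, Real.sq_sqrt ε0.le]
  refine ap_of hg hw q0 q1 β0 ε0 W0 W1 K0 (by rw [dn, z, zero_div]) (min_le_left 1 (η / 32))
    (by linarith [min_le_right 1 (η / 32)]) hε (by rw [ew.self_of_nhds]; positivity) (by linarith)
    (by linarith) (by rw [z]; positivity) (le_trans (by linarith) (by positivity : (0 : ℝ) ≤ _))
    (le_trans ?_ (by positivity : (0 : ℝ) ≤ _)) ?_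
  · simp [iv, (ev _).self_of_nhds, (vg_const ew _).self_of_nhds]
  · rw [Rv_of_ev (gb_const ew) ev]
    linarith

end Vale.Agent.P223T
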