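import Vale.Agent.P223T.Ms2

/-!
# P223T: the inequality of Michael and Simon in the form of Sobolev
-/

open scoped ContDiff Topology Matrix ENNReal NNReal
open MeasureTheory Set Filter Vale.Agent.P366M

noncomputable section

namespace Vale.Agent.P223T

/-- the energy of one level -/
def Ene {n : ℕ} {M : Type} [Mf0 n M] (g : Fld n M) (u V : M → ℝ) (τ : ℝ) (q : M) : ℝ :=
  ({q | τ / 2 < |u q| ∧ |u q| ≤ τ}.indicator (fun q => (gn g u q / τ) ^ 2) q) +
    ({q | τ / 2 < |u q|}.indicator V q)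

/-- From the levels to the inequality of Sobolev. -/
theorem levels {n : ℕ} (hn : 3 ≤ n) {M : Type} [Mf0 n M] {g : Fld n M}
    {u V : M → ℝ} {c₁ : ℝ} (hc₁ : 0 < c₁) (hg : Met g)
    (hV : Continuous V) (hV0 : ∀ q, 0 ≤ V q) (hu : Smooth u) (huc : HasCompactSupport u)
    (hW : ∀ τ, 0 < τ → vol g {q | τ / 2 < |u q|} ≤ ENNReal.ofReal 128 * vol g {q | τ < |u q|} →
      ENNReal.ofReal c₁ * vol g {q | τ < |u q|} ^ (((n : ℝ) - 2) / n) ≤
        ∫⁻ q, ENNReal.ofReal (Ene g u V τ q) ∂vol g) :
    c₁ / 1024 * (∫ q, |u q| ^ (2 * (n : ℝ) / (n - 2)) ∂vol g) ^ (((n : ℝ) - 2) / n) ≤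
      ∫ q, (ip g u u q + V q * u q ^ 2) ∂vol g := by
  have hn3 : (3 : ℝ) ≤ n := by exact_mod_cast hn
  set σ : ℝ := ((n : ℝ) - 2) / n with hσ
  set p : ℝ := 2 * (n : ℝ) / (n - 2) with hp
  have hσ0 : 0 < σ := div_pos (by linarith) (by linarith)
  have hσ1 : σ ≤ 1 := by rw [hσ, div_le_one (by linarith)]; linarith
  have hp0 : 0 < p := div_pos (by linarith) (by linarith)
  have hp1 : 1 ≤ p := by rw [hp, le_div_iff₀ (by linarith)]; linarith
  have hp6 : p ≤ 6 := by rw [hp, div_le_iff₀ (by linarith)]; linarith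
  have hpσ : p * σ = 2 := by
    have h1 : (n : ℝ) - 2 ≠ 0 := by linarith
    have h2 : (n : ℝ) ≠ 0 := by linarith
    rw [hσ, hp]
    field_simp
  have hlf := hg.locFin
  have ucont := Smooth.cont hu
  have gcont := hg.cont_gn hu.one
  -- the levels
  obtain ⟨T₀, hT₀⟩ := (huc : IsCompact (tsupport u)).exists_bound_of_continuousOn
    (f := u) ucont.continuousOn
  set T : ℝ := max T₀ 1 with hT
  have hT0 : 0 < T := lt_max_of_lt_right one_pos
  have huT : ∀ q, |u q| ≤ T := fun q => by
    by_cases hq : q ∈ tsupport u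
    · exact (hT₀ q hq).trans (le_max_left _ _)
    · rw [image_eq_zero_of_notMem_tsupport hq, abs_zero]; exact hT0.le
  set t : ℕ → ℝ := fun j => T / 2 ^ j with ht
  have ht0 : ∀ j, 0 < t j := fun j => by positivity
  have htS : ∀ j, t (j + 1) = t j / 2 := fun j => by simp only [ht]; rw [pow_succ, div_div]
  have hmS : ∀ j, MeasurableSet {q | t j < |u q|} := fun j =>
    measurableSet_lt measurable_const ucont.abs.measurable
  set a : ℕ → ℝ≥0∞ := fun j => vol g {q | t j < |u q|} with ha
  set b : ℕ → ℝ≥0∞ := fun j => ENNReal.ofReal (t j ^ p) * a j with hb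
  set E : ℕ → ℝ≥0∞ := fun j => ENNReal.ofReal (t j ^ 2) *
    ∫⁻ q, ENNReal.ofReal (Ene g u V (t j) q) ∂vol g with hE
  set L : ℝ≥0∞ := ENNReal.ofReal c₁ with hL
  have hL0 : L ≠ 0 := (ENNReal.ofReal_pos.2 (by positivity)).ne'
  have hLt : L ≠ ⊤ := ENNReal.ofReal_ne_top
  -- one level
  have h1 : ∀ j, b j ≤ 2⁻¹ * b (j + 1) + (E j / L) ^ (1 / σ) := by
    intro j
    by_cases hM : vol g {q | t j / 2 < |u q|} ≤ ENNReal.ofReal 128 * vol g {q | t j < |u q|}
    · refine le_add_left ?_
      have h2 := hW (t j) (ht0 j) hM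
      have h3 : L * b j ^ σ ≤ E j := by
        calc L * b j ^ σ = ENNReal.ofReal (t j ^ 2) * (L * a j ^ σ) := by
              simp only [hb]
              rw [ENNReal.mul_rpow_of_nonneg _ _ hσ0.le, ENNReal.ofReal_rpow_of_pos
                (Real.rpow_pos_of_pos (ht0 j) _), ← Real.rpow_mul (ht0 j).le, hpσ,
                Real.rpow_two]
              ring
          _ ≤ E j := by
              simp only [hE]
              gcongr
      have h4 : b j ^ σ ≤ E j / L := by
        rw [ENNReal.le_div_iff_mul_le (Or.inl hL0) (Or.inl hLt), mul_comm]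
        exact h3
      calc b j = (b j ^ σ) ^ (1 / σ) := by
            rw [← ENNReal.rpow_mul, mul_one_div, div_self hσ0.ne', ENNReal.rpow_one]
        _ ≤ _ := by gcongr
    · refine le_add_right ?_
      push Not at hM
      have h2 : a (j + 1) = vol g {q | t j / 2 < |u q|} := by simp only [ha, htS]
      have h3 : ENNReal.ofReal (t j ^ p) ≤ 64 * ENNReal.ofReal (t (j + 1) ^ p) := by
        have h4 : (64 : ℝ≥0∞) = ENNReal.ofReal 64 := by norm_num
        rw [h4, ← ENNReal.ofReal_mul (by norm_num)]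
        refine ENNReal.ofReal_le_ofReal ?_
        have h5 : t j = 2 * t (j + 1) := by rw [htS]; ring
        calc t j ^ p = 2 ^ p * t (j + 1) ^ p := by
              rw [h5, Real.mul_rpow zero_le_two (ht0 _).le]
          _ ≤ 2 ^ (6 : ℝ) * t (j + 1) ^ p := by
              have := Real.rpow_nonneg (ht0 (j + 1)).le p
              gcongr
              norm_num
          _ = 64 * t (j + 1) ^ p := by norm_num
      have h5 : a j ≤ 128⁻¹ * a (j + 1) := by
        rw [h2]
        have h6 : ENNReal.ofReal 128 = 128 := by norm_num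
        rw [h6] at hM
        calc a j = 128⁻¹ * (128 * a j) := by
              rw [← mul_assoc, ENNReal.inv_mul_cancel (by simp) (by simp), one_mul]
          _ ≤ _ := by gcongr
      calc b j = ENNReal.ofReal (t j ^ p) * a j := rfl
        _ ≤ 64 * ENNReal.ofReal (t (j + 1) ^ p) * (128⁻¹ * a (j + 1)) := by gcongr
        _ = (64 * 128⁻¹) * b (j + 1) := by simp only [hb]; ring
        _ = 2⁻¹ * b (j + 1) := by
          congr 1
          rw [show (128 : ℝ≥0∞) = 64 * 2 by norm_num,
            ENNReal.mul_inv (Or.inl (by simp)) (Or.inl (by simp)), ← mul_assoc,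
            ENNReal.mul_inv_cancel (by simp) (by simp), one_mul]
  -- the sum is finite
  have hKfin : vol g (tsupport u) ≠ ⊤ := (huc : IsCompact (tsupport u)).measure_lt_top.ne
  have h2 : ∑' j, b j ≠ ⊤ := by
    have h3 : ∀ j, b j ≤ ENNReal.ofReal (T ^ p) * vol g (tsupport u) * 2⁻¹ ^ j := by
      intro j
      have h4 : a j ≤ vol g (tsupport u) := measure_mono fun q hq => subset_tsupport u (by
        intro h
        have h5 : t j < |u q| := hq
        rw [h, abs_zero] at h5
        linarith [ht0 j])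
      have h5 : ENNReal.ofReal (t j ^ p) ≤ ENNReal.ofReal (T ^ p) * 2⁻¹ ^ j := by
        have h6 : (2⁻¹ : ℝ≥0∞) ^ j = ENNReal.ofReal (1 / 2 ^ j) := by
          rw [one_div, ENNReal.ofReal_inv_of_pos (by positivity), ENNReal.ofReal_pow zero_le_two,
            ENNReal.inv_pow]
          norm_num
        rw [h6, ← ENNReal.ofReal_mul (by positivity)]
        refine ENNReal.ofReal_le_ofReal ?_
        simp only [ht]
        rw [Real.div_rpow hT0.le (by positivity), div_eq_mul_one_div]
        have h7 : (2 : ℝ) ^ j ≤ ((2 : ℝ) ^ j) ^ p := by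
          have h8 : (1 : ℝ) ≤ 2 ^ j := one_le_pow₀ one_le_two
          calc (2 : ℝ) ^ j = ((2 : ℝ) ^ j) ^ (1 : ℝ) := (Real.rpow_one _).symm
            _ ≤ _ := Real.rpow_le_rpow_of_exponent_le h8 hp1
        gcongr
      calc b j = ENNReal.ofReal (t j ^ p) * a j := rfl
        _ ≤ ENNReal.ofReal (T ^ p) * 2⁻¹ ^ j * vol g (tsupport u) := by gcongr
        _ = _ := by ring
    refine ne_top_of_le_ne_top ?_ (ENNReal.tsum_le_tsum h3)
    rw [ENNReal.tsum_mul_left, ENNReal.tsum_geometric]
    refine ENNReal.mul_ne_top (ENNReal.mul_ne_top ENNReal.ofReal_ne_top hKfin) ?_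
    rw [ENNReal.one_sub_inv_two, inv_inv]
    simp
  have h3 := sum_lemma hσ0 hσ1 b (fun j => E j / L) h2 h1
  -- the mass
  have h4 : ∫⁻ q, ENNReal.ofReal (|u q| ^ p) ∂vol g ≤ 64 * ∑' j, b j := by
    calc ∫⁻ q, ENNReal.ofReal (|u q| ^ p) ∂vol g
        ≤ ∫⁻ q, 64 * ∑' j, {q | t j < |u q|}.indicator (fun _ => ENNReal.ofReal (t j ^ p)) q ∂vol g := by
          refine lintegral_mono fun q => ?_
          refine (ptA (abs_nonneg _) (huT q) hp0 hp6).trans (le_of_eq ?_)
          congr 1
          refine tsum_congr fun j => ?_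
          by_cases hq : t j < |u q|
          · rw [indicator_of_mem (show q ∈ {q | t j < |u q|} from hq), if_pos hq, mul_one]
          · rw [indicator_of_notMem (show q ∉ {q | t j < |u q|} from hq), if_neg hq, mul_zero]
      _ = 64 * ∑' j, b j := by
          rw [lintegral_const_mul' _ _ (by simp), lintegral_tsum fun j =>
            (measurable_const.indicator (hmS j)).aemeasurable]
          congr 1
          refine tsum_congr fun j => ?_
          rw [lintegral_indicator (hmS j), setLIntegral_const]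
  -- the energy
  set W : M → ℝ := fun q => gn g u q ^ 2 + V q * u q ^ 2 with hWd
  have hEm : ∀ τ, Measurable fun q => ENNReal.ofReal (Ene g u V τ q) := by
    intro τ
    refine ENNReal.measurable_ofReal.comp ?_
    unfold Ene
    refine Measurable.add ?_ ?_
    · exact ((gcont.measurable.div_const τ).pow_const 2).indicator
        ((measurableSet_lt measurable_const ucont.abs.measurable).inter
          (measurableSet_le ucont.abs.measurable measurable_const))
    · exact hV.measurable.indicator (measurableSet_lt measurable_const ucont.abs.measurable)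
  have h5 : ∑' j, E j ≤ ∫⁻ q, ENNReal.ofReal (8 * W q) ∂vol g := by
    have h6 : ∀ j, E j = ∫⁻ q, ENNReal.ofReal (trm T |u q| (gn g u q ^ 2) (V q)
        0 j) ∂vol g := by
      intro j
      have h7 : ∀ q, ENNReal.ofReal (trm T |u q| (gn g u q ^ 2) (V q) 0 j) =
          ENNReal.ofReal (t j ^ 2) * ENNReal.ofReal (Ene g u V (t j) q) := by
        intro q
        have h9 : Ene g u V (t j) q = (if t j / 2 < |u q| ∧ |u q| ≤ t j then
            gn g u q ^ 2 / t j ^ 2 else 0) + (if t j / 2 < |u q| then V q else 0) := by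
          unfold Ene
          simp only [indicator_apply, mem_ofPred_eq, div_pow]
        have h10 : 0 ≤ Ene g u V (t j) q := by
          unfold Ene
          exact add_nonneg (indicator_nonneg (fun q _ => sq_nonneg _) q)
            (indicator_nonneg (fun q _ => hV0 q) q)
        rw [← ENNReal.ofReal_mul (by positivity), h9]
        unfold trm
        simp only [ite_self, add_zero]
        rfl
      simp only [h7]
      rw [lintegral_const_mul' _ _ ENNReal.ofReal_ne_top]
    have h6' : ∑' j, E j = ∫⁻ q, ∑' j, ENNReal.ofReal (trm T |u q| (gn g u q ^ 2) (V q)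
        0 j) ∂vol g := by
      rw [lintegral_tsum]
      · exact tsum_congr h6
      · intro j
        refine (ENNReal.measurable_ofReal.comp ?_).aemeasurable
        unfold trm
        have m1 : MeasurableSet {q | T / 2 ^ j / 2 < |u q|} :=
          measurableSet_lt measurable_const ucont.abs.measurable
        have m2 : MeasurableSet {q | |u q| ≤ T / 2 ^ j} :=
          measurableSet_le ucont.abs.measurable measurable_const
        exact (((Measurable.ite (m1.inter m2) ((gcont.measurable.pow_const 2).div_const _)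
          measurable_const).add (Measurable.ite m1 hV.measurable measurable_const)).add
            (Measurable.ite (hmS j) measurable_const measurable_const)).const_mul _
    rw [h6']
    refine lintegral_mono fun q => ?_
    refine (ptB (abs_nonneg _) (huT q) hT0 (sq_nonneg _) (hV0 q) le_rfl).trans
      (le_of_eq ?_)
    simp only [hWd, sq_abs, add_zero]
  -- the end
  have hWc : Continuous W := (gcont.pow 2).add (hV.mul (ucont.pow 2))
  have hW0 : ∀ q, 0 ≤ W q := fun q => by
    have := hV0 q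
    positivity
  have hgo : ∀ q, q ∉ tsupport u → gn g u q = 0 := fun q hq => gn_zero' hq
  have hWi : Integrable W (vol g) := hWc.integrable_of_hasCompactSupport
    (HasCompactSupport.intro huc.isCompact fun q hq => by
      simp only [hWd, hgo q hq, image_eq_zero_of_notMem_tsupport hq]
      ring)
  have hPi : Integrable (fun q => |u q| ^ p) (vol g) := by
    refine (ucont.abs.rpow_const fun q => Or.inr hp0.le).integrable_of_hasCompactSupport
      (HasCompactSupport.intro huc.isCompact fun q hq => ?_)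
    rw [image_eq_zero_of_notMem_tsupport hq, abs_zero, Real.zero_rpow hp0.ne']
  have h6 : L * (∫⁻ q, ENNReal.ofReal (|u q| ^ p) ∂vol g) ^ σ ≤
      1024 * ∫⁻ q, ENNReal.ofReal (W q) ∂vol g := by
    calc L * (∫⁻ q, ENNReal.ofReal (|u q| ^ p) ∂vol g) ^ σ ≤ L * (64 * ∑' j, b j) ^ σ := by gcongr
      _ = L * (64 ^ σ * (∑' j, b j) ^ σ) := by rw [ENNReal.mul_rpow_of_nonneg _ _ hσ0.le]
      _ ≤ L * (64 ^ (1 : ℝ) * (2 * ∑' j, E j / L)) := by
          gcongr
          norm_num
      _ = L * (64 * (2 * (L⁻¹ * ∑' j, E j))) := by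
          rw [ENNReal.rpow_one]
          simp only [ENNReal.div_eq_inv_mul]
          rw [ENNReal.tsum_mul_left]
      _ = 128 * (L * L⁻¹ * ∑' j, E j) := by ring
      _ = 128 * ∑' j, E j := by rw [ENNReal.mul_inv_cancel hL0 hLt, one_mul]
      _ ≤ 128 * ∫⁻ q, ENNReal.ofReal (8 * W q) ∂vol g := by gcongr
      _ = 128 * (8 * ∫⁻ q, ENNReal.ofReal (W q) ∂vol g) := by
          congr 1
          rw [← lintegral_const_mul' _ _ (by simp)]
          refine lintegral_congr fun q => ?_
          rw [ENNReal.ofReal_mul (by norm_num)]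
          norm_num
      _ = _ := by ring
  have hI0 : 0 ≤ ∫ q, |u q| ^ p ∂vol g := integral_nonneg fun q => by positivity
  rw [← ofReal_integral_eq_lintegral_ofReal hPi (ae_of_all _ fun q => by positivity),
    ← ofReal_integral_eq_lintegral_ofReal hWi (ae_of_all _ hW0),
    ENNReal.ofReal_rpow_of_nonneg hI0 hσ0.le, hL, ← ENNReal.ofReal_mul (by positivity),
    show (1024 : ℝ≥0∞) = ENNReal.ofReal 1024 by norm_num, ← ENNReal.ofReal_mul (by norm_num),
    ENNReal.ofReal_le_ofReal_iff (mul_nonneg (by norm_num) (integral_nonneg hW0))] at h6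
  have h7 : ∫ q, (ip g u u q +
      V q * u q ^ 2) ∂vol g = ∫ q, W q ∂vol g := by
    refine integral_congr_ae (ae_of_all _ fun q => ?_)
    simp only [hWd, hg.gn_sq]
  rw [h7]
  calc c₁ / 1024 * (∫ q, |u q| ^ p ∂vol g) ^ σ
      = (c₁ * (∫ q, |u q| ^ p ∂vol g) ^ σ) / 1024 := by ring
    _ ≤ _ := by
      rw [div_le_iff₀ (by norm_num)]
      linarith

/-- the pointwise bound -/
theorem wt_le {n : ℕ} {M : Type} [Mf0 n M] {ι : Type} [Fintype ι] {g : Fld n M}
    {F : ι → M → ℝ} {u : M → ℝ} (hu : Smooth u) {B : ℝ}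
    (hB : ∀ x, |deriv Real.smoothTransition x| ≤ B) {τ lam : ℝ} (hτ : 0 < τ) (hlam : 0 < lam)
    (q : M) : wt g F (fun q => lev (τ / 2) (τ / 2) (u q)) q ≤
      {q | τ / 2 < |u q|}.indicator (fun _ => lam / 2) q +
        (8 * B ^ 2 + 2) / (2 * lam) * Ene g u (hsq g F) τ q := by
  have hB0 : 0 ≤ B := (abs_nonneg _).trans (hB 0)
  have hτ2 : 0 < τ / 2 := by positivity
  have hg0 := gn_nonneg g u q
  have hH := hsq_nonneg (g := g) (F := F) q
  have h4 : HasDerivAt (lev (τ / 2) (τ / 2)) (deriv (lev (τ / 2) (τ / 2)) (u q))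
      (u q) := ((lev_smooth hτ2 hτ2).differentiable (by simp) _).hasDerivAt
  have h5 : gn g (fun q => lev (τ / 2) (τ / 2) (u q)) q =
      |deriv (lev (τ / 2) (τ / 2)) (u q)| * gn g u q := gn_comp h4 (hu.diff q)
  obtain ⟨h6, h7⟩ := lev_deriv hτ2 hτ2 hB (u q)
  have hee : τ / 2 + τ / 2 = τ := by ring
  rw [hee] at h7
  have hl1 := lev_le (τ / 2) (τ / 2) (u q)
  have hl0 := lev_nonneg (τ / 2) (τ / 2) (u q)
  unfold wt Ene
  rw [h5]
  by_cases hq : τ / 2 < |u q|
  · rw [indicator_of_mem (show q ∈ {q | τ / 2 < |u q|} from hq),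
      indicator_of_mem (show q ∈ {q | τ / 2 < |u q|} from hq)]
    set z : ℝ := if |u q| ≤ τ then gn g u q / τ else 0 with hz
    have hz0 : 0 ≤ z := by
      rw [hz]
      split_ifs
      · positivity
      · exact le_rfl
    have h8 : {q | τ / 2 < |u q| ∧ |u q| ≤ τ}.indicator (fun q => (gn g u q / τ) ^ 2) q =
        z ^ 2 := by
      by_cases h : |u q| ≤ τ
      · rw [indicator_of_mem (show q ∈ {q | τ / 2 < |u q| ∧ |u q| ≤ τ} from ⟨hq, h⟩), hz,
          if_pos h]
      · rw [indicator_of_notMem (show q ∉ {q | τ / 2 < |u q| ∧ |u q| ≤ τ} from fun h' => h h'.2),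
          hz, if_neg h]
        ring
    have h9 : |deriv (lev (τ / 2) (τ / 2)) (u q)| * gn g u q ≤ 2 * B * z := by
      by_cases h : |u q| ≤ τ
      · rw [hz, if_pos h]
        calc |deriv (lev (τ / 2) (τ / 2)) (u q)| * gn g u q ≤
            B / (τ / 2) * gn g u q := by gcongr
          _ = _ := by field_simp
      · rw [h7 fun h' => h h'.2, abs_zero, zero_mul]
        positivity
    have h10 : lev (τ / 2) (τ / 2) (u q) * √(hsq g F q) ≤ √(hsq g F q) :=
      mul_le_of_le_one_left (Real.sqrt_nonneg _) hl1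
    rw [h8]
    set w := √(hsq g F q) with hw
    have hw2 : w ^ 2 = hsq g F q := Real.sq_sqrt hH
    rw [← hw2]
    have hw0 : 0 ≤ w := Real.sqrt_nonneg _
    have h11 : (2 * B * z + w) ^ 2 ≤ (8 * B ^ 2 + 2) * (z ^ 2 + w ^ 2) := by
      have := sq_nonneg (2 * B * z - w)
      have := mul_nonneg (sq_nonneg B) (sq_nonneg w)
      nlinarith [sq_nonneg z]
    have h12 : 2 * B * z + w ≤ lam / 2 + (2 * B * z + w) ^ 2 / (2 * lam) := by
      have e : lam / 2 + (2 * B * z + w) ^ 2 / (2 * lam) - (2 * B * z + w) =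
          (lam - (2 * B * z + w)) ^ 2 / (2 * lam) := by
        field_simp
        ring
      have : 0 ≤ (lam - (2 * B * z + w)) ^ 2 / (2 * lam) := by positivity
      linarith
    have h13 : (2 * B * z + w) ^ 2 / (2 * lam) ≤
        (8 * B ^ 2 + 2) / (2 * lam) * (z ^ 2 + w ^ 2) := by
      rw [div_mul_eq_mul_div]
      gcongr
    linarith
  · have h8 : (fun q => lev (τ / 2) (τ / 2) (u q)) q = 0 :=
      lev_zero hτ2 (not_lt.1 hq)
    rw [h7 fun h => hq h.1, h8, indicator_of_notMem (show q ∉ {q | τ / 2 < |u q|} from hq),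
      indicator_of_notMem (show q ∉ {q | τ / 2 < |u q|} from hq),
      indicator_of_notMem (show q ∉ {q | τ / 2 < |u q| ∧ |u q| ≤ τ} from fun h => hq h.1)]
    simp

/-- one level -/
theorem weakI (n : ℕ) (hn : 3 ≤ n) : ∃ c₁ : ℝ, 0 < c₁ ∧ ∀ (M : Type) [Mf0 n M] (ι : Type)
    [Fintype ι] (g : Fld n M) (F : ι → M → ℝ) (u : M → ℝ), Met g →
    (∀ k, Smooth (F k)) → Smooth u → HasCompactSupport u →
    (∀ q ∈ tsupport u, Iso g F q) → ∀ τ : ℝ, 0 < τ →
    vol g {q | τ / 2 < |u q|} ≤ ENNReal.ofReal 128 * vol g {q | τ < |u q|} →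
    ENNReal.ofReal c₁ * vol g {q | τ < |u q|} ^ (((n : ℝ) - 2) / n) ≤
      ∫⁻ q, ENNReal.ofReal (Ene g u (hsq g F) τ q) ∂vol g := by
  obtain ⟨B, hB0, hB⟩ := exists_bound
  obtain ⟨c', hc', hden⟩ := den n
  set C : ℝ := 8 * B ^ 2 + 2 with hC
  have hC0 : 0 < C := by positivity
  set K : ℝ := 2 ^ (n + 3) * 128 / c' with hK
  have hK0 : 0 < K := by positivity
  set D : ℝ := 512 * 100 ^ n * C with hD
  have hD0 : 0 < D := by positivity
  refine ⟨1 / (D * K ^ (2 / (n : ℝ))), by positivity, ?_⟩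
  intro M _ ι _ g F u hg hF hu huc hi τ hτ hM
  have hn3 : (3 : ℝ) ≤ n := by exact_mod_cast hn
  have hn0 : (0 : ℝ) < n := by linarith
  have hσ : 0 < ((n : ℝ) - 2) / n := div_pos (by linarith) (by linarith)
  have hlf := hg.locFin
  have ucont := Smooth.cont hu
  set a := vol g {q | τ < |u q|} with ha
  set E := ∫⁻ q, ENNReal.ofReal (Ene g u (hsq g F) τ q) ∂vol g with hE
  rcases eq_or_ne a 0 with ha0 | ha0
  · rw [ha0, ENNReal.zero_rpow_of_pos hσ, mul_zero]
    exact zero_le
  rcases eq_or_ne E ⊤ with hEt | hEt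
  · rw [hEt]; exact le_top
  have hsub : ∀ t : ℝ, 0 ≤ t → {q | t < |u q|} ⊆ tsupport u := fun t ht q hq =>
    subset_tsupport u (by
      intro h
      have h5 : t < |u q| := hq
      rw [h, abs_zero] at h5
      linarith)
  have hKfin : vol g (tsupport u) ≠ ⊤ := (huc : IsCompact (tsupport u)).measure_lt_top.ne
  have hat : a ≠ ⊤ := ne_top_of_le_ne_top hKfin (measure_mono (hsub τ hτ.le))
  set A := a.toReal with hA
  have hA0 : 0 < A := ENNReal.toReal_pos ha0 hat
  have haA : a = ENNReal.ofReal A := (ENNReal.ofReal_toReal hat).symm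
  set R := E.toReal with hR
  have hR0 : 0 ≤ R := ENNReal.toReal_nonneg
  have hER : E = ENNReal.ofReal R := (ENNReal.ofReal_toReal hEt).symm
  have hτ2 : 0 < τ / 2 := by positivity
  set h : M → ℝ := fun q => lev (τ / 2) (τ / 2) (u q) with hh
  have hhs : Smooth h := (lev_smooth hτ2 hτ2).compM hu
  have h0 : ∀ q, 0 ≤ h q := fun q => lev_nonneg _ _ _
  have hle : ∀ q, h q ≤ 1 := fun q => lev_le _ _ _
  have hz : ∀ q, ¬ τ / 2 < |u q| → h q = 0 := fun q hq => lev_zero hτ2 (not_lt.1 hq)
  have hts : tsupport h ⊆ tsupport u := closure_minimal (fun q hq => hsub (τ / 2) hτ2.le (by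
    by_contra h'
    exact hq (hz q h'))) (isClosed_tsupport u)
  have hhc : HasCompactSupport h := (huc : IsCompact (tsupport u)).of_isClosed_subset
    (isClosed_tsupport _) hts
  have hhi : ∀ q ∈ tsupport h, Iso g F q := fun q hq => hi q (hts hq)
  have hmS : MeasurableSet {q | τ / 2 < |u q|} :=
    measurableSet_lt measurable_const ucont.abs.measurable
  -- the mass of `h`
  have hm1 : ENNReal.ofReal (∫ q, h q ∂vol g) ≤ ENNReal.ofReal (128 * A) := by
    rw [ofReal_integral_eq_lintegral_ofReal (int_h hg hhs hhc) (ae_of_all _ h0)]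
    calc ∫⁻ q, ENNReal.ofReal (h q) ∂vol g ≤
        ∫⁻ q, {q | τ / 2 < |u q|}.indicator (fun _ => 1) q ∂vol g := by
          refine lintegral_mono fun q => ?_
          by_cases hq : τ / 2 < |u q|
          · rw [indicator_of_mem (show q ∈ {q | τ / 2 < |u q|} from hq), ← ENNReal.ofReal_one]
            exact ENNReal.ofReal_le_ofReal (hle q)
          · rw [indicator_of_notMem (show q ∉ {q | τ / 2 < |u q|} from hq), hz q hq,
              ENNReal.ofReal_zero]
      _ = vol g {q | τ / 2 < |u q|} := by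
          rw [lintegral_indicator hmS, setLIntegral_const, one_mul]
      _ ≤ ENNReal.ofReal 128 * a := hM
      _ = _ := by rw [haA, ← ENNReal.ofReal_mul (by norm_num)]
  have hm2 : ∫ q, h q ∂vol g ≤ 128 * A := (ENNReal.ofReal_le_ofReal_iff (by positivity)).1 hm1
  set ρ₀ : ℝ := (K * A) ^ (1 / (n : ℝ)) with hρ₀
  have hρ₀0 : 0 < ρ₀ := Real.rpow_pos_of_pos (by positivity) _
  have hρn : ρ₀ ^ n = K * A := by
    rw [hρ₀, ← Real.rpow_natCast, ← Real.rpow_mul (by positivity), one_div,
      inv_mul_cancel₀ hn0.ne', Real.rpow_one]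
  have hm : 2 ^ (n + 2) * ∫ q, h q ∂vol g < c' * ρ₀ ^ n := by
    rw [hρn, hK]
    have e : c' * (2 ^ (n + 3) * 128 / c' * A) = 2 * (2 ^ (n + 2) * (128 * A)) := by
      field_simp
      ring
    rw [e]
    have h1 : 2 ^ (n + 2) * ∫ q, h q ∂vol g ≤ 2 ^ (n + 2) * (128 * A) := by gcongr
    have h2 : 0 < 2 ^ (n + 2) * (128 * A) := by positivity
    linarith
  have hcov := cover hg hF hhs hhc h0 hhi (c' := c')
    (fun q₀ hq₀ => hden M ι g F q₀ hg hF (hhi q₀ hq₀)) hρ₀0 hm
  have hsub1 : a ≤ vol g {q | 1 ≤ h q} := measure_mono fun q hq => by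
    have h1 : τ < |u q| := hq
    have h2 : h q = 1 := lev_one hτ2 (by linarith)
    change 1 ≤ h q
    rw [h2]
  set lam : ℝ := 1 / (256 * 10 ^ n * ρ₀) with hlam
  have hlam0 : 0 < lam := by positivity
  have hEn0 : ∀ q, 0 ≤ Ene g u (hsq g F) τ q := fun q => by
    unfold Ene
    exact add_nonneg (indicator_nonneg (fun q _ => sq_nonneg _) q)
      (indicator_nonneg (fun q _ => hsq_nonneg q) q)
  have hwt : ∫⁻ q, ENNReal.ofReal (wt g F h q) ∂vol g ≤
      ENNReal.ofReal (lam / 2 * (128 * A) + C / (2 * lam) * R) := by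
    calc ∫⁻ q, ENNReal.ofReal (wt g F h q) ∂vol g
        ≤ ∫⁻ q, ({q | τ / 2 < |u q|}.indicator (fun _ => ENNReal.ofReal (lam / 2)) q +
          ENNReal.ofReal (C / (2 * lam)) *
            ENNReal.ofReal (Ene g u (hsq g F) τ q)) ∂vol g := by
          refine lintegral_mono fun q => ?_
          refine (ENNReal.ofReal_le_ofReal (wt_le hu hB hτ hlam0 q)).trans
            (le_of_eq ?_)
          rw [ENNReal.ofReal_add (indicator_nonneg (fun _ _ => by positivity) _)
            (mul_nonneg (by positivity) (hEn0 q)), ENNReal.ofReal_mul (by positivity)]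
          congr 1
          by_cases hq : τ / 2 < |u q|
          · rw [indicator_of_mem (show q ∈ {q | τ / 2 < |u q|} from hq),
              indicator_of_mem (show q ∈ {q | τ / 2 < |u q|} from hq)]
          · rw [indicator_of_notMem (show q ∉ {q | τ / 2 < |u q|} from hq),
              indicator_of_notMem (show q ∉ {q | τ / 2 < |u q|} from hq), ENNReal.ofReal_zero]
      _ = ENNReal.ofReal (lam / 2) * vol g {q | τ / 2 < |u q|} + ENNReal.ofReal (C / (2 * lam)) * E := by
          rw [lintegral_add_left (measurable_const.indicator hmS), lintegral_indicator hmS,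
            setLIntegral_const, lintegral_const_mul' _ _ ENNReal.ofReal_ne_top]
      _ ≤ ENNReal.ofReal (lam / 2) * (ENNReal.ofReal 128 * a) +
          ENNReal.ofReal (C / (2 * lam)) * E := by gcongr
      _ = _ := by
          rw [haA, hER, ← ENNReal.ofReal_mul (by norm_num), ← ENNReal.ofReal_mul (by positivity),
            ← ENNReal.ofReal_mul (by positivity), ← ENNReal.ofReal_add (by positivity)
              (by positivity)]
  have h1 : A ≤ 2 * 10 ^ n * ρ₀ * (lam / 2 * (128 * A) + C / (2 * lam) * R) := by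
    have h2 : a ≤ ENNReal.ofReal (2 * 10 ^ n * ρ₀) *
        ENNReal.ofReal (lam / 2 * (128 * A) + C / (2 * lam) * R) := by
      refine (hsub1.trans hcov).trans ?_
      gcongr
    rw [haA, ← ENNReal.ofReal_mul (by positivity)] at h2
    exact (ENNReal.ofReal_le_ofReal_iff (by positivity)).1 h2
  have h2 : A ≤ D * ρ₀ ^ 2 * R := by
    have e : 2 * 10 ^ n * ρ₀ * (lam / 2 * (128 * A) + C / (2 * lam) * R) =
        A / 2 + D / 2 * ρ₀ ^ 2 * R := by
      rw [hlam, hD]
      have e1 : (100 : ℝ) ^ n = 10 ^ n * 10 ^ n := by rw [← mul_pow]; norm_num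
      rw [e1]
      field_simp
      ring
    rw [e] at h1
    linarith
  have h3 : ρ₀ ^ 2 = K ^ (2 / (n : ℝ)) * A ^ (2 / (n : ℝ)) := by
    rw [hρ₀, ← Real.rpow_natCast, ← Real.rpow_mul (by positivity),
      ← Real.mul_rpow hK0.le hA0.le]
    congr 1
    push_cast
    ring
  have h4 : A = A ^ (2 / (n : ℝ)) * A ^ (((n : ℝ) - 2) / n) := by
    rw [← Real.rpow_add hA0]
    have : 2 / (n : ℝ) + ((n : ℝ) - 2) / n = 1 := by field_simp; ring
    rw [this, Real.rpow_one]
  have h5 : A ^ (((n : ℝ) - 2) / n) ≤ D * K ^ (2 / (n : ℝ)) * R := by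
    have h6 : 0 < A ^ (2 / (n : ℝ)) := Real.rpow_pos_of_pos hA0 _
    refine le_of_mul_le_mul_left ?_ h6
    rw [← h4]
    rw [h3] at h2
    linarith
  rw [haA, hER, ENNReal.ofReal_rpow_of_pos hA0, ← ENNReal.ofReal_mul (by positivity)]
  refine ENNReal.ofReal_le_ofReal ?_
  rw [div_mul_eq_mul_div, one_mul, div_le_iff₀ (by positivity)]
  linarith

/-- **the inequality of Michael and Simon** in the form of Sobolev -/
theorem ms {n : ℕ} (hn : 3 ≤ n) : ∃ y : ℝ, 0 < y ∧ ∀ (M : Type) [Mf0 n M] (ι : Type) [Fintype ι]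
    (g : Fld n M) (F : ι → M → ℝ) (u : M → ℝ), Met g → (∀ k, Smooth (F k)) → Smooth u →
    HasCompactSupport u → (∀ q ∈ tsupport u, Iso g F q) →
    y * (∫ q, |u q| ^ (2 * (n : ℝ) / (n - 2)) ∂vol g) ^ (((n : ℝ) - 2) / n) ≤
      ∫ q, (ip g u u q + hsq g F q * u q ^ 2) ∂vol g := by
  obtain ⟨c₁, hc₁, h⟩ := weakI n hn
  refine ⟨c₁ / 1024, by positivity, ?_⟩
  intro M _ ι _ g F u hg hF hu huc hi
  exact levels hn hc₁ hg (cont_hsq hg hF) (fun q => hsq_nonneg q) hu huc
    (h M ι g F u hg hF hu huc hi)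

end Vale.Agent.P223T
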