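import Vale.Agent.P223T.Pure
import Vale.Agent.P366M.Int
import Vale.Agent.P366M.Calc2
import Mathlib.Analysis.Calculus.ParametricIntegral

/-!
# P223T: isometric immersions into Euclidean space; first variation, monotonicity, growth
-/

open scoped ContDiff Topology Matrix ENNReal
open MeasureTheory Set Filter Vale.Agent.P366M

noncomputable section

namespace Vale.Agent.P223T

variable {n : ℕ} {M : Type} [Mf0 n M] {ι : Type} [Fintype ι] {g : Fld n M} {F : ι → M → ℝ}
  {u v w h : M → ℝ} {p : ι → ℝ}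

/-- the differential of `F` at `x` is isometric -/
def Iso (g : Fld n M) (F : ι → M → ℝ) (x : M) : Prop :=
  ∀ i j, ∑ k, pd i (F k) x * pd j (F k) x = g x i j

/-- the square of the length of the mean curvature vector `Δ F` -/
def hsq (g : Fld n M) (F : ι → M → ℝ) (x : M) : ℝ := ∑ k, lap g (F k) x ^ 2

/-- the square of the distance of `F q` and `p` -/
def dq (F : ι → M → ℝ) (p : ι → ℝ) (q : M) : ℝ := ∑ k, (F k q - p k) ^ 2

theorem sm_dq (hF : ∀ k, Smooth (F k)) (p : ι → ℝ) : Smooth (dq F p) :=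
  CD.sum fun k _ => CD.pow (CD.sub (hF k) cd_const) 2

omit [Mf0 n M] in
theorem dq_nonneg (F : ι → M → ℝ) (p : ι → ℝ) (q : M) : 0 ≤ dq F p q :=
  Finset.sum_nonneg fun _ _ => sq_nonneg _

theorem pd_dq (hF : ∀ k, Smooth (F k)) (p : ι → ℝ) (q : M) (i : Fin n) :
    pd i (dq F p) q = ∑ k, (2 * (F k q - p k)) * pd i (F k) q := by
  have h1 : ∀ k, DAt (fun x => F k x - p k) q := fun k => ((hF k).diff q).sub_const _
  unfold dq
  rw [pd_sum _ fun k _ => (h1 k).pow 2]
  refine Finset.sum_congr rfl fun k _ => ?_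
  rw [pd_pow (h1 k), pd_sub ((hF k).diff q) (dAt_const _), pd_const]
  simp

theorem ip_dq (hF : ∀ k, Smooth (F k)) (p : ι → ℝ) (q : M) :
    ip g u (dq F p) q = ∑ k, (2 * (F k q - p k)) * ip g u (F k) q := by
  unfold ip
  simp only [pd_dq hF p q, Finset.mul_sum]
  symm
  rw [Finset.sum_comm]
  refine Finset.sum_congr rfl fun i _ => ?_
  rw [Finset.sum_comm]
  exact Finset.sum_congr rfl fun j _ => Finset.sum_congr rfl fun k _ => by ring

theorem ip_self_dq (hg : Met g) (hF : ∀ k, Smooth (F k)) (p : ι → ℝ) {q : M} (hi : Iso g F q) :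
    ip g (dq F p) (dq F p) q ≤ 4 * dq F p q := by
  have h1 := iso_bessel (hg.pos q) (D := fun k i => pd i (F k) q) hi (fun k => 2 * (F k q - p k))
  unfold ip
  simp only [pd_dq hF p q]
  refine h1.trans (le_of_eq ?_)
  rw [dq, Finset.mul_sum]
  exact Finset.sum_congr rfl fun k _ => by ring

theorem ip_trace (hg : Met g) {q : M} (hi : Iso g F q) : ∑ k, ip g (F k) (F k) q = n :=
  iso_trace (hg.pos q) (D := fun k i => pd i (F k) q) hi

theorem gn_dq (hg : Met g) (hF : ∀ k, Smooth (F k)) (p : ι → ℝ) {q : M} (hi : Iso g F q) :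
    gn g (dq F p) q ≤ 2 * √(dq F p q) := by
  unfold gn
  refine Real.sqrt_le_iff.2 ⟨by positivity, ?_⟩
  rw [mul_pow, Real.sq_sqrt (dq_nonneg F p q)]
  linarith [ip_self_dq hg hF p hi]

theorem ip_zero {q : M} (hq : q ∉ tsupport u) {v : M → ℝ} : ip g u v q = 0 := by
  simp [ip, pd_zero_of_notMem hq]

/-- the trace of the second fundamental form paired with `F - p` -/
def hp (g : Fld n M) (F : ι → M → ℝ) (p : ι → ℝ) (q : M) : ℝ :=
  ∑ k, (F k q - p k) * lap g (F k) q

theorem abs_hp (F : ι → M → ℝ) (p : ι → ℝ) (q : M) :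
    |hp g F p q| ≤ √(dq F p q) * √(hsq g F q) := by
  unfold hp dq hsq
  have h := Finset.sum_mul_sq_le_sq_mul_sq Finset.univ (fun k => F k q - p k)
    (fun k => lap g (F k) q)
  rw [← Real.sqrt_mul (Finset.sum_nonneg fun _ _ => sq_nonneg _)]
  exact Real.abs_le_sqrt h

theorem cont_hp (hg : Met g) (hF : ∀ k, Smooth (F k)) (p : ι → ℝ) : Continuous (hp g F p) :=
  continuous_finsetSum _ fun k _ => ((hF k).cont.sub continuous_const).mul
    (hg.sm_lap (hF k)).cont

theorem cont_hsq (hg : Met g) (hF : ∀ k, Smooth (F k)) : Continuous (hsq g F) :=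
  continuous_finsetSum _ fun k _ => (hg.sm_lap (hF k)).cont.pow 2

theorem hsq_nonneg (q : M) : 0 ≤ hsq g F q := Finset.sum_nonneg fun _ _ => sq_nonneg _

/-- continuous functions which vanish outside the support are integrable -/
theorem int_of (hg : Met g) (hhc : HasCompactSupport h)
    {f : M → ℝ} (hf : Continuous f) (h0 : ∀ q, q ∉ tsupport h → f q = 0) : Integrable f (vol g) :=
  hg.integrable_supp hf (HasCompactSupport.intro' (K := tsupport h) hhc (isClosed_tsupport h) h0)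

theorem int_ip (hg : Met g) (hv : Smooth v) (hc : HasCompactSupport v) (hw : Smooth w) :
    Integrable (ip g v w) (vol g) :=
  int_of hg hc (hg.sm_ip hv hw).cont fun _ hq => ip_zero hq

theorem int_lap (hg : Met g) (hv : Smooth v) (hc : HasCompactSupport v) (hw : Smooth w) :
    Integrable (fun q => v q * lap g w q) (vol g) :=
  hg.integrable_supp (hv.cont.mul (hg.sm_lap hw).cont) hc.mul_right

theorem int_green (hg : Met g) (hv : Smooth v) (hc : HasCompactSupport v) (hw : Smooth w) :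
    Integrable (fun q => ip g v w q + v q * lap g w q) (vol g) :=
  (int_ip hg hv hc hw).add (int_lap hg hv hc hw)

theorem green (hg : Met g) (hv : Smooth v) (hc : HasCompactSupport v) (hw : Smooth w) :
    ∫ q, (ip g v w q + v q * lap g w q) ∂vol g = 0 := by
  rw [integral_add (int_ip hg hv hc hw) (int_lap hg hv hc hw), hg.ibp_lap' hv.llip hc hw.two]
  ring

/-- the first variation -/
theorem first_var (hg : Met g)
    (hF : ∀ k, Smooth (F k)) (p : ι → ℝ) {a : M → ℝ} (ha : Smooth a)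
    (hac : HasCompactSupport a) (hi : ∀ q ∈ tsupport a, Iso g F q) :
    ∫ q, (n * a q + 1 / 2 * ip g a (dq F p) q + a q * hp g F p q) ∂vol g = 0 := by
  have hs : ∀ k, Smooth fun q => a q * (F k q - p k) := fun k =>
    CD.mul ha (CD.sub (hF k) cd_const)
  have hcs : ∀ k, HasCompactSupport fun q => a q * (F k q - p k) := fun k => hac.mul_right
  have h1 : ∀ q, n * a q + 1 / 2 * ip g a (dq F p) q + a q * hp g F p q =
      ∑ k, (ip g (fun q => a q * (F k q - p k)) (F k) q +
        (a q * (F k q - p k)) * lap g (F k) q) := by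
    intro q
    have h2 : ∀ k, ip g (fun q => a q * (F k q - p k)) (F k) q =
        (F k q - p k) * ip g a (F k) q + a q * ip g (F k) (F k) q := fun k => by
      rw [ip_mul_left (ha.diff q) (((hF k).diff q).sub_const _), ip_comp_left (φ := fun s => s - p k)
        ((hasDerivAt_id' (F k q)).sub_const (p k)) ((hF k).diff q), one_mul]
    simp only [h2, Finset.sum_add_distrib]
    rw [ip_dq hF]
    by_cases hq : q ∈ tsupport a
    · rw [← Finset.mul_sum, ip_trace hg (hi q hq)]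
      unfold hp
      rw [Finset.mul_sum, Finset.mul_sum]
      have h3 : ∑ k, 1 / 2 * (2 * (F k q - p k) * ip g a (F k) q) =
          ∑ k, (F k q - p k) * ip g a (F k) q := Finset.sum_congr rfl fun k _ => by ring
      have h4 : ∑ k, a q * ((F k q - p k) * lap g (F k) q) =
          ∑ k, a q * (F k q - p k) * lap g (F k) q := Finset.sum_congr rfl fun k _ => by ring
      rw [h3, h4]
      ring
    · have h5 : a q = 0 := image_eq_zero_of_notMem_tsupport hq
      have h6 : ∀ k, ip g a (F k) q = 0 := fun k => ip_zero hq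
      simp [h5, h6]
  simp only [h1]
  rw [integral_finsetSum _ fun k _ => int_green hg (hs k) (hcs k) (hF k)]
  exact Finset.sum_eq_zero fun k _ => green hg (hs k) (hcs k) (hF k)

/-- the density of the right hand side -/
def wt (g : Fld n M) (F : ι → M → ℝ) (h : M → ℝ) (q : M) : ℝ := gn g h q + h q * √(hsq g F q)

theorem cont_wt (hg : Met g) (hF : ∀ k, Smooth (F k)) (hh : Smooth h) : Continuous (wt g F h) :=
  (hg.cont_gn hh.one).add (hh.cont.mul (cont_hsq hg hF).sqrt)

theorem wt_nonneg (h0 : ∀ q, 0 ≤ h q) (q : M) : 0 ≤ wt g F h q :=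
  add_nonneg (Real.sqrt_nonneg _) (mul_nonneg (h0 q) (Real.sqrt_nonneg _))

theorem gn_zero' {q : M} (hq : q ∉ tsupport h) : gn g h q = 0 := gn_zero (pd_zero_of_notMem hq)

theorem wt_zero {q : M} (hq : q ∉ tsupport h) : wt g F h q = 0 := by
  unfold wt
  rw [gn_zero' hq, image_eq_zero_of_notMem_tsupport hq]
  ring

/-- the differential inequality -/
theorem mono_ineq (hg : Met g)
    (hF : ∀ k, Smooth (F k)) (p : ι → ℝ) (hh : Smooth h) (hhc : HasCompactSupport h)
    (h0 : ∀ q, 0 ≤ h q) (hi : ∀ q ∈ tsupport h, Iso g F q) {ρ : ℝ} (hρ : 0 < ρ) :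
    n * ∫ q, h q * ze (dq F p q / ρ ^ 2) ∂vol g ≤
      (∫ q, h q * (-deriv ze (dq F p q / ρ ^ 2) * (2 * dq F p q / ρ ^ 2)) ∂vol g) +
        ρ * ∫ q, ze (dq F p q / ρ ^ 2) * wt g F h q ∂vol g := by
  have hρ2 : 0 < ρ ^ 2 := by positivity
  have hRs := sm_dq hF p
  have hRc := Smooth.cont hRs
  have hhc' := Smooth.cont hh
  set ψ : ℝ → ℝ := fun s => ze (s / ρ ^ 2) with hψ
  have hψs : ContDiff ℝ ∞ ψ := ze_contDiff.comp (contDiff_id.div_const _)
  have hψd : ∀ s, HasDerivAt ψ (deriv ze (s / ρ ^ 2) / ρ ^ 2) s := by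
    intro s
    have h1 : HasDerivAt (fun s : ℝ => s / ρ ^ 2) (1 / ρ ^ 2) s := (hasDerivAt_id s).div_const _
    have h2 := (ze_hasDeriv (s / ρ ^ 2)).comp s h1
    refine h2.congr_deriv ?_
    ring
  set a : M → ℝ := fun q => h q * ψ (dq F p q) with ha
  have has : Smooth a := CD.mul hh (hψs.compM hRs)
  have hac : HasCompactSupport a := hhc.mul_right
  have hat : tsupport a ⊆ tsupport h := tsupport_mul_subset_left
  have hfv := first_var hg hF p has hac fun q hq => hi q (hat hq)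
  have hgip : ∀ q, ip g a (dq F p) q = ψ (dq F p q) * ip g h (dq F p) q +
      h q * (deriv ze (dq F p q / ρ ^ 2) / ρ ^ 2 * ip g (dq F p) (dq F p) q) := by
    intro q
    rw [ha, ip_mul_left (hh.diff q) (Smooth.diff (hψs.compM hRs) q), ip_comp_left (hψd _) (hRs.diff q)]
  have ca : Continuous a := Smooth.cont has
  have i1 : Integrable (fun q => (n : ℝ) * a q) (vol g) :=
    int_of hg hhc (continuous_const.mul ca) fun q hq => by
      simp [ha, image_eq_zero_of_notMem_tsupport hq]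
  have i2 : Integrable (fun q => 1 / 2 * ip g a (dq F p) q) (vol g) :=
    int_of hg hhc (continuous_const.mul ((hg.sm_ip has hRs).cont)) fun q hq => by
      rw [ip_zero fun h' => hq (hat h')]; ring
  have i3 : Integrable (fun q => a q * hp g F p q) (vol g) :=
    int_of hg hhc (ca.mul (cont_hp hg hF p)) fun q hq => by
      simp [ha, image_eq_zero_of_notMem_tsupport hq]
  have i12 : Integrable (fun q => (n : ℝ) * a q + 1 / 2 * ip g a (dq F p) q) (vol g) := i1.add i2
  have i2n : Integrable (fun q => -(1 / 2 * ip g a (dq F p) q)) (vol g) := i2.neg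
  have e1 : n * ∫ q, h q * ze (dq F p q / ρ ^ 2) ∂vol g =
      ∫ q, (-(1 / 2 * ip g a (dq F p) q) - a q * hp g F p q) ∂vol g := by
    have h1 : ∫ q, (n * a q + 1 / 2 * ip g a (dq F p) q + a q * hp g F p q) ∂vol g =
        (∫ q, n * a q ∂vol g) + (∫ q, 1 / 2 * ip g a (dq F p) q ∂vol g) +
          ∫ q, a q * hp g F p q ∂vol g := by
      rw [integral_add i12 i3, integral_add i1 i2]
    rw [hfv] at h1
    rw [integral_sub i2n i3, integral_neg, ← integral_const_mul]
    have h2 : (∫ q, (n : ℝ) * (h q * ze (dq F p q / ρ ^ 2)) ∂vol g) = ∫ q, n * a q ∂vol g := rfl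
    rw [h2]
    linarith
  have cd : Continuous fun q => deriv ze (dq F p q / ρ ^ 2) := dze_cont.comp (hRc.div_const _)
  have cz : Continuous fun q => ze (dq F p q / ρ ^ 2) :=
    ze_contDiff.continuous.comp (hRc.div_const _)
  have j1 : Integrable (fun q => h q * (-deriv ze (dq F p q / ρ ^ 2) *
      (2 * dq F p q / ρ ^ 2))) (vol g) :=
    int_of hg hhc (hhc'.mul (cd.neg.mul ((continuous_const.mul hRc).div_const _)))
      fun q hq => by rw [image_eq_zero_of_notMem_tsupport hq]; ring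
  have j2 : Integrable (fun q => ρ * (ze (dq F p q / ρ ^ 2) * wt g F h q)) (vol g) :=
    int_of hg hhc (continuous_const.mul (cz.mul (cont_wt hg hF hh))) fun q hq => by
      rw [wt_zero hq]; ring
  rw [e1, ← integral_const_mul, ← integral_add j1 j2]
  refine integral_mono (i2n.sub i3) (j1.add j2) fun q => ?_
  change -(1 / 2 * ip g a (dq F p) q) - a q * hp g F p q ≤
    h q * (-deriv ze (dq F p q / ρ ^ 2) * (2 * dq F p q / ρ ^ 2)) +
      ρ * (ze (dq F p q / ρ ^ 2) * wt g F h q)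
  have hR0 := dq_nonneg F p q
  have hz0 := ze_nonneg (dq F p q / ρ ^ 2)
  by_cases hq : q ∈ tsupport h
  · have hψR : ψ (dq F p q) * √(dq F p q) ≤ ψ (dq F p q) * ρ := by
      rcases le_or_gt (dq F p q) (ρ ^ 2) with h1 | h1
      · refine mul_le_mul_of_nonneg_left ?_ hz0
        calc √(dq F p q) ≤ √(ρ ^ 2) := Real.sqrt_le_sqrt h1
          _ = ρ := Real.sqrt_sq hρ.le
      · have : ψ (dq F p q) = 0 := ze_zero (by
          rw [le_div_iff₀ hρ2]; linarith)
        rw [this]; simp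
    have b1 : -ip g h (dq F p) q ≤ gn g h q * (2 * √(dq F p q)) := by
      have h1 := (abs_le.1 (hg.abs_ip_le h (dq F p) q)).1
      have h2 := mul_le_mul_of_nonneg_left (gn_dq hg hF p (hi q hq))
        (gn_nonneg g h q)
      linarith
    have b2 := ip_self_dq hg hF p (hi q hq)
    have b3 : -hp g F p q ≤ √(dq F p q) * √(hsq g F q) := by
      have := (abs_le.1 (abs_hp (g := g) F p q)).1
      linarith
    have hd0 : 0 ≤ -deriv ze (dq F p q / ρ ^ 2) / ρ ^ 2 :=
      div_nonneg (by linarith [dze_nonpos (dq F p q / ρ ^ 2)]) hρ2.le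
    have t1 : 1 / 2 * (ψ (dq F p q) * -ip g h (dq F p) q) ≤
        ρ * (ψ (dq F p q) * gn g h q) := by
      calc 1 / 2 * (ψ (dq F p q) * -ip g h (dq F p) q)
          ≤ 1 / 2 * (ψ (dq F p q) * (gn g h q * (2 * √(dq F p q)))) := by gcongr
        _ = (ψ (dq F p q) * √(dq F p q)) * gn g h q := by ring
        _ ≤ (ψ (dq F p q) * ρ) * gn g h q :=
            mul_le_mul_of_nonneg_right hψR (gn_nonneg _ _ q)
        _ = _ := by ring
    have t2 : 1 / 2 * (h q * (-deriv ze (dq F p q / ρ ^ 2) / ρ ^ 2 *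
        ip g (dq F p) (dq F p) q)) ≤
        h q * (-deriv ze (dq F p q / ρ ^ 2) * (2 * dq F p q / ρ ^ 2)) := by
      calc 1 / 2 * (h q * (-deriv ze (dq F p q / ρ ^ 2) / ρ ^ 2 * ip g (dq F p) (dq F p) q))
          ≤ 1 / 2 * (h q * (-deriv ze (dq F p q / ρ ^ 2) / ρ ^ 2 * (4 * dq F p q))) := by
            have := h0 q
            gcongr
        _ = _ := by ring
    have t3 : a q * -hp g F p q ≤ ρ * (ψ (dq F p q) * (h q * √(hsq g F q))) := by
      calc a q * -hp g F p q = h q * (ψ (dq F p q) * -hp g F p q) := by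
            simp only [ha]; ring
        _ ≤ h q * (ψ (dq F p q) * (√(dq F p q) * √(hsq g F q))) := by
            have := h0 q
            gcongr
        _ = h q * ((ψ (dq F p q) * √(dq F p q)) * √(hsq g F q)) := by ring
        _ ≤ h q * ((ψ (dq F p q) * ρ) * √(hsq g F q)) :=
            mul_le_mul_of_nonneg_left (mul_le_mul_of_nonneg_right hψR (Real.sqrt_nonneg _)) (h0 q)
        _ = _ := by ring
    rw [hgip]
    have e2 : ze (dq F p q / ρ ^ 2) * wt g F h q =
        ψ (dq F p q) * gn g h q + ψ (dq F p q) * (h q * √(hsq g F q)) := by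
      unfold wt; simp only [hψ]; ring
    rw [e2]
    have e3 : -(1 / 2 * (ψ (dq F p q) * ip g h (dq F p) q +
        h q * (deriv ze (dq F p q / ρ ^ 2) / ρ ^ 2 * ip g (dq F p) (dq F p) q))) -
        a q * hp g F p q = 1 / 2 * (ψ (dq F p q) * -ip g h (dq F p) q) +
        1 / 2 * (h q * (-deriv ze (dq F p q / ρ ^ 2) / ρ ^ 2 * ip g (dq F p) (dq F p) q)) +
        a q * -hp g F p q := by ring
    rw [e3]
    linarith
  · have h1 : h q = 0 := image_eq_zero_of_notMem_tsupport hq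
    have h2 : a q = 0 := by simp [ha, h1]
    rw [ip_zero fun h' => hq (hat h'), h2, h1, wt_zero hq]
    simp

/-- the mass -/
def Ph (g : Fld n M) (F : ι → M → ℝ) (p : ι → ℝ) (h : M → ℝ) (ρ : ℝ) : ℝ :=
  ∫ q, h q * ze (dq F p q / ρ ^ 2) ∂vol g

/-- the right hand side -/
def Ps (g : Fld n M) (F : ι → M → ℝ) (p : ι → ℝ) (h : M → ℝ) (ρ : ℝ) : ℝ :=
  ∫ q, ze (dq F p q / ρ ^ 2) * wt g F h q ∂vol g

theorem int_h (hg : Met g) (hh : Smooth h)
    (hhc : HasCompactSupport h) : Integrable h (vol g) :=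
  int_of hg hhc (Smooth.cont hh) fun _ hq => image_eq_zero_of_notMem_tsupport hq

theorem int_hz (hg : Met g)
    (hF : ∀ k, Smooth (F k)) (hh : Smooth h) (hhc : HasCompactSupport h) (ρ : ℝ) :
    Integrable (fun q => h q * ze (dq F p q / ρ ^ 2)) (vol g) :=
  int_of hg hhc ((Smooth.cont hh).mul (ze_contDiff.continuous.comp
    ((Smooth.cont (sm_dq hF p)).div_const _))) fun q hq => by
      rw [image_eq_zero_of_notMem_tsupport hq, zero_mul]

theorem Ph_le (hg : Met g)
    (hF : ∀ k, Smooth (F k)) (hh : Smooth h) (hhc : HasCompactSupport h) (h0 : ∀ q, 0 ≤ h q)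
    (ρ : ℝ) : Ph g F p h ρ ≤ ∫ q, h q ∂vol g :=
  integral_mono (int_hz hg hF hh hhc ρ) (int_h hg hh hhc) fun q =>
    mul_le_of_le_one_right (h0 q) (ze_le_one _)

theorem Ph_nonneg (h0 : ∀ q, 0 ≤ h q) (ρ : ℝ) : 0 ≤ Ph g F p h ρ :=
  integral_nonneg fun q => mul_nonneg (h0 q) (ze_nonneg _)

theorem Ph_deriv (hg : Met g)
    (hF : ∀ k, Smooth (F k)) (hh : Smooth h) (hhc : HasCompactSupport h) (h0 : ∀ q, 0 ≤ h q)
    {ρ : ℝ} (hρ : 0 < ρ) : HasDerivAt (Ph g F p h)
      (ρ⁻¹ * ∫ q, h q * (-deriv ze (dq F p q / ρ ^ 2) * (2 * dq F p q / ρ ^ 2)) ∂vol g) ρ := by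
  obtain ⟨B, hB0, hB⟩ := dze_bound
  have hRc := Smooth.cont (sm_dq hF p)
  have hhc' := Smooth.cont hh
  have key := hasDerivAt_integral_of_dominated_loc_of_deriv_le (μ := vol g) (x₀ := ρ)
    (s := Metric.ball ρ (ρ / 2))
    (F := fun r q => h q * ze (dq F p q / r ^ 2))
    (F' := fun r q => h q * (-deriv ze (dq F p q / r ^ 2) * (2 * dq F p q / r ^ 2)) / r)
    (bound := fun q => h q * (4 * B / ρ)) (Metric.ball_mem_nhds _ (by positivity))
    (Eventually.of_forall fun r => (hhc'.mul (ze_contDiff.continuous.comp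
      (hRc.div_const _))).aestronglyMeasurable)
    (int_hz hg hF hh hhc ρ)
    ((hhc'.mul ((dze_cont.comp (hRc.div_const _)).neg.mul
      ((continuous_const.mul hRc).div_const _))).div_const _).aestronglyMeasurable
    (Eventually.of_forall fun q r hr => by
      have hr1 : ρ / 2 < r := by
        have := Metric.mem_ball.1 hr
        rw [Real.dist_eq] at this
        linarith [(abs_lt.1 this).1]
      have hr0 : 0 < r := by linarith
      have hR0 := dq_nonneg F p q
      have h1 := hB (dq F p q / r ^ 2) (by positivity)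
      rw [Real.norm_eq_abs, abs_div, abs_mul, abs_mul, abs_neg, abs_of_nonneg (h0 q),
        abs_of_nonneg (show 0 ≤ 2 * dq F p q / r ^ 2 by positivity), abs_of_pos hr0]
      calc h q * (|deriv ze (dq F p q / r ^ 2)| * (2 * dq F p q / r ^ 2)) / r
          = h q * (2 * (|deriv ze (dq F p q / r ^ 2)| * (dq F p q / r ^ 2)) / r) := by ring
        _ ≤ h q * (2 * B / (ρ / 2)) := by
            have := h0 q
            gcongr
        _ = h q * (4 * B / ρ) := by ring)
    ((int_h hg hh hhc).mul_const _)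
    (Eventually.of_forall fun q r hr => by
      have hr1 : ρ / 2 < r := by
        have := Metric.mem_ball.1 hr
        rw [Real.dist_eq] at this
        linarith [(abs_lt.1 this).1]
      have hr0 : 0 < r := by linarith
      have h1 : HasDerivAt (fun r : ℝ => dq F p q / r ^ 2) (-(2 * dq F p q / r ^ 2) / r) r := by
        have h2 : HasDerivAt (fun r : ℝ => r ^ 2) (2 * r) r := by
          simpa using hasDerivAt_pow 2 r
        have h3 := (hasDerivAt_const r (dq F p q)).div h2 (by positivity)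
        refine h3.congr_deriv ?_
        field_simp
        ring
      have h4 := ((ze_hasDeriv (dq F p q / r ^ 2)).comp r h1).const_mul (h q)
      refine h4.congr_deriv ?_
      ring)
  refine key.2.congr_deriv ?_
  rw [MeasureTheory.integral_div, div_eq_inv_mul]

/-- growth -/
theorem ode (hg : Met g)
    (hF : ∀ k, Smooth (F k)) (hh : Smooth h) (hhc : HasCompactSupport h)
    (h0 : ∀ q, 0 ≤ h q) (hi : ∀ q ∈ tsupport h, Iso g F q) {a b κ : ℝ} (ha : 0 < a)
    (hab : a ≤ b) (hκ : ∀ ρ, a ≤ ρ → ρ ≤ b → Ps g F p h ρ ≤ κ * ρ ^ n) :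
    Ph g F p h a / a ^ n ≤ Ph g F p h b / b ^ n + κ * (b - a) := by
  have hd : ∀ ρ, 0 < ρ → HasDerivAt (fun ρ => Ph g F p h ρ / ρ ^ n)
      (((ρ⁻¹ * ∫ q, h q * (-deriv ze (dq F p q / ρ ^ 2) * (2 * dq F p q / ρ ^ 2)) ∂vol g) * ρ ^ n -
        Ph g F p h ρ * (n * ρ ^ (n - 1))) / (ρ ^ n) ^ 2) ρ := fun ρ hρ =>
    (Ph_deriv hg hF hh hhc h0 hρ).div (hasDerivAt_pow n ρ) (by positivity)
  have h1 := Convex.mul_sub_le_image_sub_of_le_deriv (convex_Icc a b)
    (f := fun ρ => Ph g F p h ρ / ρ ^ n)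
    (fun ρ hρ => (hd ρ (ha.trans_le hρ.1)).continuousAt.continuousWithinAt)
    (fun ρ hρ => (hd ρ (ha.trans_le (interior_subset hρ).1)).differentiableAt.differentiableWithinAt)
    (C := -κ) (fun ρ hρ' => by
      have hρ := interior_subset hρ'
      have hρ0 : 0 < ρ := ha.trans_le hρ.1
      rw [(hd ρ hρ0).deriv]
      have h2 := mono_ineq hg hF p hh hhc h0 hi hρ0
      have h3 := hκ ρ hρ.1 hρ.2
      set I := ∫ q, h q * (-deriv ze (dq F p q / ρ ^ 2) * (2 * dq F p q / ρ ^ 2)) ∂vol g with hI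
      have h4 : n * Ph g F p h ρ ≤ I + ρ * Ps g F p h ρ := h2
      rw [le_div_iff₀ (by positivity)]
      rcases Nat.eq_zero_or_pos n with hn | hn
      · subst hn
        simp only [pow_zero, mul_one, Nat.cast_zero, zero_mul, mul_zero, sub_zero, one_pow]
        simp only [Nat.cast_zero, zero_mul, pow_zero, mul_one] at h4 h3
        rw [← div_eq_inv_mul, le_div_iff₀ hρ0]
        nlinarith
      · have e1 : ρ ^ n = ρ ^ (n - 1) * ρ := by
          rw [← pow_succ, Nat.sub_add_cancel hn]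
        have e2 : 0 < ρ ^ (n - 1) := by positivity
        have e3 : ρ⁻¹ * I * ρ ^ n = I * ρ ^ (n - 1) := by
          rw [e1]; field_simp
        rw [e3]
        have e4 : κ * (ρ ^ n) ^ 2 = (ρ * (κ * ρ ^ n)) * ρ ^ (n - 1) := by
          rw [e1]; ring
        have h5 : n * Ph g F p h ρ * ρ ^ (n - 1) ≤ (I + ρ * (κ * ρ ^ n)) * ρ ^ (n - 1) := by
          refine mul_le_mul_of_nonneg_right (h4.trans ?_) e2.le
          have := mul_le_mul_of_nonneg_left h3 hρ0.le
          linarith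
        have e5 : -κ * (ρ ^ n) ^ 2 = -(κ * (ρ ^ n) ^ 2) := by ring
        rw [e5, e4]
        linarith)
    a ⟨le_rfl, hab⟩ b ⟨hab, le_rfl⟩ hab
  linarith

/-- the growth lemma -/
theorem growth (hg : Met g)
    (hF : ∀ k, Smooth (F k)) (hh : Smooth h) (hhc : HasCompactSupport h)
    (h0 : ∀ q, 0 ≤ h q) (hi : ∀ q ∈ tsupport h, Iso g F q) {ρ₀ : ℝ} (hρ₀ : 0 < ρ₀)
    (H : ∀ ρ, 0 < ρ → ρ ≤ ρ₀ → Ps g F p h ρ ≤
      (2 * 10 ^ n * ρ₀)⁻¹ * Ph g F p h (10 * ρ)) {σ : ℝ} (hσ : 0 < σ) (hσρ : σ ≤ ρ₀) :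
    Ph g F p h σ / σ ^ n ≤ 2 * (∫ q, h q ∂vol g) / ρ₀ ^ n := by
  set m := ∫ q, h q ∂vol g with hm
  have hm0 : 0 ≤ m := integral_nonneg h0
  set f : ℝ → ℝ := fun ρ => Ph g F p h ρ / ρ ^ n with hf
  have hfc : ContinuousOn f (Icc σ ρ₀) := fun ρ hρ =>
    ((Ph_deriv hg hF hh hhc h0 (hσ.trans_le hρ.1)).continuousAt.div
      (continuousAt_pow ρ n) (pow_pos (hσ.trans_le hρ.1) n).ne').continuousWithinAt
  obtain ⟨τ, hτ, hmax⟩ := isCompact_Icc.exists_isMaxOn (nonempty_Icc.2 hσρ) hfc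
  set S := f τ with hS
  have hτ0 : 0 < τ := hσ.trans_le hτ.1
  set K := max S (m / ρ₀ ^ n) with hK
  have hK0 : 0 ≤ K := le_max_of_le_right (by positivity)
  have h1 : ∀ ρ, σ ≤ ρ → ρ ≤ ρ₀ → Ph g F p h (10 * ρ) ≤ K * (10 * ρ) ^ n := by
    intro ρ h2 h3
    have hρ0 : 0 < ρ := hσ.trans_le h2
    rcases le_total (10 * ρ) ρ₀ with h4 | h4
    · have h5 : f (10 * ρ) ≤ S := hmax ⟨by linarith, h4⟩
      rw [hf] at h5
      simp only at h5
      rw [div_le_iff₀ (by positivity)] at h5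
      exact h5.trans (mul_le_mul_of_nonneg_right (le_max_left _ _) (by positivity))
    · calc Ph g F p h (10 * ρ) ≤ m := Ph_le hg hF hh hhc h0 _
        _ = m / ρ₀ ^ n * ρ₀ ^ n := by field_simp
        _ ≤ K * (10 * ρ) ^ n := by
            gcongr
            exact le_max_right _ _
  have h2 : ∀ ρ, τ ≤ ρ → ρ ≤ ρ₀ → Ps g F p h ρ ≤ K / (2 * ρ₀) * ρ ^ n := by
    intro ρ h3 h4
    have hρ0 : 0 < ρ := hτ0.trans_le h3
    refine (H ρ hρ0 h4).trans ?_
    calc (2 * 10 ^ n * ρ₀)⁻¹ * Ph g F p h (10 * ρ)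
        ≤ (2 * 10 ^ n * ρ₀)⁻¹ * (K * (10 * ρ) ^ n) :=
          mul_le_mul_of_nonneg_left (h1 ρ (hτ.1.trans h3) h4) (by positivity)
      _ = K / (2 * ρ₀) * ρ ^ n := by
          rw [mul_pow]
          field_simp
  have h3 := ode hg hF hh hhc h0 hi hτ0 hτ.2 h2
  have h4 : Ph g F p h ρ₀ / ρ₀ ^ n ≤ m / ρ₀ ^ n := by
    gcongr
    exact Ph_le hg hF hh hhc h0 _
  have h5 : K / (2 * ρ₀) * (ρ₀ - τ) ≤ K / 2 := by
    calc K / (2 * ρ₀) * (ρ₀ - τ) ≤ K / (2 * ρ₀) * ρ₀ := by
          gcongr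
          linarith
      _ = K / 2 := by field_simp
  have h6 : S ≤ m / ρ₀ ^ n + K / 2 := by
    have : S = Ph g F p h τ / τ ^ n := rfl
    rw [this]
    linarith
  have h7 : f σ ≤ S := hmax ⟨le_rfl, hσρ⟩
  have h8 : 0 ≤ m / ρ₀ ^ n := by positivity
  have h9 : S ≤ 2 * m / ρ₀ ^ n := by
    have e : 2 * m / ρ₀ ^ n = 2 * (m / ρ₀ ^ n) := by ring
    rw [e]
    rcases le_total S (m / ρ₀ ^ n) with h10 | h10
    · linarith
    · rw [hK, max_eq_left h10] at h6
      linarith
  exact h7.trans h9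

end Vale.Agent.P223T
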