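import Vale.Agent.P223T.Ms1
import Mathlib.MeasureTheory.Covering.Vitali

/-!
# P223T: isometric immersions into Euclidean space; density and covering
-/

open scoped ContDiff Topology Matrix ENNReal
open MeasureTheory Set Filter Vale.Agent.P366M
open Vale.Agent.P366.Stmt (E)

noncomputable section

namespace Vale.Agent.P223T

variable {n : ℕ} {M : Type} [Mf0 n M] {ι : Type} [Fintype ι] {g : Fld n M} {F : ι → M → ℝ}
  {u v w h : M → ℝ} {p : ι → ℝ}

/-- a linear map which is isometric for the quadratic form `A` -/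
theorem exists_lin {A : Matrix (Fin n) (Fin n) ℝ} (hA : A.PosDef) :
    ∃ L : E n →ₗ[ℝ] E n, (∀ w : E n, ‖L w‖ ^ 2 = ∑ i, ∑ j, A i j * w i * w j) ∧
      LinearMap.det L = √A.det ∧ ∃ C : ℝ, 0 < C ∧ ∀ w, ‖w‖ ≤ C * ‖L w‖ := by
  obtain ⟨S, hS, hSS⟩ := P223.H850.exists_sqrt hA
  have hSt : ∀ i j, S i j = S j i := fun i j => by
    have := hS.isHermitian
    rw [Matrix.IsHermitian, Matrix.conjTranspose_eq_transpose_of_trivial] at this
    exact (congrFun (congrFun this j) i)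
  have hd : LinearMap.det (Matrix.toEuclideanLin S : E n →ₗ[ℝ] E n) = S.det := by
    rw [Matrix.toEuclideanLin_eq_toLin_orthonormal, LinearMap.det_toLin]
  refine ⟨Matrix.toEuclideanLin S, fun w => ?_, ?_, ?_⟩
  · rw [P366Z.norm_sq_eq]
    have e : ∀ k, (Matrix.toEuclideanLin S w) k = ∑ i, S k i * w i := fun k => rfl
    simp only [e, sq, Finset.sum_mul_sum]
    simp only [← hSS, Matrix.mul_apply, Finset.sum_mul]
    rw [Finset.sum_comm]
    refine Finset.sum_congr rfl fun i _ => ?_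
    rw [Finset.sum_comm]
    exact Finset.sum_congr rfl fun j _ => Finset.sum_congr rfl fun k _ => by rw [hSt i k]; ring
  · rw [hd, ← hSS, Matrix.det_mul, Real.sqrt_mul_self hS.det_pos.le]
  · have h0 : LinearMap.det (Matrix.toEuclideanLin S : E n →ₗ[ℝ] E n) ≠ 0 := by
      rw [hd]; exact hS.det_pos.ne'
    obtain ⟨K, hK, h⟩ := LinearMap.exists_antilipschitzWith (Matrix.toEuclideanLin S : E n →ₗ[ℝ] E n)
      (LinearMap.ker_eq_bot.2 (LinearMap.equivOfDetNeZero _ h0).injective)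
    exact ⟨K, hK, fun w => by simpa using h.le_mul_dist w 0⟩

/-- near a point -/
theorem dq_near (hF : ∀ k, Smooth (F k)) {x : M} (hi : Iso g F x) {L : E n →ₗ[ℝ] E n}
    (hL : ∀ w : E n, ‖L w‖ ^ 2 = ∑ i, ∑ j, g x i j * w i * w j) {C : ℝ} (hC : 0 < C)
    (hCL : ∀ w, ‖w‖ ≤ C * ‖L w‖) : ∀ᶠ w in 𝓝 (0 : E n),
      dq F (fun k => F k x) ((ch x).symm (pt x + w)) ≤ 4 * ‖L w‖ ^ 2 := by
  set N : ℝ := (Fintype.card ι : ℝ) with hN
  have hN0 : 0 ≤ N := Nat.cast_nonneg _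
  set ε : ℝ := √(1 / (N + 1)) / C with hε
  have hε0 : 0 < ε := div_pos (Real.sqrt_pos.2 (by positivity)) hC
  have hε2 : N * (ε * C) ^ 2 ≤ 1 := by
    rw [hε, div_mul_cancel₀ _ hC.ne', Real.sq_sqrt (by positivity), mul_one_div,
      div_le_one (by positivity)]
    linarith
  have h3 : ∀ k, ∀ᶠ w in 𝓝 (0 : E n), |F k ((ch x).symm (pt x + w)) - F k x -
      ∑ a, w a * pd a (F k) x| ≤ ε * ‖w‖ := by
    intro k
    have h4 := ((hF k).diff x).hasFDerivAt
    rw [hasFDerivAt_iff_isLittleO_nhds_zero] at h4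
    filter_upwards [h4.def hε0] with w hw
    rw [fderiv_eq_sum ((hF k).diff x), loc_pt] at hw
    exact hw
  filter_upwards [eventually_all.2 h3] with w hw3
  have h5 : ∑ k, (∑ a, w a * pd a (F k) x) ^ 2 = ‖L w‖ ^ 2 := by
    rw [hL]
    simp only [sq, Finset.sum_mul_sum]
    simp only [← hi _ _, Finset.sum_mul]
    rw [Finset.sum_comm]
    refine Finset.sum_congr rfl fun i _ => ?_
    rw [Finset.sum_comm]
    exact Finset.sum_congr rfl fun j _ => Finset.sum_congr rfl fun k _ => by ring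
  have h6 : ∀ k, (F k ((ch x).symm (pt x + w)) - F k x) ^ 2 ≤
      2 * (∑ a, w a * pd a (F k) x) ^ 2 + 2 * (ε * ‖w‖) ^ 2 := by
    intro k
    have h7 := sq_le_sq' (abs_le.1 (hw3 k)).1 (abs_le.1 (hw3 k)).2
    have h8 := sq_nonneg (F k ((ch x).symm (pt x + w)) - F k x - 2 * ∑ a, w a * pd a (F k) x)
    nlinarith
  have h7 : (ε * ‖w‖) ^ 2 ≤ (ε * C) ^ 2 * ‖L w‖ ^ 2 := by
    rw [← mul_pow, mul_assoc]
    have := hCL w
    gcongr
  calc dq F (fun k => F k x) ((ch x).symm (pt x + w))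
      ≤ ∑ k, (2 * (∑ a, w a * pd a (F k) x) ^ 2 + 2 * (ε * ‖w‖) ^ 2) :=
        Finset.sum_le_sum fun k _ => h6 k
    _ = 2 * ‖L w‖ ^ 2 + 2 * (N * (ε * ‖w‖) ^ 2) := by
        rw [Finset.sum_add_distrib, ← Finset.mul_sum, h5]
        simp [hN]
        ring
    _ ≤ 2 * ‖L w‖ ^ 2 + 2 * (N * ((ε * C) ^ 2 * ‖L w‖ ^ 2)) := by gcongr
    _ ≤ 4 * ‖L w‖ ^ 2 := by nlinarith [sq_nonneg ‖L w‖]

/-- the density at a point -/
theorem den (n : ℕ) : ∃ c' : ℝ, 0 < c' ∧ ∀ (M : Type) [Mf0 n M] (ι : Type) [Fintype ι]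
    (g : Fld n M) (F : ι → M → ℝ) (x : M), Met g → (∀ k, Smooth (F k)) → Iso g F x →
    ∀ Ω : Set M, IsOpen Ω → x ∈ Ω → ∀ η : ℝ, 0 < η → ∃ s, 0 < s ∧ s < η ∧
      ENNReal.ofReal (c' * s ^ n) ≤ vol g (Ω ∩ {q | dq F (fun k => F k x) q < s ^ 2}) := by
  have hb : volume (Metric.ball (0 : E n) 1) ≠ ⊤ := measure_ball_lt_top.ne
  set V := (volume (Metric.ball (0 : E n) 1)).toReal with hV
  have hV0 : 0 < V := ENNReal.toReal_pos (Metric.measure_ball_pos _ _ one_pos).ne' hb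
  refine ⟨V / 2 ^ (n + 1), by positivity, ?_⟩
  intro M _ ι _ g F x hg hF hi Ω hΩ hx η hη
  obtain ⟨L, hL, hd, C, hC, hCL⟩ := exists_lin (hg.pos x)
  set d := √(mat g x).det with hdd
  have hAd : 0 < d := Real.sqrt_pos.2 (hg.pos x).det_pos
  have hW := dq_near hF hi hL hC hCL
  have hadd : Tendsto (fun w : E n => pt x + w) (𝓝 0) (𝓝 (pt x)) :=
    (continuous_const.add continuous_id).tendsto' (0 : E n) (pt x) (by simp)
  have e1 : ∀ᶠ w in 𝓝 (0 : E n), (ch x).symm (pt x + w) ∈ Ω :=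
    ((tendsto_pt x).comp hadd).eventually_mem (hΩ.mem_nhds hx)
  have e2 : ∀ᶠ w in 𝓝 (0 : E n), d / 2 < P366Z.dens (rep (ch x) g) (pt x + w) := by
    have h1 := ((hg.loc' x).sm_dens.cont.tendsto (pt x)).comp hadd
    refine h1.eventually_const_lt ?_
    rw [P366Z.dens, mat_pt]
    linarith
  obtain ⟨δ, hδ, hδW⟩ := Metric.eventually_nhds_iff_ball.1 (hW.and (e1.and e2))
  obtain ⟨s, hs0, hs1⟩ : ∃ s, 0 < s ∧ s < min (δ / C) η := exists_between (by positivity)
  have hsδ : C * s < δ := by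
    have := hs1.trans_le (min_le_left _ _)
    rwa [lt_div_iff₀' hC] at this
  refine ⟨s, hs0, hs1.trans_le (min_le_right _ _), ?_⟩
  set B : Set (E n) := L ⁻¹' Metric.ball 0 (s / 2) with hBd
  have hB : ∀ w ∈ B, w ∈ Metric.ball (0 : E n) δ := fun w hw => by
    have h1 : ‖L w‖ < s / 2 := by simpa [hBd] using hw
    rw [mem_ball_zero_iff]
    have := mul_lt_mul_of_pos_left h1 hC
    nlinarith [hCL w]
  have hbm : MeasurableSet B :=
    (Metric.isOpen_ball.preimage L.continuous_of_finiteDimensional).measurableSet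
  set B' : Set (E n) := (fun y => y - pt x) ⁻¹' B with hB'
  have hb'm : MeasurableSet B' := (measurable_id.sub_const _) hbm
  have hB'mem : ∀ y ∈ B', y - pt x ∈ B := fun y hy => hy
  have h1 : (ch x).symm '' B' ⊆ Ω ∩ {q | dq F (fun k => F k x) q < s ^ 2} := by
    rintro _ ⟨y, hy, rfl⟩
    have hy' := hδW _ (hB _ (hB'mem y hy))
    have h2 := hy'.1
    have h3 := hy'.2.1
    rw [add_sub_cancel] at h2 h3
    refine ⟨h3, lt_of_le_of_lt h2 ?_⟩
    have h4 : ‖L (y - pt x)‖ < s / 2 := by simpa [hBd] using hB'mem y hy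
    nlinarith [norm_nonneg (L (y - pt x))]
  refine le_trans ?_ (measure_mono h1)
  rw [vol_image hg (ch_mem x) hb'm]
  have hvol : volume B' = volume B := by
    rw [hB']
    simp only [sub_eq_add_neg]
    exact measure_preimage_add_right volume (-pt x) B
  calc ENNReal.ofReal (V / 2 ^ (n + 1) * s ^ n)
      = ∫⁻ _ in B', ENNReal.ofReal (d / 2) := by
        rw [setLIntegral_const, hvol, hBd, Measure.addHaar_preimage_linearMap _ (by rw [hd]; exact hAd.ne'),
          Measure.addHaar_ball_of_pos _ _ (by positivity : 0 < s / 2), hd, finrank_euclideanSpace_fin,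
          ← ENNReal.ofReal_toReal hb, ← hV, abs_of_pos (inv_pos.2 hAd),
          ← ENNReal.ofReal_mul (by positivity), ← ENNReal.ofReal_mul (by positivity),
          ← ENNReal.ofReal_mul (by positivity)]
        congr 1
        rw [div_pow, pow_succ]
        field_simp
    _ ≤ ∫⁻ y in B', ENNReal.ofReal (P366Z.dens (rep (ch x) g) y) := by
        refine setLIntegral_mono' hb'm fun y hy => ENNReal.ofReal_le_ofReal ?_
        have := (hδW _ (hB _ (hB'mem y hy))).2.2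
        rw [add_sub_cancel] at this
        exact this.le

theorem int_wt (hg : Met g)
    (hF : ∀ k, Smooth (F k)) (hh : Smooth h) (hhc : HasCompactSupport h) :
    Integrable (wt g F h) (vol g) :=
  int_of hg hhc (cont_wt hg hF hh) fun _ hq => wt_zero hq

/-- a good radius -/
theorem lem2 (hg : Met g)
    (hF : ∀ k, Smooth (F k)) (hh : Smooth h) (hhc : HasCompactSupport h)
    (h0 : ∀ q, 0 ≤ h q) (hi : ∀ q ∈ tsupport h, Iso g F q) {q₀ : M} (hq₀ : 1 ≤ h q₀)
    {c' : ℝ} (hden : ∀ Ω : Set M, IsOpen Ω → q₀ ∈ Ω → ∀ η : ℝ, 0 < η → ∃ s, 0 < s ∧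
      s < η ∧ ENNReal.ofReal (c' * s ^ n) ≤ vol g (Ω ∩ {q | dq F (fun k => F k q₀) q < s ^ 2}))
    {ρ₀ : ℝ} (hρ₀ : 0 < ρ₀) (hm : 2 ^ (n + 2) * ∫ q, h q ∂vol g < c' * ρ₀ ^ n) :
    ∃ ρ, 0 < ρ ∧ ρ ≤ ρ₀ ∧ ∫ q in {q | dq F (fun k => F k q₀) q ≤ (5 * ρ) ^ 2}, h q ∂vol g ≤
      2 * 10 ^ n * ρ₀ * ∫ q in {q | dq F (fun k => F k q₀) q ≤ ρ ^ 2}, wt g F h q ∂vol g := by
  by_contra hcon
  push Not at hcon
  set p : ι → ℝ := fun k => F k q₀ with hp
  have hRc : Continuous (dq F p) := Smooth.cont (sm_dq hF p)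
  have hhc' := Smooth.cont hh
  have hmS : ∀ r : ℝ, MeasurableSet {q | dq F p q ≤ r} := fun r =>
    (isClosed_le hRc continuous_const).measurableSet
  have cz : ∀ ρ : ℝ, Continuous fun q => ze (dq F p q / ρ ^ 2) := fun ρ =>
    ze_contDiff.continuous.comp (hRc.div_const _)
  have H : ∀ ρ, 0 < ρ → ρ ≤ ρ₀ → Ps g F p h ρ ≤
      (2 * 10 ^ n * ρ₀)⁻¹ * Ph g F p h (10 * ρ) := by
    intro ρ hρ hρ'
    have h1 := (hcon ρ hρ hρ').le
    have h2 : Ps g F p h ρ ≤ ∫ q in {q | dq F p q ≤ ρ ^ 2}, wt g F h q ∂vol g := by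
      rw [← integral_indicator (hmS _)]
      refine integral_mono (int_of hg hhc ((cz ρ).mul (cont_wt hg hF hh))
        fun q hq => by rw [wt_zero hq, mul_zero])
        ((int_wt hg hF hh hhc).indicator (hmS _)) fun q => ?_
      by_cases hq : dq F p q ≤ ρ ^ 2
      · rw [indicator_of_mem (show q ∈ {q | dq F p q ≤ ρ ^ 2} from hq)]
        exact mul_le_of_le_one_left (wt_nonneg h0 q) (ze_le_one _)
      · rw [indicator_of_notMem (show q ∉ {q | dq F p q ≤ ρ ^ 2} from hq)]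
        push Not at hq
        have : ze (dq F p q / ρ ^ 2) = 0 := ze_zero (by
          rw [le_div_iff₀ (by positivity)]; linarith)
        simp only [this, zero_mul, le_refl]
    have h3 : ∫ q in {q | dq F p q ≤ (5 * ρ) ^ 2}, h q ∂vol g ≤ Ph g F p h (10 * ρ) := by
      rw [← integral_indicator (hmS _)]
      refine integral_mono ((int_h hg hh hhc).indicator (hmS _))
        (int_hz hg hF hh hhc _) fun q => ?_
      by_cases hq : dq F p q ≤ (5 * ρ) ^ 2
      · rw [indicator_of_mem (show q ∈ {q | dq F p q ≤ (5 * ρ) ^ 2} from hq)]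
        have : ze (dq F p q / (10 * ρ) ^ 2) = 1 := ze_one (by
          rw [div_le_iff₀ (by positivity)]
          refine hq.trans (le_of_eq ?_)
          ring)
        simp only [this, mul_one, le_refl]
      · rw [indicator_of_notMem (show q ∉ {q | dq F p q ≤ (5 * ρ) ^ 2} from hq)]
        exact mul_nonneg (h0 q) (ze_nonneg _)
    rw [← div_eq_inv_mul, le_div_iff₀ (by positivity)]
    calc Ps g F p h ρ * (2 * 10 ^ n * ρ₀) = 2 * 10 ^ n * ρ₀ * Ps g F p h ρ := by ring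
      _ ≤ 2 * 10 ^ n * ρ₀ * ∫ q in {q | dq F p q ≤ ρ ^ 2}, wt g F h q ∂vol g := by gcongr
      _ ≤ _ := h1.trans h3
  set Ω : Set M := {q | 1 / 2 < h q} with hΩ
  have hΩo : IsOpen Ω := isOpen_lt continuous_const hhc'
  obtain ⟨s, hs0, hs1, hs⟩ := hden Ω hΩo (by
    change 1 / 2 < h q₀
    linarith) (ρ₀ / 2) (by positivity)
  have h1 := growth hg hF hh hhc h0 hi hρ₀ H (σ := 2 * s) (by positivity) (by linarith)
  have h2 : vol g (Ω ∩ {q | dq F p q < s ^ 2}) ≤ ENNReal.ofReal (2 * Ph g F p h (2 * s)) := by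
    have h3 : Integrable (fun q => 2 * (h q * ze (dq F p q / (2 * s) ^ 2))) (vol g) :=
      (int_hz hg hF hh hhc (2 * s)).const_mul 2
    have h4 : 2 * Ph g F p h (2 * s) = ∫ q, 2 * (h q * ze (dq F p q / (2 * s) ^ 2)) ∂vol g := by
      rw [integral_const_mul]; rfl
    rw [h4, ofReal_integral_eq_lintegral_ofReal h3 (ae_of_all _ fun q =>
      mul_nonneg zero_le_two (mul_nonneg (h0 q) (ze_nonneg _)))]
    have hms : MeasurableSet (Ω ∩ {q | dq F p q < s ^ 2}) :=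
      hΩo.measurableSet.inter (isOpen_lt hRc continuous_const).measurableSet
    calc vol g (Ω ∩ {q | dq F p q < s ^ 2}) = ∫⁻ _ in Ω ∩ {q | dq F p q < s ^ 2}, 1 ∂vol g := by
          rw [setLIntegral_const, one_mul]
      _ ≤ ∫⁻ q in Ω ∩ {q | dq F p q < s ^ 2},
          ENNReal.ofReal (2 * (h q * ze (dq F p q / (2 * s) ^ 2))) ∂vol g := by
          refine setLIntegral_mono' hms fun q hq => ?_
          have h5 : 1 / 2 < h q := hq.1
          have h6 : dq F p q < s ^ 2 := hq.2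
          have : ze (dq F p q / (2 * s) ^ 2) = 1 := ze_one (by
            rw [div_le_iff₀ (by positivity)]
            refine h6.le.trans (le_of_eq ?_)
            ring)
          rw [this, mul_one, ← ENNReal.ofReal_one]
          exact ENNReal.ofReal_le_ofReal (by linarith)
      _ ≤ _ := setLIntegral_le_lintegral _ _
  have hPh := Ph_nonneg (g := g) (F := F) (p := p) h0 (2 * s)
  have h3 : c' * s ^ n ≤ 2 * Ph g F p h (2 * s) :=
    (ENNReal.ofReal_le_ofReal_iff (by positivity)).1 (hs.trans h2)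
  rw [div_le_div_iff₀ (by positivity) (by positivity)] at h1
  set m := ∫ q, h q ∂vol g with hmd
  have h4 : c' * s ^ n * ρ₀ ^ n ≤ 2 * (2 * m * (2 * s) ^ n) := by
    calc c' * s ^ n * ρ₀ ^ n ≤ 2 * Ph g F p h (2 * s) * ρ₀ ^ n := by gcongr
      _ = 2 * (Ph g F p h (2 * s) * ρ₀ ^ n) := by ring
      _ ≤ _ := by linarith
  have h5 : 2 * (2 * m * (2 * s) ^ n) = 2 ^ (n + 2) * m * s ^ n := by
    rw [mul_pow, pow_add]; ring
  rw [h5] at h4
  have h6 : c' * s ^ n * ρ₀ ^ n = c' * ρ₀ ^ n * s ^ n := by ring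
  rw [h6] at h4
  have h7 := le_of_mul_le_mul_right h4 (by positivity)
  linarith

/-- the covering argument -/
theorem cover (hg : Met g)
    (hF : ∀ k, Smooth (F k)) (hh : Smooth h) (hhc : HasCompactSupport h)
    (h0 : ∀ q, 0 ≤ h q) (hi : ∀ q ∈ tsupport h, Iso g F q)
    {c' : ℝ} (hden : ∀ q₀ ∈ tsupport h, ∀ Ω : Set M, IsOpen Ω → q₀ ∈ Ω → ∀ η : ℝ, 0 < η →
      ∃ s, 0 < s ∧ s < η ∧
        ENNReal.ofReal (c' * s ^ n) ≤ vol g (Ω ∩ {q | dq F (fun k => F k q₀) q < s ^ 2}))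
    {ρ₀ : ℝ} (hρ₀ : 0 < ρ₀) (hm : 2 ^ (n + 2) * ∫ q, h q ∂vol g < c' * ρ₀ ^ n) :
    vol g {q | 1 ≤ h q} ≤ ENNReal.ofReal (2 * 10 ^ n * ρ₀) *
      ∫⁻ q, ENNReal.ofReal (wt g F h q) ∂vol g := by
  have hhc' := Smooth.cont hh
  set T : Set M := {q | 1 ≤ h q} with hT
  have hTm : MeasurableSet T := (isClosed_le continuous_const hhc').measurableSet
  have hTs : ∀ q ∈ T, q ∈ tsupport h := fun q hq => subset_tsupport h (by
    intro h'
    have : 1 ≤ h q := hq
    rw [h'] at this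
    linarith)
  have key : ∀ q ∈ T, ∃ ρ, 0 < ρ ∧ ρ ≤ ρ₀ ∧
      ∫ z in {z | dq F (fun k => F k q) z ≤ (5 * ρ) ^ 2}, h z ∂vol g ≤
      2 * 10 ^ n * ρ₀ * ∫ z in {z | dq F (fun k => F k q) z ≤ ρ ^ 2}, wt g F h z ∂vol g :=
    fun q hq => lem2 hg hF hh hhc h0 hi hq (hden q (hTs q hq)) hρ₀ hm
  choose! ρ hρ0 hρ1 hρ2 using key
  set Φ : M → EuclideanSpace ℝ ι := fun q => WithLp.toLp 2 (fun k => F k q) with hΦ
  have hball : ∀ (q : M) (r : ℝ), 0 ≤ r →
      Φ ⁻¹' Metric.closedBall (Φ q) r = {z | dq F (fun k => F k q) z ≤ r ^ 2} := by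
    intro q r hr
    ext z
    rw [mem_preimage, Metric.mem_closedBall, EuclideanSpace.dist_eq]
    simp only [mem_ofPred_eq, hΦ, dq, Real.dist_eq, sq_abs]
    exact ⟨fun h => by rwa [Real.sqrt_le_left hr] at h, fun h => by rwa [Real.sqrt_le_left hr]⟩
  obtain ⟨U, hUT, hUd, hUc⟩ := Vitali.exists_disjoint_subfamily_covering_enlargement_closedBall
    T Φ ρ ρ₀ hρ1 5 (by norm_num)
  have hUcount : U.Countable := hUd.countable_of_nonempty_interior fun q hq =>
    ⟨Φ q, Metric.ball_subset_interior_closedBall (Metric.mem_ball_self (hρ0 q (hUT hq)))⟩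
  set A : M → Set M := fun q => {z | dq F (fun k => F k q) z ≤ ρ q ^ 2} with hA
  set A' : M → Set M := fun q => {z | dq F (fun k => F k q) z ≤ (5 * ρ q) ^ 2} with hA'
  have hRc : ∀ q, Continuous (dq F (fun k => F k q)) := fun q =>
    Smooth.cont (sm_dq hF _)
  have hAm : ∀ q, MeasurableSet (A q) := fun q =>
    (isClosed_le (hRc q) continuous_const).measurableSet
  have hAm' : ∀ q, MeasurableSet (A' q) := fun q =>
    (isClosed_le (hRc q) continuous_const).measurableSet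
  have hcov : T ⊆ ⋃ q ∈ U, A' q := by
    intro z hz
    obtain ⟨b, hb, hzb⟩ := hUc z hz
    refine mem_biUnion hb ?_
    have h1 : z ∈ Φ ⁻¹' Metric.closedBall (Φ b) (5 * ρ b) :=
      hzb (Metric.mem_closedBall_self (hρ0 z hz).le)
    rwa [hball b _ (by have := hρ0 b (hUT hb); positivity)] at h1
  have hAd : U.PairwiseDisjoint A := by
    intro a ha b hb hab
    have h1 := (hUd ha hb hab).preimage Φ
    change Disjoint (A a) (A b)
    simp only [hA]
    rw [← hball a _ (hρ0 a (hUT ha)).le, ← hball b _ (hρ0 b (hUT hb)).le]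
    exact h1
  set ν₁ := (vol g).withDensity fun q => ENNReal.ofReal (h q) with hν₁
  set ν₂ := (vol g).withDensity fun q => ENNReal.ofReal (wt g F h q) with hν₂
  have hone : ∀ q ∈ U, ν₁ (A' q) ≤ ENNReal.ofReal (2 * 10 ^ n * ρ₀) * ν₂ (A q) := by
    intro q hq
    have h1 := hρ2 q (hUT hq)
    rw [hν₁, hν₂, withDensity_apply _ (hAm' q), withDensity_apply _ (hAm q),
      ← ofReal_integral_eq_lintegral_ofReal (int_h hg hh hhc).integrableOn
        (ae_of_all _ h0),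
      ← ofReal_integral_eq_lintegral_ofReal (int_wt hg hF hh hhc).integrableOn
        (ae_of_all _ (wt_nonneg h0)), ← ENNReal.ofReal_mul (by positivity)]
    exact ENNReal.ofReal_le_ofReal h1
  have hT1 : vol g T ≤ ν₁ T := by
    rw [hν₁, withDensity_apply _ hTm]
    calc vol g T = ∫⁻ _ in T, 1 ∂vol g := by rw [setLIntegral_const, one_mul]
      _ ≤ _ := setLIntegral_mono' hTm fun q hq => by
          rw [← ENNReal.ofReal_one]
          exact ENNReal.ofReal_le_ofReal hq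
  calc vol g T ≤ ν₁ T := hT1
    _ ≤ ν₁ (⋃ q ∈ U, A' q) := measure_mono hcov
    _ ≤ ∑' q : U, ν₁ (A' q) := measure_biUnion_le _ hUcount _
    _ ≤ ∑' q : U, ENNReal.ofReal (2 * 10 ^ n * ρ₀) * ν₂ (A q) :=
        ENNReal.tsum_le_tsum fun q => hone q q.2
    _ = ENNReal.ofReal (2 * 10 ^ n * ρ₀) * ∑' q : U, ν₂ (A q) := ENNReal.tsum_mul_left
    _ = ENNReal.ofReal (2 * 10 ^ n * ρ₀) * ν₂ (⋃ q ∈ U, A q) := by
        rw [measure_biUnion hUcount hAd fun q _ => hAm q]
    _ ≤ ENNReal.ofReal (2 * 10 ^ n * ρ₀) * ν₂ univ := by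
        gcongr
        exact subset_univ _
    _ = _ := by rw [hν₂, withDensity_apply _ MeasurableSet.univ, Measure.restrict_univ]

end Vale.Agent.P223T
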