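import Vale.Agent.P223T.Nor
import Vale.Agent.P223T.Ms

/-!
# P223T: the inequality of Sobolev for iterated graphs
-/

open MeasureTheory Filter Topology Set
open scoped ContDiff
open Vale.Agent.P366M Vale.Agent.P366M.Gr Vale.Agent.P366M.Y.C Vale.Agent.P366M.Y.C.GbH
open Vale.Agent.P210G Vale.Agent.P210T Vale.Agent.P210R Vale.Agent.P210D

noncomputable section

namespace Vale.Agent.P223T

variable {n : ℕ} {M : Type} [Mf0 n M] {g₀ g G : Fld n M} {Q : M → ℝ} {x : M}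

/-- comparison of integrals for two metrics -/
theorem int_le (hg : Met g) (hG : Met G) {f f' : M → ℝ} (hf : Integrable f (vol g))
    (hf' : Integrable f' (vol G)) (h : ∀ x, f x * √(mat g x).det ≤ f' x * √(mat G x).det) :
    ∫ x, f x ∂vol g ≤ ∫ x, f' x ∂vol G := by
  let : Mf n M := ⟨G, hG⟩
  rw [hg.integral_vol]
  refine integral_mono ((hg.integrable_vol f).1 hf) hf' fun x => ?_
  have h0 : 0 < √(mat G x).det := Real.sqrt_pos.2 (hG.det_pos x)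
  show f x * (√(mat g x).det / √(mat G x).det) ≤ f' x
  rw [← mul_div_assoc, div_le_iff₀ h0]
  exact h x

theorem sqrt_det_le (hg : Met g) (hG : Met G) {Λ : ℝ} (hΛ : 1 ≤ Λ)
    (h : ∀ ξ : Fin n → ℝ, ∑ i, ∑ j, g x i j * ξ i * ξ j ≤ Λ * ∑ i, ∑ j, G x i j * ξ i * ξ j) :
    √(mat g x).det ≤ Λ ^ n * √(mat G x).det := by
  have h1 := det_le (hg.pos x) (hG.pos x) (one_pos.trans_le hΛ) h
  have h2 : 1 ≤ Λ ^ n := one_le_pow₀ hΛ
  refine Real.sqrt_le_iff.2 ⟨by positivity, h1.trans ?_⟩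
  rw [mul_pow, Real.sq_sqrt (hG.det_pos x).le]
  exact mul_le_mul_of_nonneg_right (by nlinarith) (hG.det_pos x).le

theorem quad_sum {ι : Type} [Fintype ι] (F : ι → M → ℝ) (x : M) (ξ : Fin n → ℝ) :
    ∑ i, ∑ j, (∑ k, pd i (F k) x * pd j (F k) x) * ξ i * ξ j =
      ∑ k, (∑ i, pd i (F k) x * ξ i) ^ 2 := by
  simp only [sq, Finset.sum_mul_sum]
  simp only [Finset.sum_mul]
  symm
  rw [Finset.sum_comm]
  refine Finset.sum_congr rfl fun i _ => ?_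
  rw [Finset.sum_comm]
  exact Finset.sum_congr rfl fun _ _ => Finset.sum_congr rfl fun _ _ => by ring

theorem cs_pd (hg : Met g) (φ : M → ℝ) (x : M) (ξ : Fin n → ℝ) :
    (∑ i, pd i φ x * ξ i) ^ 2 ≤ ip g φ φ x * ∑ i, ∑ j, g x i j * ξ i * ξ j :=
  ev_cs hg (df φ) (fun i _ => ξ i) x

/-- the pointwise estimates -/
theorem pt_est {κ ι : Type} [Fintype κ] [Fintype ι] {Φ : κ → M → ℝ} {w : ι → M → ℝ} {Λ : ℝ}
    (hΛ : 1 ≤ Λ) (h₀ : Met g₀) (h : GI g₀ g Q) (ht : Tot g₀ g Q w) (hG : Met G)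
    (hF : ∀ k, Smooth (Sum.elim Φ w k)) (hi : ∀ᶠ y in 𝓝 x, Iso G (Sum.elim Φ w) y)
    (h1 : ∀ ξ : Fin n → ℝ,
      ∑ i, ∑ j, g₀ x i j * ξ i * ξ j ≤ Λ * ∑ k, (∑ i, pd i (Φ k) x * ξ i) ^ 2)
    (h2 : ∑ k, ip g₀ (Φ k) (Φ k) x ≤ Λ) (h3 : ∑ k, normSq g₀ (hess g₀ (Φ k)) x ≤ Λ) :
    √(mat g x).det ≤ Λ ^ n * √(mat G x).det ∧ √(mat G x).det ≤ Λ ^ n * √(mat g x).det ∧
      (∀ u, ip G u u x ≤ Λ * ip g u u x) ∧ hsq G (Sum.elim Φ w) x ≤ 2 * n * Λ ^ 3 * (1 + Q x) := by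
  have hg := h.met h₀
  have hΛ0 : 0 < Λ := one_pos.trans_le hΛ
  have a1 : ∀ ξ : Fin n → ℝ, ∑ i, ∑ j, G x i j * ξ i * ξ j =
      ∑ k, (∑ i, pd i (Φ k) x * ξ i) ^ 2 + ∑ k, (∑ i, pd i (w k) x * ξ i) ^ 2 := fun ξ => by
    simp only [← hi.self_of_nhds _ _, quad_sum]
    simp only [Fintype.sum_sum_type, Sum.elim_inl, Sum.elim_inr]
  have a2 : ∀ ξ : Fin n → ℝ, ∑ i, ∑ j, g x i j * ξ i * ξ j =
      ∑ i, ∑ j, g₀ x i j * ξ i * ξ j + ∑ k, (∑ i, pd i (w k) x * ξ i) ^ 2 := fun ξ => by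
    simp only [ht.eq, add_mul, Finset.sum_add_distrib, quad_sum]
  have a3 : ∀ ξ : Fin n → ℝ, ∑ k, (∑ i, pd i (Φ k) x * ξ i) ^ 2 ≤
      Λ * ∑ i, ∑ j, g₀ x i j * ξ i * ξ j := fun ξ => by
    refine (Finset.sum_le_sum fun k _ => cs_pd h₀ (Φ k) x ξ).trans ?_
    rw [← Finset.sum_mul]
    exact mul_le_mul_of_nonneg_right h2 (h₀.g_nonneg x ξ)
  have a4 : ∀ ξ : Fin n → ℝ, 0 ≤ (Λ - 1) * ∑ k, (∑ i, pd i (w k) x * ξ i) ^ 2 := fun ξ =>
    mul_nonneg (by linarith) (Finset.sum_nonneg fun _ _ => sq_nonneg _)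
  have b1 : ∀ ξ : Fin n → ℝ,
      ∑ i, ∑ j, g x i j * ξ i * ξ j ≤ Λ * ∑ i, ∑ j, G x i j * ξ i * ξ j := fun ξ => by
    rw [a1, a2]; linarith [h1 ξ, a4 ξ]
  have b2 : ∀ ξ : Fin n → ℝ,
      ∑ i, ∑ j, G x i j * ξ i * ξ j ≤ Λ * ∑ i, ∑ j, g x i j * ξ i * ξ j := fun ξ => by
    rw [a1, a2]; linarith [a3 ξ, a4 ξ]
  have hU := ul_inv (hg.pos x) (hG.pos x) hΛ0 b1
  refine ⟨sqrt_det_le hg hG hΛ b1, sqrt_det_le hG hg hΛ b2, fun u => ?_, ?_⟩
  · have := hU.2.dotProduct_mulVec_nonneg fun i => pd i u x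
    rw [star_trivial, Matrix.sub_mulVec, dotProduct_sub, Matrix.smul_mulVec, dotProduct_smul,
      quad_eq, quad_eq, smul_eq_mul, sub_nonneg, inv_mul_le_iff₀ hΛ0] at this
    exact this
  · set U := Λ⁻¹ • (mat G x)⁻¹ with hUd
    obtain ⟨D, d1, -, d3⟩ := ht.nor x U hU
    have c1 : ∀ φ, ct (mat G x)⁻¹ (hess g φ x) = Λ * ct U (hess g φ x) := fun A => by
      simp only [ct, hUd, Matrix.smul_apply, smul_eq_mul, Finset.mul_sum, ← mul_assoc,
        mul_inv_cancel₀ hΛ0.ne', one_mul]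
    have c2 : ∑ k, ct U (hess g₀ (Φ k) x) ^ 2 ≤ n * Λ := by
      refine (Finset.sum_le_sum fun k _ => (hU.trans (h.psd h₀ x)).ct_le _).trans ?_
      rw [← Finset.mul_sum]
      exact mul_le_mul_of_nonneg_left h3 n.cast_nonneg
    have c3 : ∑ k, ct U (hess g (Φ k) x) ^ 2 ≤
        2 * ∑ k, ct U (hess g₀ (Φ k) x) ^ 2 + 2 * ∑ k, (∑ e, pd e (Φ k) x * D e) ^ 2 := by
      rw [Finset.mul_sum, Finset.mul_sum, ← Finset.sum_add_distrib]
      refine Finset.sum_le_sum fun k _ => ?_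
      rw [d1]
      nlinarith [sq_nonneg (ct U (hess g₀ (Φ k) x) + ∑ e, pd e (Φ k) x * D e)]
    have c4 : 0 ≤ (2 * Λ - 1) * ∑ k, ct U (hess g (w k) x) ^ 2 :=
      mul_nonneg (by linarith) (Finset.sum_nonneg fun _ _ => sq_nonneg _)
    have c5 := mul_le_mul_of_nonneg_left d3 hΛ0.le
    refine (hsq_le hG hF hi g).trans ?_
    simp only [c1, mul_pow, ← Finset.mul_sum, Fintype.sum_sum_type, Sum.elim_inl, Sum.elim_inr]
    have c6 : ∑ k, ct U (hess g (Φ k) x) ^ 2 + ∑ k, ct U (hess g (w k) x) ^ 2 ≤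
        2 * n * Λ * (1 + Q x) := by nlinarith [a3 D]
    calc _ = Λ ^ 2 * (∑ k, ct U (hess g (Φ k) x) ^ 2 + ∑ k, ct U (hess g (w k) x) ^ 2) := by ring
      _ ≤ Λ ^ 2 * (2 * n * Λ * (1 + Q x)) := by gcongr
      _ = _ := by ring

/-- **the inequality of Sobolev for iterated graphs** -/
theorem sob_of_imm {n : ℕ} (hn : 3 ≤ n) (Λ : ℝ) : ∃ y : ℝ, 0 < y ∧ ∀ (M : Type) [Mf0 n M]
    (g₀ : Fld n M) (O : Set M), Met g₀ → IsOpen O → Imm g₀ Λ O → Sob g₀ y O := by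
  obtain ⟨y, hy, hms⟩ := ms hn
  have hn3 : (3 : ℝ) ≤ n := by exact_mod_cast hn
  set L := max Λ 1 with hL
  have hL1 : 1 ≤ L := le_max_right _ _
  have hΛL : Λ ≤ L := le_max_left _ _
  have hLn : 1 ≤ L ^ n := one_le_pow₀ hL1
  refine ⟨y / (L ^ n * (L ^ n * (2 * n * L ^ 3))), by positivity, ?_⟩
  intro M _ g₀ O h₀ hO hI g Q u h hQ hu hc hs
  have hg := h.met h₀
  obtain ⟨ι, _, w, ht⟩ := h.tot h₀
  obtain ⟨K, k1, k2, k3⟩ := exists_compact_between hc hO hs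
  obtain ⟨κ, _, Φ, hΦ, hK⟩ := hI K k1 k3
  obtain ⟨χ, x1, -, x2, x3, x4⟩ := exists_cut hc isOpen_interior k2
  have hF : ∀ k, Smooth (Sum.elim Φ w k) := fun k => by cases k; exacts [hΦ _, ht.sm _]
  set G : Fld n M := fun x i j => ∑ k, pd i (Sum.elim Φ w k) x * pd j (Sum.elim Φ w k) x +
    (1 - χ x) * g₀ x i j with hGd
  have hG : Met G := by
    have hsy : ∀ x i j, G x i j = G x j i := fun x i j => by
      simp only [hGd, h₀.sy x i j, mul_comm]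
    refine ⟨SmT.add (SmT.sum fun k _ => smT_dd (hF k) (hF k)) (SmT.smul (CD.sub cd_const x1) h₀.sm),
      hsy, fun x => ?_⟩
    refine Matrix.PosDef.of_dotProduct_mulVec_pos ?_ fun ξ hξ => ?_
    · ext i j
      exact hsy x j i
    have e : ∑ i, ∑ j, G x i j * ξ i * ξ j = ∑ k, (∑ i, pd i (Sum.elim Φ w k) x * ξ i) ^ 2 +
        (1 - χ x) * ∑ i, ∑ j, g₀ x i j * ξ i * ξ j := by
      simp only [hGd, add_mul, Finset.sum_add_distrib, quad_sum]
      simp only [Finset.mul_sum, mul_assoc]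
    rw [star_trivial, quad_eq]
    refine lt_of_lt_of_eq ?_ e.symm
    have p1 := h₀.g_pos x hξ
    have p2 : 0 ≤ ∑ k, (∑ i, pd i (w k) x * ξ i) ^ 2 := Finset.sum_nonneg fun _ _ => sq_nonneg _
    have p3 : 0 ≤ ∑ k, (∑ i, pd i (Φ k) x * ξ i) ^ 2 := Finset.sum_nonneg fun _ _ => sq_nonneg _
    simp only [Fintype.sum_sum_type, Sum.elim_inl, Sum.elim_inr]
    rcases (x3 x).2.eq_or_lt with h1 | h1
    · have p4 := (hK x (interior_subset (x2 (subset_tsupport _ (by simp [h1]))))).1 ξ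
      rcases p3.eq_or_lt with h2 | h2
      · rw [← h2] at p4; linarith
      · rw [h1]; linarith
    · nlinarith
  have hi : ∀ x ∈ tsupport u, ∀ᶠ y in 𝓝 x, Iso G (Sum.elim Φ w) y := fun x hx =>
    (x4 x hx).mono fun y hy i j => by simp only [hGd, hy, sub_self, zero_mul, add_zero]
  have key := fun x (hx : x ∈ tsupport u) => pt_est hL1 h₀ h ht hG hF (hi x hx)
    (fun ξ => ((hK x (interior_subset (k2 hx))).1 ξ).trans (mul_le_mul_of_nonneg_right hΛL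
      (Finset.sum_nonneg fun _ _ => sq_nonneg _)))
    ((hK x (interior_subset (k2 hx))).2.1.trans hΛL) ((hK x (interior_subset (k2 hx))).2.2.trans hΛL)
  have m := hms M _ G _ u hG hF hu hc fun x hx => (hi x hx).self_of_nhds
  set p : ℝ := 2 * (n : ℝ) / (n - 2) with hp
  set σ : ℝ := ((n : ℝ) - 2) / n with hσ
  have hp0 : 0 < p := div_pos (by linarith) (by linarith)
  have hσ0 : 0 < σ := div_pos (by linarith) (by linarith)
  have hσ1 : σ ≤ 1 := by rw [hσ, div_le_one (by linarith)]; linarith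
  have z : ∀ x ∉ tsupport u, |u x| ^ p = 0 := fun x hx => by
    rw [image_eq_zero_of_notMem_tsupport hx, abs_zero, Real.zero_rpow hp0.ne']
  have cp : Continuous fun x => |u x| ^ p := hu.cont.abs.rpow_const fun _ => Or.inr hp0.le
  have i1 : ∫ x, |u x| ^ p ∂vol g ≤ L ^ n * ∫ x, |u x| ^ p ∂vol G := by
    rw [← integral_const_mul]
    refine int_le hg hG (int_of hg hc cp z) ((int_of hG hc cp z).const_mul _) fun x => ?_
    by_cases hx : x ∈ tsupport u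
    · rw [mul_comm (L ^ n), mul_assoc]
      exact mul_le_mul_of_nonneg_left (key x hx).1 (by positivity)
    · simp [z x hx]
  have i2 : ∫ x, (ip G u u x + hsq G (Sum.elim Φ w) x * u x ^ 2) ∂vol G ≤
      L ^ n * (2 * n * L ^ 3) * ∫ x, (ip g u u x + (1 + Q x) * u x ^ 2) ∂vol g := by
    rw [← integral_const_mul]
    refine int_le hG hg (int_of hG hc ((hG.sm_ip hu hu).cont.add ((cont_hsq hG hF).mul
      (hu.cont.pow 2))) fun x hx => ?_) ((int_of hg hc ((hg.sm_ip hu hu).cont.add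
      ((continuous_const.add hQ).mul (hu.cont.pow 2))) fun x hx => ?_).const_mul _) fun x => ?_
    · simp [ip_zero hx, image_eq_zero_of_notMem_tsupport hx]
    · simp [ip_zero hx, image_eq_zero_of_notMem_tsupport hx]
    by_cases hx : x ∈ tsupport u
    · obtain ⟨-, q1, q2, q3⟩ := key x hx
      have q4 := hg.ip_nonneg u x
      have q5 := h.nonneg h₀ x
      have q6 : L ≤ 2 * n * L ^ 3 := (le_self_pow₀ hL1 (by norm_num)).trans
        (le_mul_of_one_le_left (by positivity) (by linarith))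
      calc _ ≤ (2 * n * L ^ 3 * ip g u u x + 2 * n * L ^ 3 * (1 + Q x) * u x ^ 2) *
            (L ^ n * √(mat g x).det) := by
            gcongr
            exact (q2 u).trans (mul_le_mul_of_nonneg_right q6 q4)
        _ = _ := by ring
    · simp [ip_zero hx, image_eq_zero_of_notMem_tsupport hx]
  have j0 : 0 ≤ ∫ x, |u x| ^ p ∂vol G := integral_nonneg fun x => by positivity
  have i3 : (∫ x, |u x| ^ p ∂vol g) ^ σ ≤ L ^ n * (∫ x, |u x| ^ p ∂vol G) ^ σ := by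
    refine (Real.rpow_le_rpow (integral_nonneg fun x => by positivity) i1 hσ0.le).trans ?_
    rw [Real.mul_rpow (by positivity) j0]
    exact mul_le_mul_of_nonneg_right (Real.rpow_le_self_of_one_le hLn hσ1) (by positivity)
  rw [div_mul_eq_mul_div, div_le_iff₀' (by positivity)]
  calc _ ≤ y * (L ^ n * (∫ x, |u x| ^ p ∂vol G) ^ σ) := by gcongr
    _ = L ^ n * (y * (∫ x, |u x| ^ p ∂vol G) ^ σ) := by ring
    _ ≤ _ := by
      rw [mul_assoc (L ^ n)]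
      exact mul_le_mul_of_nonneg_left (m.trans i2) (by positivity)

end Vale.Agent.P223T
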