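import Vale.Agent.P223T.Defs
import Vale.Agent.P223T.Mat
import Vale.Agent.P223T.Ms1

/-!
# P223T: the second fundamental form of the total graph
-/

open Filter Topology Set
open scoped ContDiff

noncomputable section

namespace Vale.Agent.P223T

section euclid

open Vale.Agent.P366.Stmt Vale.Agent.P366Z

variable {n : ℕ} {g : Field n} {ι : Type} [Fintype ι] {f : ι → E n → ℝ} {x : E n}

theorem orthE (hg : Met g) (hf : ∀ k, Smooth (f k))
    (h : g =ᶠ[𝓝 x] fun y i j => ∑ k, pd i (f k) y * pd j (f k) y) (i j l : Fin n) :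
    ∑ k, hess g (f k) x i j * pd l (f k) x = 0 := by
  have d : ∀ a b c, pd a (fun y => g y b c) x =
      ∑ k, (pd a (pd b (f k)) x * pd c (f k) x + pd b (f k) x * pd a (pd c (f k)) x) := by
    intro a b c
    rw [pd_congr (h := fun y => ∑ k, pd b (f k) y * pd c (f k) y) (h.mono fun y hy => by rw [hy]),
      pd_sum _ fun k _ => (((hf k).pd b).diff x).fun_mul (((hf k).pd c).diff x)]
    exact Finset.sum_congr rfl fun k _ => pd_mul (((hf k).pd b).diff x) (((hf k).pd c).diff x) a
  have e : ∑ k, hess g (f k) x i j * pd l (f k) x =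
      ∑ k, pd i (pd j (f k)) x * pd l (f k) x - ∑ m, g x l m * chr g m i j x := by
    simp only [hess, sub_mul, Finset.sum_sub_distrib, h.self_of_nhds, Finset.sum_mul]
    rw [Finset.sum_comm]
    congr 1
    exact Finset.sum_congr rfl fun _ _ => Finset.sum_congr rfl fun _ _ => by ring
  rw [e, hg.g_chr, d, d, d, ← Finset.sum_add_distrib, ← Finset.sum_sub_distrib, Finset.sum_div,
    ← Finset.sum_sub_distrib]
  refine Finset.sum_eq_zero fun k _ => ?_
  rw [pd_comm ((hf k).c2 x) j i, pd_comm ((hf k).c2 x) l i, pd_comm ((hf k).c2 x) l j]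
  ring

end euclid

open Vale.Agent.P366M Vale.Agent.P366M.Gr Vale.Agent.P366M.Y.C Vale.Agent.P366M.Y.C.GbH
open Vale.Agent.P210G Vale.Agent.P210T Vale.Agent.P210R Vale.Agent.P210D

variable {n : ℕ} {M : Type} [Mf0 n M] {g₀ g G : Fld n M} {Q : M → ℝ} {x : M}

/-- the second fundamental form of an isometric immersion is normal -/
theorem orth {ι : Type} [Fintype ι] {F : ι → M → ℝ} (hG : Met G) (hF : ∀ k, Smooth (F k))
    (h : ∀ᶠ y in 𝓝 x, Iso G F y) (i j l : Fin n) :
    ∑ k, hess G (F k) x i j * pd l (F k) x = 0 := by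
  have h1 : G =ᶠ[𝓝 x] fun y i j => ∑ k, pd i (F k) y * pd j (F k) y :=
    h.mono fun y hy => funext fun i => funext fun j => (hy i j).symm
  have h2 := rep_congr_pt h1
  rw [rep_sum Finset.univ (ch x) fun k y i j => pd i (F k) y * pd j (F k) y] at h2
  simp only [fun k => rep_prod (ch x) (fun i => pd i (F k)) fun i => pd i (F k),
    fun k => repC_pd (ch_mem x) (hF k).diff] at h2
  have h3 := orthE (hG.loc' x) (fun k => hF k _ (ch_mem x)) h2 i j l
  simp only [hess_pt] at h3
  exact h3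

/-- the mean curvature vector is the shortest trace -/
theorem hsq_le {ι : Type} [Fintype ι] {F : ι → M → ℝ} (hG : Met G) (hF : ∀ k, Smooth (F k))
    (h : ∀ᶠ y in 𝓝 x, Iso G F y) (g : Fld n M) :
    hsq G F x ≤ ∑ k, ct (mat G x)⁻¹ (hess g (F k) x) ^ 2 := by
  have e1 : ∀ k, lap G (F k) x = ct (mat G x)⁻¹ (hess G (F k) x) := fun k =>
    hG.lap_eq_tr ((hF k).c2 x)
  have e2 : ∀ l, ∑ k, lap G (F k) x * pd l (F k) x = 0 := fun l => by
    simp only [e1, ct, Finset.sum_mul, mul_assoc]
    rw [Finset.sum_comm]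
    refine Finset.sum_eq_zero fun i _ => ?_
    rw [Finset.sum_comm]
    refine Finset.sum_eq_zero fun j _ => ?_
    rw [← Finset.mul_sum, orth hG hF h, mul_zero]
  have e3 : ∀ k, lap G (F k) x = ct (mat G x)⁻¹ (hess g (F k) x) + ∑ l, (∑ i, ∑ j,
      (mat G x)⁻¹ i j * (chr g l i j x - chr G l i j x)) * pd l (F k) x := fun k => by
    rw [e1]
    simp only [ct, hess, Finset.sum_mul]
    rw [Finset.sum_comm (f := fun l i => ∑ j, _ * pd l (F k) x), ← Finset.sum_add_distrib]
    refine Finset.sum_congr rfl fun i _ => ?_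
    rw [Finset.sum_comm (f := fun l j => _ * pd l (F k) x), ← Finset.sum_add_distrib]
    refine Finset.sum_congr rfl fun j _ => ?_
    simp only [mul_sub, sub_mul, Finset.sum_sub_distrib, Finset.mul_sum, mul_assoc]
    ring
  have e4 : ∑ k, lap G (F k) x ^ 2 = ∑ k, lap G (F k) x * ct (mat G x)⁻¹ (hess g (F k) x) := by
    have : ∀ Z : Fin n → ℝ, ∑ k, lap G (F k) x * ∑ l, Z l * pd l (F k) x = 0 := fun Z => by
      simp only [Finset.mul_sum]
      rw [Finset.sum_comm]
      refine Finset.sum_eq_zero fun l _ => ?_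
      rw [Finset.sum_congr rfl fun k _ => mul_left_comm _ _ _, ← Finset.mul_sum, e2, mul_zero]
    rw [← add_zero (∑ k, lap G (F k) x * _), ← this fun l => ∑ i, ∑ j,
      (mat G x)⁻¹ i j * (chr g l i j x - chr G l i j x), ← Finset.sum_add_distrib]
    exact Finset.sum_congr rfl fun k _ => by rw [← mul_add, ← e3, sq]
  have e5 : 0 ≤ ∑ k, (lap G (F k) x - ct (mat G x)⁻¹ (hess g (F k) x)) ^ 2 :=
    Finset.sum_nonneg fun _ _ => sq_nonneg _
  simp only [sub_sq, Finset.sum_add_distrib, Finset.sum_sub_distrib, mul_assoc,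
    ← Finset.mul_sum] at e5
  unfold hsq
  linarith

theorem psd_gb (hg : Met g) (w : M → ℝ) (x : M) :
    ((mat g x)⁻¹ - (mat (gb g 1 w) x)⁻¹).PosSemidef := by
  have : (mat g x)⁻¹ - (mat (gb g 1 w) x)⁻¹ =
      Matrix.vecMulVec (fun i => nv g w i x) (star fun i => nv g w i x) := by
    ext i j
    have := up_g hg w i j x
    simp only [up] at this
    simp [Matrix.vecMulVec_apply, this]
  rw [this]
  exact Matrix.posSemidef_vecMulVec_self_star _

theorem GI.psd (h : GI g₀ g Q) (h₀ : Met g₀) (x : M) :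
    ((mat g₀ x)⁻¹ - (mat g x)⁻¹).PosSemidef := by
  induction h with
  | base => rw [sub_self]; exact Matrix.PosSemidef.zero
  | step h _ ih => simpa using ih.add (psd_gb (h.met h₀) _ x)
  | mono _ _ ih => exact ih

/-- the total graph -/
structure Tot (g₀ g : Fld n M) (Q : M → ℝ) {ι : Type} [Fintype ι] (w : ι → M → ℝ) : Prop where
  sm : ∀ k, Smooth (w k)
  eq : ∀ x i j, g x i j = g₀ x i j + ∑ k, pd i (w k) x * pd j (w k) x
  nor : ∀ x U, UL (mat g x)⁻¹ U → ∃ D : Fin n → ℝ,
    (∀ φ, ct U (hess g φ x) = ct U (hess g₀ φ x) - ∑ e, pd e φ x * D e) ∧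
    (∀ f, ∑ e, g₀ x f e * D e = ∑ k, ct U (hess g (w k) x) * pd f (w k) x) ∧
    ∑ e, ∑ f, g₀ x e f * D e * D f + ∑ k, ct U (hess g (w k) x) ^ 2 ≤ n * Q x

theorem Tot.step {ι : Type} [Fintype ι] {w : ι → M → ℝ} {w₁ : M → ℝ} (h : Tot g₀ g Q w)
    (h₀ : Met g₀) (hg : Met g) (hw : Smooth w₁) :
    Tot g₀ (gb g 1 w₁) (fun x => Q x + a2 g w₁ x) fun k : Option ι => k.elim w₁ w where
  sm k := by cases k; exacts [hw, h.sm _]
  eq x i j := by
    simp only [gb, h.eq, Fintype.sum_option, Option.elim, Pi.one_apply]; ring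
  nor x U hU := by
    obtain ⟨D, d1, d2, d3⟩ := h.nor x U (hU.trans (psd_gb hg w₁ x))
    set c := uu g w₁ x * ct U (hess g w₁ x) with hc
    have e1 : ∀ φ, ct U (hess (gb g 1 w₁) φ x) = ct U (hess g φ x) - c * dn g w₁ φ x := fun φ => by
      simp only [hc, ct, hess_gb hg hw, mul_sub, Finset.sum_sub_distrib, Finset.mul_sum,
        Finset.sum_mul]
      congr 1
      exact Finset.sum_congr rfl fun _ _ => Finset.sum_congr rfl fun _ _ => by ring
    have e2 : ct U (hess (gb g 1 w₁) w₁ x) = c * uu g w₁ x := by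
      rw [e1, hc]; linear_combination (-ct U (hess g w₁ x)) * uu_dn hg w₁ x
    have e3 : ∀ f, ∑ e, g₀ x f e * nv g w₁ e x + ∑ k, dn g w₁ (w k) x * pd f (w k) x =
        uu g w₁ x * pd f w₁ x := fun f => by
      have : ∑ e, g x f e * nv g w₁ e x = uu g w₁ x * pd f w₁ x := by
        simp only [nv, ← mul_div_assoc, ← Finset.sum_div]
        rw [g_gr hg, uu, div_eq_inv_mul]
      rw [← this]
      simp only [h.eq, add_mul, Finset.sum_add_distrib, dn_eq hg, Finset.sum_mul]
      rw [Finset.sum_comm]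
      congr 1
      exact Finset.sum_congr rfl fun _ _ => Finset.sum_congr rfl fun _ _ => by ring
    have e4 : ∑ f, (∑ e, g₀ x f e * nv g w₁ e x) * nv g w₁ f x + ∑ k, dn g w₁ (w k) x ^ 2 =
        1 - uu g w₁ x ^ 2 := by
      have : ∑ k, dn g w₁ (w k) x ^ 2 =
          ∑ f, (∑ k, dn g w₁ (w k) x * pd f (w k) x) * nv g w₁ f x := by
        simp only [Finset.sum_mul]
        rw [Finset.sum_comm]
        refine Finset.sum_congr rfl fun k _ => ?_
        rw [sq]
        nth_rw 2 [dn_eq hg]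
        rw [Finset.mul_sum]
        exact Finset.sum_congr rfl fun _ _ => by ring
      rw [this, ← Finset.sum_add_distrib, ← uu_dn hg, dn_eq hg, Finset.mul_sum]
      exact Finset.sum_congr rfl fun f _ => by rw [← add_mul, e3, mul_assoc]
    have e5 : ∑ f, (∑ e, g₀ x f e * D e) * nv g w₁ f x =
        ∑ k, ct U (hess g (w k) x) * dn g w₁ (w k) x := by
      simp only [d2, dn_eq hg, Finset.sum_mul, Finset.mul_sum]
      rw [Finset.sum_comm]
      exact Finset.sum_congr rfl fun _ _ => Finset.sum_congr rfl fun _ _ => by ring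
    have e6 : c ^ 2 ≤ n * a2 g w₁ x := by
      refine le_trans (le_of_eq ?_) (hU.ct_le fun i j => hess g w₁ x i j / ww g 1 w₁ x)
      simp only [hc, ct, uu, Finset.mul_sum]
      congr 1
      exact Finset.sum_congr rfl fun _ _ => Finset.sum_congr rfl fun _ _ => by ring
    refine ⟨fun e => D e + c * nv g w₁ e x, fun φ => ?_, fun f => ?_, ?_⟩
    · rw [e1, d1, dn_eq hg]
      simp only [mul_add, Finset.sum_add_distrib, Finset.mul_sum, mul_left_comm c]
      ring
    · simp only [Fintype.sum_option, Option.elim, e2]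
      simp only [e1, mul_add, sub_mul, Finset.sum_add_distrib, Finset.sum_sub_distrib, d2,
        mul_left_comm _ c, mul_assoc, ← Finset.mul_sum]
      linear_combination c * e3 f
    · have e7 : ∑ e, ∑ f, g₀ x e f * (D e + c * nv g w₁ e x) * (D f + c * nv g w₁ f x) =
          ∑ e, ∑ f, g₀ x e f * D e * D f + 2 * c * ∑ f, (∑ e, g₀ x f e * D e) * nv g w₁ f x +
            c ^ 2 * ∑ f, (∑ e, g₀ x f e * nv g w₁ e x) * nv g w₁ f x := by
        have : ∑ f, (∑ e, g₀ x f e * D e) * nv g w₁ f x =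
            ∑ e, ∑ f, g₀ x e f * D e * nv g w₁ f x := by
          simp only [Finset.sum_mul]
          rw [Finset.sum_comm]
          exact Finset.sum_congr rfl fun _ _ => Finset.sum_congr rfl fun _ _ => by rw [h₀.sy x]
        rw [mul_assoc, two_mul]
        nth_rw 1 [this]
        simp only [Finset.sum_mul, Finset.mul_sum, ← Finset.sum_add_distrib]
        exact Finset.sum_congr rfl fun _ _ => Finset.sum_congr rfl fun _ _ => by ring
      rw [e7, e5]
      simp only [Fintype.sum_option, Option.elim, e2]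
      simp only [e1, sub_sq, Finset.sum_add_distrib, Finset.sum_sub_distrib, mul_pow,
        mul_left_comm _ c, mul_assoc, ← Finset.mul_sum]
      have e8 := congrArg (c ^ 2 * ·) e4
      simp only [mul_add, mul_sub, mul_one] at e8
      simp only [mul_assoc] at d3
      linarith

theorem GI.tot (h : GI g₀ g Q) (h₀ : Met g₀) :
    ∃ (ι : Type) (_ : Fintype ι) (w : ι → M → ℝ), Tot g₀ g Q w := by
  induction h with
  | base => exact ⟨Empty, inferInstance, fun k => k.elim, fun k => k.elim, by simp,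
      fun x U _ => ⟨0, by simp, by simp, by simp⟩⟩
  | step h hw ih =>
    obtain ⟨ι, _, w, k⟩ := ih
    exact ⟨_, inferInstance, _, k.step h₀ (h.met h₀) hw⟩
  | mono _ hQ ih =>
    obtain ⟨ι, _, w, k⟩ := ih
    refine ⟨ι, inferInstance, w, k.sm, k.eq, fun x U hU => ?_⟩
    obtain ⟨D, d1, d2, d3⟩ := k.nor x U hU
    exact ⟨D, d1, d2, d3.trans (mul_le_mul_of_nonneg_left (hQ x) n.cast_nonneg)⟩

end Vale.Agent.P223T
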