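import Vale.Agent.P223.H850.Sqrt
import Mathlib.Analysis.SpecialFunctions.SmoothTransition
import Mathlib.Analysis.Calculus.Deriv.Abs
import Mathlib.Analysis.Calculus.Deriv.Slope
import Mathlib.Analysis.Calculus.Deriv.MeanValue
import Mathlib.Analysis.SpecialFunctions.Pow.NNReal
import Mathlib.Analysis.SpecificLimits.Basic

/-!
# P223T: elementary facts for the inequality of Michael and Simon (copied from the library P223)
-/

open scoped ContDiff Topology Matrix ENNReal NNReal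
open Set Filter

noncomputable section

namespace Vale.Agent.P223T

section alg
variable {n : ℕ} {ι : Type} [Fintype ι] {G : Matrix (Fin n) (Fin n) ℝ} {D : ι → Fin n → ℝ}

theorem ginv_symm (hG : G.PosDef) (i j : Fin n) : G⁻¹ i j = G⁻¹ j i := by
  have hs : (G⁻¹)ᵀ = G⁻¹ := by
    have := hG.inv.isHermitian
    simpa [Matrix.IsHermitian, Matrix.conjTranspose_eq_transpose_of_trivial] using this
  conv_lhs => rw [← hs]
  rfl

theorem g_ginv (hG : G.PosDef) (i j : Fin n) : ∑ k, G i k * G⁻¹ k j = if i = j then 1 else 0 := by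
  have h : G * G⁻¹ = 1 := Matrix.mul_nonsing_inv _ hG.det_pos.ne'.isUnit
  have := congrFun (congrFun h i) j
  rwa [Matrix.mul_apply, Matrix.one_apply] at this

theorem iso_trace (hG : G.PosDef) (h : ∀ i j, ∑ k, D k i * D k j = G i j) :
    ∑ k, ∑ i, ∑ j, G⁻¹ i j * D k i * D k j = n := by
  have e1 : ∑ k, ∑ i, ∑ j, G⁻¹ i j * D k i * D k j = ∑ i, ∑ j, G i j * G⁻¹ j i := by
    rw [Finset.sum_comm]
    refine Finset.sum_congr rfl fun i _ => ?_
    rw [Finset.sum_comm]
    refine Finset.sum_congr rfl fun j _ => ?_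
    rw [← h i j, Finset.sum_mul]
    refine Finset.sum_congr rfl fun k _ => ?_
    rw [ginv_symm hG i j]
    ring
  rw [e1]
  simp only [g_ginv hG]
  simp

theorem iso_bessel (hG : G.PosDef) (h : ∀ i j, ∑ k, D k i * D k j = G i j) (a : ι → ℝ) :
    ∑ i, ∑ j, G⁻¹ i j * (∑ k, a k * D k i) * (∑ k, a k * D k j) ≤ ∑ k, a k ^ 2 := by
  set v : Fin n → ℝ := fun i => ∑ k, a k * D k i with hv
  set z : Fin n → ℝ := fun i => ∑ j, G⁻¹ i j * v j with hz
  set b : ι → ℝ := fun k => ∑ i, D k i * z i with hb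
  have hs : ∑ i, ∑ j, G⁻¹ i j * v i * v j = ∑ i, v i * z i := by
    refine Finset.sum_congr rfl fun i _ => ?_
    simp only [hz]
    rw [Finset.mul_sum]
    exact Finset.sum_congr rfl fun j _ => by ring
  have hGz : ∀ i, ∑ j, G i j * z j = v i := by
    intro i
    simp only [hz, Finset.mul_sum]
    rw [Finset.sum_comm]
    have : ∀ j, ∑ k, G i k * (G⁻¹ k j * v j) = (if i = j then 1 else 0) * v j := by
      intro j
      rw [← g_ginv hG i j, Finset.sum_mul]
      exact Finset.sum_congr rfl fun k _ => by ring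
    simp only [this]
    simp
  have h1 : ∑ k, a k * b k = ∑ i, v i * z i := by
    simp only [hb, hv, Finset.mul_sum, Finset.sum_mul]
    rw [Finset.sum_comm]
    exact Finset.sum_congr rfl fun i _ => Finset.sum_congr rfl fun k _ => by ring
  have h2 : ∑ k, b k ^ 2 = ∑ i, v i * z i := by
    have e1 : ∀ k, b k ^ 2 = ∑ i, ∑ j, (D k i * D k j) * (z i * z j) := by
      intro k
      rw [sq]
      simp only [hb]
      rw [Finset.sum_mul_sum]
      exact Finset.sum_congr rfl fun i _ => Finset.sum_congr rfl fun j _ => by ring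
    simp only [e1]
    rw [Finset.sum_comm]
    refine Finset.sum_congr rfl fun i _ => ?_
    rw [Finset.sum_comm, ← hGz i, Finset.sum_mul]
    refine Finset.sum_congr rfl fun j _ => ?_
    rw [← Finset.sum_mul, h i j]
    ring
  have h3 : 0 ≤ ∑ k, (a k - b k) ^ 2 := Finset.sum_nonneg fun _ _ => sq_nonneg _
  have h4 : ∑ k, (a k - b k) ^ 2 = ∑ k, a k ^ 2 - 2 * ∑ k, a k * b k + ∑ k, b k ^ 2 := by
    rw [Finset.mul_sum, ← Finset.sum_sub_distrib, ← Finset.sum_add_distrib]
    exact Finset.sum_congr rfl fun k _ => by ring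
  rw [hs]
  rw [h4, h1, h2] at h3
  linarith

end alg

/-- a cut-off function -/
noncomputable def ze (s : ℝ) : ℝ := Real.smoothTransition (4 / 3 * (1 - s))

theorem ze_contDiff : ContDiff ℝ ∞ ze :=
  Real.smoothTransition.contDiff.comp (contDiff_const.mul (contDiff_const.sub contDiff_id))

theorem ze_nonneg (s : ℝ) : 0 ≤ ze s := Real.smoothTransition.nonneg _

theorem ze_le_one (s : ℝ) : ze s ≤ 1 := Real.smoothTransition.le_one _

theorem ze_one {s : ℝ} (h : s ≤ 1 / 4) : ze s = 1 :=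
  Real.smoothTransition.one_of_one_le (by linarith)

theorem ze_zero {s : ℝ} (h : 1 ≤ s) : ze s = 0 :=
  Real.smoothTransition.zero_of_nonpos (by linarith)

theorem ze_anti : Antitone ze := fun a b h => Real.smoothTransition.monotone (by linarith)

theorem ze_hasDeriv (s : ℝ) : HasDerivAt ze (deriv ze s) s :=
  (ze_contDiff.differentiable (by simp) s).hasDerivAt

theorem dze_nonpos (s : ℝ) : deriv ze s ≤ 0 := ze_anti.deriv_nonpos

theorem dze_cont : Continuous (deriv ze) := ze_contDiff.continuous_deriv (by simp)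

theorem dze_zero {s : ℝ} (h : 1 ≤ s) : deriv ze s = 0 := by
  have h1 : ∀ t, 1 < t → deriv ze t = 0 := by
    intro t ht
    have : ze =ᶠ[𝓝 t] fun _ => 0 := by
      filter_upwards [Ioi_mem_nhds ht] with z hz
      exact ze_zero (le_of_lt hz)
    rw [this.deriv_eq]; simp
  rcases h.eq_or_lt with h | h
  · have h2 : Tendsto (deriv ze) (𝓝[>] 1) (𝓝 (deriv ze 1)) :=
      dze_cont.continuousAt.continuousWithinAt
    have h3 : Tendsto (deriv ze) (𝓝[>] 1) (𝓝 0) := by
      refine tendsto_const_nhds.congr' ?_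
      filter_upwards [self_mem_nhdsWithin] with t ht
      exact (h1 t ht).symm
    rw [← h]
    exact tendsto_nhds_unique h2 h3
  · exact h1 s h

theorem dze_bound : ∃ B : ℝ, 0 < B ∧ ∀ s, 0 ≤ s → |deriv ze s| * s ≤ B := by
  obtain ⟨B, hB⟩ := isCompact_Icc.exists_bound_of_continuousOn (s := Icc (0 : ℝ) 1)
    (f := deriv ze) dze_cont.continuousOn
  refine ⟨max B 1, lt_max_of_lt_right one_pos, fun s hs => ?_⟩
  rcases le_or_gt s 1 with h | h
  · calc |deriv ze s| * s ≤ B * 1 :=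
        mul_le_mul (hB s ⟨hs, h⟩) h hs ((abs_nonneg _).trans (hB s ⟨hs, h⟩))
      _ ≤ max B 1 := by rw [mul_one]; exact le_max_left _ _
  · rw [dze_zero h.le]
    simp

/-- the derivative of the smooth step is bounded -/
theorem exists_bound : ∃ B : ℝ, 0 < B ∧ ∀ x, |deriv Real.smoothTransition x| ≤ B := by
  have hcd : ContDiff ℝ ∞ Real.smoothTransition := Real.smoothTransition.contDiff
  have hc : Continuous (deriv Real.smoothTransition) := hcd.continuous_deriv (by simp)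
  obtain ⟨B, hB⟩ := (isCompact_Icc (a := (0 : ℝ)) (b := 1)).exists_bound_of_continuousOn
    hc.continuousOn
  refine ⟨max B 1, lt_max_of_lt_right one_pos, fun x => ?_⟩
  by_cases hx : x ∈ Icc (0 : ℝ) 1
  · exact (hB x hx).trans (le_max_left _ _)
  · have h0 : deriv Real.smoothTransition x = 0 := by
      rw [mem_Icc, not_and_or, not_le, not_le] at hx
      rcases hx with hx | hx
      · have h1 : Real.smoothTransition =ᶠ[𝓝 x] fun _ => 0 := by
          filter_upwards [Iio_mem_nhds hx] with y hy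
          exact Real.smoothTransition.zero_of_nonpos (le_of_lt hy)
        rw [h1.deriv_eq, deriv_const]
      · have h1 : Real.smoothTransition =ᶠ[𝓝 x] fun _ => 1 := by
          filter_upwards [Ioi_mem_nhds hx] with y hy
          exact Real.smoothTransition.one_of_one_le (le_of_lt hy)
        rw [h1.deriv_eq, deriv_const]
    rw [h0, abs_zero]
    exact le_max_of_le_right zero_le_one

/-- the level function -/
noncomputable def lev (t ε : ℝ) (x : ℝ) : ℝ := Real.smoothTransition ((|x| - t) / ε)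

theorem lev_nonneg (t ε x : ℝ) : 0 ≤ lev t ε x := Real.smoothTransition.nonneg _

theorem lev_le (t ε x : ℝ) : lev t ε x ≤ 1 := Real.smoothTransition.le_one _

theorem lev_zero {t ε x : ℝ} (hε : 0 < ε) (hx : |x| ≤ t) : lev t ε x = 0 :=
  Real.smoothTransition.zero_of_nonpos (div_nonpos_of_nonpos_of_nonneg (by linarith) hε.le)

theorem lev_one {t ε x : ℝ} (hε : 0 < ε) (hx : t + ε ≤ |x|) : lev t ε x = 1 :=
  Real.smoothTransition.one_of_one_le ((one_le_div hε).2 (by linarith))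

theorem lev_smooth {t ε : ℝ} (ht : 0 < t) (hε : 0 < ε) : ContDiff ℝ ∞ (lev t ε) := by
  refine contDiff_iff_contDiffAt.2 fun x => ?_
  rcases eq_or_ne x 0 with rfl | hx
  · have h1 : lev t ε =ᶠ[𝓝 0] fun _ => 0 := by
      have h2 : ∀ᶠ y : ℝ in 𝓝 0, |y| < t :=
        (continuous_abs.tendsto 0).eventually_lt_const (by rwa [abs_zero])
      filter_upwards [h2] with y hy
      exact lev_zero hε hy.le
    exact contDiffAt_const.congr_of_eventuallyEq h1
  · have h1 : ContDiffAt ℝ ∞ (fun y : ℝ => (|y| - t) / ε) x :=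
      ((contDiffAt_abs hx).sub contDiffAt_const).div_const _
    exact (Real.smoothTransition.contDiff (n := ⊤)).contDiffAt.comp x h1

theorem lev_deriv {t ε : ℝ} (ht : 0 < t) (hε : 0 < ε) {B : ℝ}
    (hB : ∀ x, |deriv Real.smoothTransition x| ≤ B) (x : ℝ) :
    |deriv (lev t ε) x| ≤ B / ε ∧ (¬ (t < |x| ∧ |x| ≤ t + ε) → deriv (lev t ε) x = 0) := by
  have hB0 : 0 ≤ B := (abs_nonneg _).trans (hB 0)
  have hz : |x| ≤ t → deriv (lev t ε) x = 0 := fun h => by
    refine IsLocalMin.deriv_eq_zero (Filter.Eventually.of_forall fun y => ?_)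
    rw [lev_zero hε h]
    exact lev_nonneg _ _ _
  have ho : t + ε ≤ |x| → deriv (lev t ε) x = 0 := fun h => by
    refine IsLocalMax.deriv_eq_zero (Filter.Eventually.of_forall fun y => ?_)
    rw [lev_one hε h]
    exact lev_le _ _ _
  refine ⟨?_, fun h => ?_⟩
  · rcases le_or_gt |x| t with h | h
    · rw [hz h, abs_zero]; positivity
    · have hx : x ≠ 0 := fun h0 => by rw [h0, abs_zero] at h; linarith
      have h1 : HasDerivAt (fun y : ℝ => (|y| - t) / ε) ((SignType.sign x : ℝ) / ε) x :=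
        ((hasDerivAt_abs hx).sub_const t).div_const ε
      have h2 : HasDerivAt Real.smoothTransition (deriv Real.smoothTransition ((|x| - t) / ε))
          ((|x| - t) / ε) :=
        ((Real.smoothTransition.contDiff (n := ⊤)).differentiable (by simp) _).hasDerivAt
      have h3 : HasDerivAt (lev t ε) (deriv Real.smoothTransition ((|x| - t) / ε) *
          ((SignType.sign x : ℝ) / ε)) x := h2.comp x h1
      rw [h3.deriv, abs_mul, abs_div, abs_of_pos hε]
      have h4 : |(SignType.sign x : ℝ)| ≤ 1 := by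
        rcases lt_trichotomy x 0 with h | h | h
        · simp [sign_neg h]
        · exact absurd h hx
        · simp [sign_pos h]
      calc |deriv Real.smoothTransition ((|x| - t) / ε)| * (|(SignType.sign x : ℝ)| / ε)
          ≤ B * (1 / ε) := by
            gcongr
            exact hB _
        _ = B / ε := by ring
  · by_cases h1 : t < |x|
    · exact ho (le_of_not_ge fun h2 => h ⟨h1, h2⟩)
    · exact hz (not_lt.1 h1)

/-- `∑ xⱼ^q ≤ (∑ xⱼ)^q` -/
theorem tsum_rpow_le {q : ℝ} (hq : 1 ≤ q) (x : ℕ → ℝ≥0∞) :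
    ∑' j, x j ^ q ≤ (∑' j, x j) ^ q := by
  set T := ∑' j, x j with hT
  have h1 : ∀ j, x j ^ q ≤ x j * T ^ (q - 1) := fun j => by
    have h2 : x j ^ q = x j * x j ^ (q - 1) := by
      conv_lhs => rw [show q = 1 + (q - 1) by ring,
        ENNReal.rpow_add_of_nonneg _ _ zero_le_one (by linarith), ENNReal.rpow_one]
    rw [h2]
    have h3 : x j ^ (q - 1) ≤ T ^ (q - 1) :=
      ENNReal.rpow_le_rpow (ENNReal.le_tsum j) (by linarith)
    gcongr
  calc ∑' j, x j ^ q ≤ ∑' j, x j * T ^ (q - 1) := ENNReal.tsum_le_tsum h1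
    _ = T * T ^ (q - 1) := ENNReal.tsum_mul_right
    _ = T ^ q := by
      conv_rhs => rw [show q = 1 + (q - 1) by ring,
        ENNReal.rpow_add_of_nonneg _ _ zero_le_one (by linarith), ENNReal.rpow_one]

theorem sum_lemma {σ : ℝ} (hσ0 : 0 < σ) (hσ1 : σ ≤ 1) (b G : ℕ → ℝ≥0∞) (hS : ∑' j, b j ≠ ⊤)
    (h : ∀ j, b j ≤ 2⁻¹ * b (j + 1) + G j ^ (1 / σ)) : (∑' j, b j) ^ σ ≤ 2 * ∑' j, G j := by
  set S := ∑' j, b j with hSd
  have h1 : S ≤ 2⁻¹ * S + (∑' j, G j) ^ (1 / σ) := by
    calc S ≤ ∑' j, (2⁻¹ * b (j + 1) + G j ^ (1 / σ)) := ENNReal.tsum_le_tsum h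
      _ = 2⁻¹ * ∑' j, b (j + 1) + ∑' j, G j ^ (1 / σ) := by
          rw [ENNReal.tsum_add, ENNReal.tsum_mul_left]
      _ ≤ 2⁻¹ * S + (∑' j, G j) ^ (1 / σ) := by
          gcongr
          · exact ENNReal.tsum_comp_le_tsum_of_injective (add_left_injective 1) b
          · exact tsum_rpow_le (by rw [le_div_iff₀ hσ0]; linarith) G
  have h2 : S ≤ 2 * (∑' j, G j) ^ (1 / σ) := by
    have h3 : S = (2 : ℝ≥0∞)⁻¹ * S + (2 : ℝ≥0∞)⁻¹ * S := by
      rw [← add_mul, ENNReal.inv_two_add_inv_two, one_mul]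
    have h4 : 2⁻¹ * S ≤ (∑' j, G j) ^ (1 / σ) := by
      have h5 : 2⁻¹ * S ≠ ⊤ := ENNReal.mul_ne_top (by simp) hS
      refine (ENNReal.add_le_add_iff_left h5).1 ?_
      rw [← h3]
      exact h1
    calc S = 2 * (2⁻¹ * S) := by
          rw [← mul_assoc, ENNReal.mul_inv_cancel two_ne_zero ENNReal.ofNat_ne_top, one_mul]
      _ ≤ _ := by gcongr
  calc S ^ σ ≤ (2 * (∑' j, G j) ^ (1 / σ)) ^ σ := by gcongr
    _ = 2 ^ σ * ∑' j, G j := by
        rw [ENNReal.mul_rpow_of_nonneg _ _ hσ0.le, ← ENNReal.rpow_mul, one_div,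
          inv_mul_cancel₀ hσ0.ne', ENNReal.rpow_one]
    _ ≤ 2 ^ (1 : ℝ) * ∑' j, G j := by
        gcongr
        norm_num
    _ = _ := by rw [ENNReal.rpow_one]

/-- sum over the levels, for a number `a` between `0` and `T` -/
theorem lvl {T a : ℝ} (ha : 0 < a) (haT : a ≤ T) :
    ∃ j₀ : ℕ, T / 2 ^ j₀ / 2 < a ∧ a ≤ T / 2 ^ j₀ ∧ ∀ j, j < j₀ → a ≤ T / 2 ^ j / 2 := by
  have hT : 0 < T := ha.trans_le haT
  have hex : ∃ j : ℕ, T / 2 ^ j / 2 < a := by
    obtain ⟨j, hj⟩ := pow_unbounded_of_one_lt (T / a) (show (1 : ℝ) < 2 by norm_num)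
    refine ⟨j, ?_⟩
    rw [div_lt_iff₀ ha] at hj
    rw [div_div, div_lt_iff₀ (by positivity)]
    nlinarith [pow_pos (show (0 : ℝ) < 2 by norm_num) j]
  classical
  refine ⟨Nat.find hex, Nat.find_spec hex, ?_, fun j hj => not_lt.1 (Nat.find_min hex hj)⟩
  rcases Nat.eq_zero_or_pos (Nat.find hex) with h | h
  · rw [h]; simpa using haT
  · obtain ⟨m, hm⟩ : ∃ m, Nat.find hex = m + 1 := ⟨Nat.find hex - 1, by omega⟩
    have h1 := not_lt.1 (Nat.find_min hex (m := m) (by omega))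
    rw [hm, pow_succ, ← div_div]
    exact h1

theorem tsum_shift (f : ℕ → ℝ≥0∞) (j₀ : ℕ) (h : ∀ j, j < j₀ → f j = 0) (A : ℝ≥0∞)
    (h' : ∀ i, f (i + j₀) ≤ A * 2⁻¹ ^ i) : ∑' j, f j ≤ A * 2 := by
  have h1 : ∑' j, f j = ∑' i, f (i + j₀) := by
    have h2 := (ENNReal.summable (f := fun i => f (i + j₀))).sum_add_tsum_nat_add'
    rw [← h2, Finset.sum_eq_zero fun j hj => h j (Finset.mem_range.1 hj), zero_add]
  rw [h1]
  calc ∑' i, f (i + j₀) ≤ ∑' i, A * 2⁻¹ ^ i := ENNReal.tsum_le_tsum h'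
    _ = A * 2 := by
      rw [ENNReal.tsum_mul_left, ENNReal.tsum_geometric]
      congr 1
      rw [ENNReal.one_sub_inv_two, inv_inv]
/-- the powers of `a` and the levels below `a` -/
theorem ptA {T a p : ℝ} (ha : 0 ≤ a) (haT : a ≤ T) (hp0 : 0 < p) (hp6 : p ≤ 6) :
    ENNReal.ofReal (a ^ p) ≤ 64 * ∑' j : ℕ,
      ENNReal.ofReal ((T / 2 ^ j) ^ p) * (if T / 2 ^ j < a then 1 else 0) := by
  rcases ha.eq_or_lt with rfl | ha
  · rw [Real.zero_rpow hp0.ne', ENNReal.ofReal_zero]; exact zero_le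
  obtain ⟨j₀, h1, h2, -⟩ := lvl ha haT
  have hT : 0 < T := ha.trans_le haT
  have h3 : T / 2 ^ (j₀ + 1) = T / 2 ^ j₀ / 2 := by rw [pow_succ, div_div]
  refine le_trans ?_ (mul_le_mul_right (ENNReal.le_tsum (j₀ + 1)) 64)
  rw [if_pos (by rw [h3]; exact h1), mul_one]
  calc ENNReal.ofReal (a ^ p) ≤ ENNReal.ofReal (64 * (T / 2 ^ (j₀ + 1)) ^ p) := by
        refine ENNReal.ofReal_le_ofReal ?_
        calc a ^ p ≤ (2 * (T / 2 ^ (j₀ + 1))) ^ p :=
              Real.rpow_le_rpow ha.le (by rw [h3]; linarith) hp0.le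
          _ = 2 ^ p * (T / 2 ^ (j₀ + 1)) ^ p := Real.mul_rpow zero_le_two (by positivity)
          _ ≤ 2 ^ (6 : ℝ) * (T / 2 ^ (j₀ + 1)) ^ p := by
              gcongr
              norm_num
          _ = 64 * (T / 2 ^ (j₀ + 1)) ^ p := by norm_num
    _ = 64 * ENNReal.ofReal ((T / 2 ^ (j₀ + 1)) ^ p) := by
        rw [ENNReal.ofReal_mul (by norm_num)]
        norm_num

/-- the terms of the sum over the levels -/
noncomputable def trm (T a G W₁ W₂ : ℝ) (j : ℕ) : ℝ :=
  (T / 2 ^ j) ^ 2 * ((if T / 2 ^ j / 2 < a ∧ a ≤ T / 2 ^ j then G / (T / 2 ^ j) ^ 2 else 0) +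
    (if T / 2 ^ j / 2 < a then W₁ else 0) + (if T / 2 ^ j < a then W₂ else 0))

theorem ptB {T a G W₁ W₂ : ℝ} (ha : 0 ≤ a) (haT : a ≤ T) (hT : 0 < T) (hG : 0 ≤ G)
    (hW₁ : 0 ≤ W₁) (hW₂ : 0 ≤ W₂) :
    ∑' j : ℕ, ENNReal.ofReal (trm T a G W₁ W₂ j) ≤
      ENNReal.ofReal (8 * (G + (W₁ + W₂) * a ^ 2)) := by
  have ht : ∀ j : ℕ, 0 < T / 2 ^ j := fun j => by positivity
  rcases ha.eq_or_lt with rfl | ha
  · have h1 : ∀ j, trm T 0 G W₁ W₂ j = 0 := fun j => by
      have := ht j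
      unfold trm
      rw [if_neg (fun h => by linarith [h.1]), if_neg (by linarith), if_neg (by linarith)]
      ring
    simp only [h1, ENNReal.ofReal_zero, tsum_zero]
    exact zero_le
  obtain ⟨j₀, h1, h2, h3⟩ := lvl ha haT
  have h4 := tsum_shift (fun j => ENNReal.ofReal (trm T a G W₁ W₂ j)) j₀ (fun j hj => by
    have h5 := h3 j hj
    have h6 := ht j
    unfold trm
    rw [if_neg (fun h => by linarith [h.1]), if_neg (by linarith), if_neg (by linarith)]
    simp) (ENNReal.ofReal (G + 4 * (W₁ + W₂) * a ^ 2)) (fun i => by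
    have h5 : T / 2 ^ (i + j₀) = T / 2 ^ j₀ / 2 ^ i := by rw [pow_add]; field_simp
    have h6 : (2⁻¹ : ℝ≥0∞) ^ i = ENNReal.ofReal (1 / 2 ^ i) := by
      rw [one_div, ENNReal.ofReal_inv_of_pos (by positivity), ENNReal.ofReal_pow zero_le_two,
        ENNReal.inv_pow]
      norm_num
    rw [h6, ← ENNReal.ofReal_mul (by positivity)]
    refine ENNReal.ofReal_le_ofReal ?_
    unfold trm
    set t := T / 2 ^ (i + j₀) with htd
    have ht0 : 0 < t := ht _
    have h7 : t ^ 2 ≤ 4 * a ^ 2 * (1 / 2 ^ i) := by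
      have h8 : t ≤ 2 * a * (1 / 2 ^ i) := by
        rw [h5, mul_one_div]
        gcongr
        linarith
      have h9 : t ≤ 2 * a := by
        refine h8.trans (mul_le_of_le_one_right (by positivity) ?_)
        rw [div_le_one (by positivity)]
        exact one_le_pow₀ one_le_two
      calc t ^ 2 = t * t := sq t
        _ ≤ 2 * a * (2 * a * (1 / 2 ^ i)) := by gcongr
        _ = 4 * a ^ 2 * (1 / 2 ^ i) := by ring
    have h8 : t ^ 2 * (if t / 2 < a ∧ a ≤ t then G / t ^ 2 else 0) ≤ G * (1 / 2 ^ i) := by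
      rcases Nat.eq_zero_or_pos i with rfl | hi
      · rw [pow_zero, div_one, mul_one]
        split_ifs
        · rw [mul_div_cancel₀ _ (by positivity)]
        · rw [mul_zero]; exact hG
      · have h9 : t < a := by
          rw [h5]
          have h10 : (2 : ℝ) ^ 1 ≤ 2 ^ i := pow_le_pow_right₀ one_le_two hi
          rw [pow_one] at h10
          calc T / 2 ^ j₀ / 2 ^ i ≤ T / 2 ^ j₀ / 2 := by
                have := ht j₀
                gcongr
            _ < a := h1
        rw [if_neg (fun h => by linarith [h.2]), mul_zero]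
        positivity
    have h9 : t ^ 2 * (if t / 2 < a then W₁ else 0) ≤ 4 * a ^ 2 * (1 / 2 ^ i) * W₁ := by
      split_ifs
      · gcongr
      · rw [mul_zero]; positivity
    have h10 : t ^ 2 * (if t < a then W₂ else 0) ≤ 4 * a ^ 2 * (1 / 2 ^ i) * W₂ := by
      split_ifs
      · gcongr
      · rw [mul_zero]; positivity
    rw [mul_add, mul_add]
    calc _ ≤ G * (1 / 2 ^ i) + 4 * a ^ 2 * (1 / 2 ^ i) * W₁ + 4 * a ^ 2 * (1 / 2 ^ i) * W₂ :=
          add_le_add (add_le_add h8 h9) h10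
      _ = _ := by ring)
  refine h4.trans ?_
  have h5 : (2 : ℝ≥0∞) = ENNReal.ofReal 2 := by norm_num
  rw [h5, ← ENNReal.ofReal_mul (by positivity)]
  refine ENNReal.ofReal_le_ofReal ?_
  have h6 : 0 ≤ (W₁ + W₂) * a ^ 2 := by positivity
  linarith


end Vale.Agent.P223T
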